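import Vale.Agent.P354F2.Parts

/-!
The segments of the rays and the core of a region.
-/

open scoped ContDiff
open Set Filter Topology

noncomputable section

namespace Vale.Agent.P354RI

open Vale.Agent.P354XG (E6)
open Vale.Agent.P354XO (Om)
open Vale.Agent.P354Z (Cs Est uu An Cone)
open Vale.Agent.P354F2 (be rp Seg core)
open Vale.Agent.P354CQ

variable {M R u s t : ℝ} {O : Set E6} {x y : E6}

theorem be_sm (R : ℝ) : ContDiff ℝ ∞ (be R) :=
  contDiff_const.add ((contDiff_id.neg.sub contDiff_const).mul (Real.smoothTransition.contDiff.comp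
    (contDiff_const.mul (contDiff_id.neg.sub contDiff_const))))

theorem be_late (h : -R ≤ u) : be R u = R := by
  rw [be, Real.smoothTransition.zero_of_nonpos (by linarith), mul_zero, add_zero]

theorem be_early (h : u ≤ -R - 1 / 4) : be R u = -u := by
  rw [be, Real.smoothTransition.one_of_one_le (by linarith)]; ring

theorem be_mid (h : u ≤ -R) : R ≤ be R u ∧ be R u ≤ -u := by
  have h0 := Real.smoothTransition.nonneg (4 * (-u - R))
  have h1 := Real.smoothTransition.le_one (4 * (-u - R))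
  rw [be]
  constructor <;> nlinarith

theorem be_ge (R u : ℝ) : R ≤ be R u :=
  (le_total u (-R)).elim (fun h => (be_mid h).1) fun h => (be_late h).ge

theorem be_le (R u : ℝ) : be R u ≤ max R (-u) := (le_total u (-R)).elim
  (fun h => (be_mid h).2.trans (le_max_right _ _)) fun h => (be_late h).trans_le (le_max_left _ _)

theorem be_low (R u : ℝ) : -u - 1 / 4 ≤ be R u := by
  rcases le_total u (-R - 1 / 4) with h | h
  · linarith [be_early h]
  · linarith [be_ge R u]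

theorem uu_rp (M s : ℝ) (x : E6) : uu M (rp M s x) = uu M x := by simp [uu, rp]
theorem rp_self (M : ℝ) (x : E6) : rp M x.2.1 x = x := by simp [uu, rp]
theorem rp_rp (M s t : ℝ) (x : E6) : rp M s (rp M t x) = rp M s x := by rw [rp, uu_rp]; rfl

theorem seg_self (M R : ℝ) (x : E6) : x ∈ Seg M R x := ⟨_, right_mem_uIcc, rp_self M x⟩
theorem seg_anc (M R : ℝ) (x : E6) : rp M (be R (uu M x)) x ∈ Seg M R x := ⟨_, left_mem_uIcc, rfl⟩

theorem seg_uu (h : y ∈ Seg M R x) : uu M y = uu M x ∧ y.2.2 = x.2.2 ∧ rp M y.2.1 x = y := by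
  obtain ⟨s, -, rfl⟩ := h
  exact ⟨uu_rp M s x, rfl, rfl⟩

theorem seg_sub (h : y ∈ Seg M R x) : Seg M R y ⊆ Seg M R x := by
  obtain ⟨s, hs, rfl⟩ := h
  rintro _ ⟨t, ht, rfl⟩
  rw [uu_rp] at ht
  exact ⟨t, uIcc_subset_uIcc_left hs ht, (rp_rp M t s x).symm⟩

/-- The anchor of a far point is below it. -/
theorem be_fa (r : R ≤ x.2.1) (b : 0 ≤ uu M x + x.2.1) : be R (uu M x) ≤ x.2.1 :=
  (be_le _ _).trans (max_le r (by linarith))

/-- The segment of a far point. -/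
theorem seg_fa (r : R ≤ x.2.1) (b : 0 ≤ uu M x + x.2.1) (h : y ∈ Seg M R x) :
    be R (uu M x) ≤ y.2.1 ∧ R ≤ y.2.1 ∧ y.2.1 ≤ x.2.1 ∧ -(1 / 4) ≤ uu M y + y.2.1 ∧
      (uu M x ≤ -R - 1 / 4 → 0 ≤ uu M y + y.2.1) := by
  obtain ⟨s, hs, rfl⟩ := h
  rw [uIcc_of_le (be_fa r b)] at hs
  rw [uu_rp]
  exact ⟨hs.1, (be_ge _ _).trans hs.1, hs.2, show _ ≤ _ + s by linarith [be_low R (uu M x), hs.1],
    fun k => show _ ≤ _ + s by linarith [be_early k, hs.1]⟩

/-- The segment of a point of the layer. -/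
theorem seg_lay (R1 : 1 ≤ R) (r : 2 * R ≤ x.2.1) (b : 0 ≤ uu M x + x.2.1)
    (l : uu M x + x.2.1 ≤ x.2.1 / 10) : be R (uu M x) = -uu M x ∧ ∀ y ∈ Seg M R x,
      9 / 10 * x.2.1 ≤ y.2.1 ∧ y.2.1 ≤ x.2.1 ∧ 0 ≤ uu M y + y.2.1 ∧
        uu M y + y.2.1 ≤ uu M x + x.2.1 := by
  have k : uu M x ≤ -R - 1 / 4 := by linarith
  refine ⟨be_early k, fun y h => ?_⟩
  obtain ⟨h1, -, h2, -, h3⟩ := seg_fa (by linarith) b h
  rw [be_early k] at h1
  exact ⟨by linarith, h2, h3 k, by linarith [(seg_uu h).1]⟩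

theorem core_sub : core M R O ⊆ O := fun x h => h (seg_self M R x)
theorem core_star (h : x ∈ core M R O) : Seg M R x ⊆ core M R O := fun _ k => (seg_sub k).trans h
theorem core_mono {O' : Set E6} (h : O ⊆ O') : core M R O ⊆ core M R O' := fun _ k => k.trans h

theorem core_open (o : IsOpen O) (p : ∀ x ∈ O, 0 < x.2.1) : IsOpen (core M R O) := by
  refine isOpen_iff_mem_nhds.2 fun x hx => ?_
  let σ : E6 × ℝ → ℝ := fun q => AffineMap.lineMap (be R (uu M q.1)) q.1.2.1 q.2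
  have e : ∀ y : E6, uIcc (be R (uu M y)) y.2.1 = (fun t => σ (y, t)) '' Icc 0 1 := fun y => by
    rw [← segment_eq_uIcc, segment_eq_image_lineMap]
  have k : ∀ᶠ y in 𝓝 x, ∀ t ∈ Icc (0 : ℝ) 1, rp M (σ (y, t)) y ∈ O := by
    refine isCompact_Icc.eventually_forall_of_forall_eventually fun t ht => ?_
    have m : rp M (σ (x, t)) x ∈ O := hx ⟨_, e x ▸ mem_image_of_mem _ ht, rfl⟩
    have r : ContinuousAt (fun q : E6 × ℝ => q.1.2.1) (x, t) := by fun_prop
    have u : ContinuousAt (fun q : E6 × ℝ => uu M q.1) (x, t) :=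
      continuousAt_fst.fst.add (continuousAt_const.div r (p x (core_sub hx)).ne')
    have s : ContinuousAt σ (x, t) := by
      simp only [σ, AffineMap.lineMap_apply_ring]
      exact ((continuousAt_const.sub continuousAt_snd).mul
        ((be_sm R).continuous.continuousAt.comp u)).add (continuousAt_snd.mul r)
    have c : ContinuousAt (fun q : E6 × ℝ => rp M (σ q) q.1) (x, t) :=
      (u.sub (continuousAt_const.div s (p _ m).ne')).prodMk (s.prodMk continuousAt_fst.snd.snd)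
    exact c (o.mem_nhds m)
  filter_upwards [k] with y hy
  rintro _ ⟨s, hs, rfl⟩
  obtain ⟨t, ht, rfl⟩ := e y ▸ hs
  exact hy t ht

theorem core_cone (h : Cone O) : Cone (core M R O) :=
  ⟨core_open h.op fun x hx => (h.pos x hx).1, fun x hx => h.pos x (core_sub hx), fun x hx c hc => by
    rintro _ ⟨s, hs, rfl⟩
    exact h.hom _ (hx ⟨s, hs, rfl⟩) c hc⟩

variable {c : Cs} {n : Kn} {Lv : Set ℝ} {a : E6 → E6} {α : E6 → ℝ}

/-- The points almost above the bottom of the new chart. -/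
theorem ab_low' (h : Su c n Lv a α) (hx : x ∈ Om (Dv n.r1 n.τ Lv))
    (b : bb c (glu (Ra c) a α x).2.1 - 1 / 4 ≤ (glu (Ra c) a α x).1) : bb c x.2.1 - 1 < x.1 := by
  obtain ⟨a1, a2, a3, a4⟩ := h.nm.rad
  have a5 := (h.nm.k1 h.e0).2.2.2
  have r1 : n.r1 < x.2.1 := hx.1.1
  by_contra k
  rcases lt_or_ge x.2.1 c.Rs with r | r
  · have k1 := h.r_near hx r
    have k2 := abs_le.1 k1
    rw [(glu_early h.id (by linarith [h.nm.ti x.2.1 (by linarith [h.num.2.1])])).1] at b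
    rw [abs_sub_comm] at k1
    linarith [h.nm.uc x.2.1 ⟨by linarith [h.num.2.1], by linarith⟩ (glu (Ra c) a α x).2.1
      ⟨by linarith [h.nm.r1], by linarith⟩ k1]
  · rw [bb_far h.nm.ok (by linarith)] at k
    rw [h.early (by linarith), bb_far h.nm.ok (by linarith)] at b
    linarith

/-- The chart maps the rays to the rays. -/
theorem ac_ray (h : Su c n Lv a α) (hx : x ∈ Om (Dv n.r1 n.τ Lv)) (r : c.R1 + 5 / 2 ≤ x.2.1)
    (s1 : c.R1 + 3 ≤ s) (s2 : s ≤ (ac c a α x).2.1) : ∃ r ∈ Ioc (c.R1 + 5 / 2) x.2.1,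
      ac c a α (anc r x) = rp c.M s (ac c a α x) := by
  obtain ⟨a1, -, -, a4⟩ := h.nm.rad
  have e1 := h.nm.e1
  have w := h.dk.mem hx (by linarith)
  have q := abs_le.1 (h.lb.one x w)
  have q0 : 0 < α x := by linarith
  have q1 := (abs_le.1 (show |(a (anc (Ra c) x)).2.1 - Ra c| ≤ n.e from
    h.lb.box.r' (anc_mem w))).2
  have g : glu (Ra c) a α x = far (Ra c) a α x := glu_far (by linarith)
  obtain ⟨t, ht⟩ : ∃ t, t = Ra c + (s - (a (anc (Ra c) x)).2.1) / α x := ⟨_, rfl⟩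
  have t1 : Ra c + 1 / 4 < t := by
    rw [ht, add_lt_add_iff_left, lt_div_iff₀ q0]
    linarith
  have e3 : rad (Ra c) a α (anc t x) = s := by
    rw [rad, h.lb.ind']
    simp only [anc, ht]
    field_simp
    ring
  refine ⟨t, ⟨by linarith, ?_⟩, ?_⟩
  · rw [ac_r, g] at s2
    rw [ht, ← le_sub_iff_add_le', div_le_iff₀ q0]
    simp only [far, er, Prod.snd_add, Prod.fst_add, Prod.smul_mk, smul_eq_mul, mul_one] at s2
    linarith
  · rw [rp, ac_uu, ac_r, g, ac, Function.comp, glu_far t1.le, far_eq, far_eq, e3]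
    simp [ki, lab, anc, hz_ap, er]

/-- **The far points are in the core.** -/
theorem core_m2 (h : Su c n Lv a α) (hx : x ∈ Om (D2 c (Dv n.r1 n.τ Lv)))
    (b : Est.Fa c (ac c a α x)) :
    ac c a α x ∈ core c.M (c.R1 + 3) (ac c a α '' Om (D2 c (Dv n.r1 n.τ Lv))) := fun y hy => by
  obtain ⟨-, s1, s2, s3, -⟩ := seg_fa b.1 b.2 hy
  have m : x ∈ Om (Dv n.r1 n.τ Lv) := ⟨hx.1.1.1, hx.2⟩
  obtain ⟨r, hr, e⟩ := ac_ray h m (le_of_lt hx.1.2) s1 s2
  rw [(seg_uu hy).2.2] at e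
  have m' : anc r x ∈ Om (Dv n.r1 n.τ Lv) :=
    ⟨h.dk.ray _ m.1 r ⟨by linarith [hr.1, h.nm.rad.2.2.2], hr.2⟩, m.2⟩
  refine ⟨_, ⟨⟨⟨m'.1, ab_low' h m' ?_⟩, hr.1⟩, m.2⟩, e⟩
  rw [← ac_uu, ← ac_r, e, bb_far h.nm.ok s1]
  linarith

/-- The times on the segment of a far point. -/
theorem seg_t (R0 : 0 < R) (r : R ≤ x.2.1) (b : 0 ≤ uu M x + x.2.1) (h : y ∈ Seg M R x) :
    x.1 - 4 * M ^ 2 / R ≤ y.1 ∧ y.1 ≤ x.1 := by
  obtain ⟨-, h1, h2, -⟩ := seg_fa r b h
  have e := (seg_uu h).1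
  have m : 0 ≤ 4 * M ^ 2 := by positivity
  have k1 := div_le_div_of_nonneg_left m R0 h1
  have k2 := div_le_div_of_nonneg_left m (R0.trans_le h1) h2
  have k3 := div_nonneg m (R0.trans_le r).le
  rw [uu, uu] at e
  constructor <;> linarith

/-- **CORE.** -/
theorem core_ok : P354F2.CORE :=
  ⟨fun _ _ _ _ h => ⟨core_cone h, core_sub, fun _ => core_star⟩,
    fun _ _ _ _ _ h _ hx => core_m2 h hx, fun M R x _ R0 r b h =>
    ⟨seg_self M R x, seg_sub h, (seg_uu h).1, (seg_uu h).2.1, (seg_fa r b h).2.1,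
      (seg_fa r b h).2.2.1, (seg_fa r b h).2.2.2.1, (seg_fa r b h).2.2.2.2, seg_t R0 r b h⟩⟩

end Vale.Agent.P354RI
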