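import Vale.Agent.P354RI.Qt
import Vale.Agent.P354XD.G1

/-!
Coordinates on an algebra of type D, and the consequences of the equations of a Kerr chart.
-/

noncomputable section

namespace Vale.Agent.P354RI

open Vale.Agent.P354XG Vale.Agent.P354XG.Geo Vale.Agent.P354XR Vale.Agent.P354NP
open Vale.Agent.P354XD
open Vale.Agent.P354XF (fr)
open Vale.Agent.P354XO (Co)

section hp
variable {A : Type*} [CommRing A] [Algebra ℂ A] {K : Hp A} {p : Pm A}

/-- The coordinates z. -/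
def cz (K : Hp A) : Co A (Fin 6) := ⟨K.z, K.d⟩

theorem cz_is (h : K.Is) : (cz K).Is := ⟨h.dz, h.comm⟩

/-- The components of a field of the flat chart on the coordinate fields. -/
def zu (u y : Fin 6 → A) : Fin 6 → A :=
  ![u 0, u 1, u 4 * y 2 - u 2 * y 5, u 4 * y 3 + u 2 * y 4, u 5 * y 4 - u 3 * y 3,
    u 5 * y 5 + u 3 * y 2]

theorem vv_eq (u : Fin 6 → A) (f : A) : Vv K.kc u f = ∑ i, zu u K.z i * K.d i f := by
  simp [Vv, KC.V_ap, Hp.kc, Hp.P_ap, Hp.Q_ap, Hp.H_ap, Hp.B_ap, zu, Fin.sum_univ_six]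
  ring

/-- The components in the flat chart. -/
def sh (K : Hp A) (p : Pm A) (e : Fin 6 → A) : Fin 6 → A :=
  ![e 0 - e 1 * p.h1, e 1, e 2 - e 1 * p.j1 * (ii A * K.kc.s), e 3 + e 1 * p.j1 * (ii A * K.kc.sb),
    e 4 + e 1 * p.j1 * (ii A * K.kc.x), e 5 - e 1 * p.j1 * (ii A * K.kc.x)]

theorem vk_eq (e : Fin 6 → A) (f : A) :
    Vv (kk K p) e f = ∑ i, zu (sh K p e) K.z i * K.d i f := by
  rw [← vv_eq, Vv, kk_V]; rfl

theorem vk_z (h : K.Is) (e : Fin 6 → A) (i : Fin 6) :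
    Vv (kk K p) e (K.z i) = zu (sh K p e) K.z i := by simp [vk_eq, h.dz]

theorem vf_kerr (b : Fin 6) : (cz K).VF (fr (kk K p).kerr b) := ⟨_, fr_kc (kk K p) b ▸ vk_eq _⟩

variable {B : Subalgebra ℂ A}

theorem kr_mem (h : HB K B) (q : PB p B) : KR (fun a _ => a ∈ B) (kk K p) (kk K p) :=
  ⟨rr_mem B, h.z1, h.x, h.s, h.sb, h.N, h.Ni, q.sg, q.a, q.M⟩

theorem vk_mem (h : HB K B) (q : PB p B) {e : Fin 6 → A} (he : ∀ k, e k ∈ B) (i : Fin 6) :
    zu (sh K p e) K.z i ∈ B := by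
  have := q.h1
  have := q.j1
  have := h.s
  have := h.sb
  have := h.x
  have := h.z2
  have := h.z3
  have := h.z4
  have := h.z5
  have : ii A ∈ B := ii_mem
  fin_cases i <;> simp only [zu, sh, Fin.reduceFinMk, Matrix.cons_val] <;>
    repeat' first | assumption | apply he | apply mul_mem | apply add_mem | apply sub_mem

end hp

section tri
variable {R : Type} [CommRing R] [Algebra ℂ R] {c : R →+* R} {N : Tri c} {K : Hp R} {p : Pm R}

theorem kp_of (kd : ∀ i, N.Kp (K.d i)) {X : Der R} {u : Fin 6 → R} (hu : ∀ i, u i ∈ N.B)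
    (e : ∀ f, X f = ∑ i, u i * K.d i f) : N.Kp X :=
  ⟨fun a ha => e a ▸ sum_mem fun i _ => mul_mem (hu i) ((kd i).B a ha),
    fun a ha => e a ▸ sum_mem fun i _ => N.mI _ (hu i) _ ((kd i).I a ha),
    fun a ha => e a ▸ sum_mem fun i _ => N.mS _ (hu i) _ ((kd i).S a ha)⟩

theorem kp_vk (kd : ∀ i, N.Kp (K.d i)) (h : HB K N.B) (q : PB p N.B) {X : Der R} (e : Fin 6 → R)
    (he : ∀ k, e k ∈ N.B) (hX : ∀ f, X f = Vv (kk K p) e f) : N.Kp X :=
  kp_of kd (vk_mem h q he) fun f => (hX f).trans (vk_eq e f)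

/-- The hypotheses in a chart. -/
structure Nh (N : Tri c) (K : Hp R) (p : Pm R) (G : GHP R) (ze zi ka : R) : Prop where
  hi : K.Is
  pi : p.Is K
  hb : HB K N.B
  pb : PB p N.B
  kd : ∀ i, N.Kp (K.d i)
  is : G.Is
  gc : G.c = c
  kc : K.c = c
  H : G.H = K.H
  B : G.Hb = K.B
  vf : ∀ b, (cz K).VF (fr G b)
  P1 : G.P1 = 0
  P3 : G.P3 = 0
  P0 : G.P0 ∈ N.I
  P4 : G.P4 ∈ N.I
  cl : ∀ b i, fr G b (K.z i) - fr (kk K p).kerr b (K.z i) ∈ N.S
  rh : G.rh - (kk K p).rh ∈ N.S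
  rh2 : G.rh' - (kk K p).rh2 ∈ N.S
  ta : G.ta - (kk K p).ta ∈ N.S
  ta2 : G.ta' - (kk K p).ta2 ∈ N.S
  czi : zi - ka * (kk K p).z ∈ N.S
  bze : ze ∈ N.B
  bka : ka ∈ N.B
  e : ze * zi = 1
  e3 : zi ^ 3 = G.P2
  ka3 : ka ^ 3 = -(2 * p.M)
  cka : c ka = ka
  dk : ∀ i, K.d i ka = 0
  ua : ∃ u ∈ N.B, p.a * u = 1
  uM : ∃ u ∈ N.B, p.M * u = 1

namespace Nh
variable {G : GHP R} {ze zi ka : R} (h : Nh N K p G ze zi ka)
include h

theorem eq (b : Fin 6) (f : R) : fr G b f = ∑ i, fr G b (K.z i) * K.d i f :=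
  (h.vf b).eq (cz_is h.hi) f

theorem cE (b i : Fin 6) : N.Cs (fr G b (K.z i)) (fr (kk K p).kerr b (K.z i)) :=
  ⟨by rw [fr_kc, vk_z h.hi]; exact vk_mem h.hb h.pb ((kr_mem h.hb h.pb).kc b) i, h.cl b i⟩

theorem nk : Nk N G (kk K p) ze zi ka := by
  have o : ∀ k : Fin 6, ∀ i, (Pi.single k 1 : Fin 6 → R) i ∈ N.B := fun k i => by
    rw [Pi.single_apply]; split_ifs; exacts [one_mem _, zero_mem _]
  have z : ∀ {u : R}, (∀ i, K.d i u = 0) → ∀ b, fr G b u = 0 := fun e b => by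
    rw [h.eq b]; simp [e]
  refine ⟨h.is, kk_is h.hi h.pi, h.gc, h.kc, h.H, h.B,
    fun b => kp_of h.kd (fun i => (h.cE b i).mem) (h.eq b), h.kd 0,
    kp_vk h.kd h.hb h.pb _ (o 1) fun f => by simp [Vv, KC.V_ap],
    kp_vk h.kd h.hb h.pb _ (o 2) fun f => by simp [Vv, KC.V_ap],
    kp_vk h.kd h.hb h.pb _ (o 3) fun f => by simp [Vv, KC.V_ap], kr_mem h.hb h.pb, h.P1, h.P3,
    h.P0, h.P4, fun b f hf => ?_, h.rh, h.rh2, h.ta, h.ta2, h.czi, h.bze, h.bka, h.e, h.e3, h.ka3,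
    h.cka, z h.dk, z h.pi.da, z h.pi.dM, h.ua, h.uM, K.ri, h.hb.ri, h.hi.hr⟩
  rw [h.eq b f, (vf_kerr b).eq (cz_is h.hi) f, ← Finset.sum_sub_distrib]
  refine sum_mem fun i _ => ?_
  exact (show ∀ a b u : R, u * (a - b) = a * u - b * u from fun a b u => by ring) _ _ _ ▸
    N.mS _ ((h.kd i).B f hf) _ (h.cl b i)

end Nh
end tri

variable {A : Type} [CommRing A] [StarRing A] [Algebra ℂ A]

/-- Coordinates y with the coordinate fields d, whose components in the frame are e. -/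
structure Cd (T : TD A) (d : Fin 6 → Der A) (e : Fin 6 → Fin 6 → A) (y : Fin 6 → A) : Prop where
  de : ∀ i f, d i f = ∑ b, e i b * T.D b f
  dy : ∀ i k, d i (y k) = if i = k then 1 else 0
  comm : ∀ i k f, d i (d k f) = d k (d i f)

namespace Cd
variable {T : TD A} {d : Fin 6 → Der A} {e : Fin 6 → Fin 6 → A} {y : Fin 6 → A} (h : Cd T d e y)
include h

theorem inv (a b : Fin 6) : ∑ i, T.D a (y i) * e i b = if a = b then 1 else 0 := by
  have e1 : (Matrix.of e) * (Matrix.of fun b k => T.D b (y k)) = 1 := by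
    ext i k
    rw [Matrix.mul_apply, Matrix.one_apply, ← h.dy, h.de]
    rfl
  have e2 := mul_eq_one_comm.1 e1
  have := congrFun₂ e2 a b
  rwa [Matrix.mul_apply, Matrix.one_apply] at this

theorem free {u : Fin 6 → A} (hu : ∀ f, ∑ b, u b * T.D b f = 0) (b : Fin 6) : u b = 0 := by
  have : ∑ i, (∑ a, u a * T.D a (y i)) * e i b = u b := by
    simp only [Finset.sum_mul, mul_assoc]
    rw [Finset.sum_comm]
    simp [← Finset.mul_sum, h.inv]
  simpa [hu] using this.symm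

theorem comp (m : Fin 6 → A) (a : Fin 6) : ∑ i, T.D a (y i) * ∑ b, e i b * m b = m a := by
  simp only [Finset.mul_sum, ← mul_assoc]
  rw [Finset.sum_comm]
  simp [← Finset.sum_mul, h.inv]

theorem dV (i : Fin 6) : d i = T.V (e i) := Derivation.ext fun f => (h.de i f).trans (T.V_ap _ f).symm

/-- A closed form is closed in the coordinates. -/
theorem closed {m : Fin 6 → A} (hm : ∀ a b, T.ext m a b = 0) (i k : Fin 6) :
    d i (∑ b, e k b * m b) - d k (∑ b, e i b * m b) = 0 := by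
  have z := h.free (u := T.br (e i) (e k)) fun f => by
    have := T.ext_V (fun b => T.D b f) (e i) (e k)
    simp only [T.ext_d, mul_zero, Finset.sum_const_zero, ← h.de, ← h.dV] at this
    linear_combination h.comm i k f - this
  have := T.ext_V m (e i) (e k)
  simpa only [hm, z, mul_zero, zero_mul, Finset.sum_const_zero, sub_zero, ← h.dV] using this

variable {K : KC A} (k : IsK T K)
include k

omit h in
theorem D_eq (b : Fin 6) : T.D b = Vv K (kc K b) := by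
  rw [← fr_kc]
  fin_cases b
  exacts [k.th, k.tp, k.et, k.ep, k.H, k.B]

theorem kfree : K.Free := by
  intro e1 e2 e3 e4 e5 e6 hV
  have i := k.is
  have z := i.z_ze
  have zb : K.zb * (K.r + ii A * K.a * K.x) = 1 := by
    simp only [KC.zb]; linear_combination i.hg - K.sg * K.a * K.a * K.x * K.x * ii_sq (A := A)
  let t := e1 + e3 * (ii A * K.a * K.sb) - e4 * (ii A * K.a * K.s)
  have := h.free (u := ![t * K.Ni, t * (K.De * K.sg * K.N) - 2 * e2 * K.N,
    t * (ii A * K.a * K.z * K.sb) + 2 * e4 * (K.r + ii A * K.a * K.x),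
    -(t * (ii A * K.a * K.zb * K.s)) + 2 * e3 * (K.r - ii A * K.a * K.x),
    t * (K.M * K.z * K.z) + 2 * (e5 + e2 * (ii A * K.a * K.x * K.sg) +
      e3 * (ii A * K.a * K.r * K.sg * K.sb) + e4 * (K.a * K.a * K.x * K.sg * K.s)),
    t * (K.M * K.zb * K.zb) + 2 * (e6 - e2 * (ii A * K.a * K.x * K.sg) +
      e3 * (K.a * K.a * K.x * K.sg * K.sb) - e4 * (ii A * K.a * K.r * K.sg * K.s))]) fun f => by
    have e0 := i.T_eq f
    have v := hV f
    simp only [Fin.sum_univ_six, Matrix.cons_val, T.D_v, k.th, k.tp, k.et, k.ep, k.H, k.B]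
    have e2' : K.tp f = _ := K.V_ap _ _ _ _ _ _ f
    have e3' : K.ep f = _ := K.V_ap _ _ _ _ _ _ f
    have e4' : K.et f = _ := K.V_ap _ _ _ _ _ _ f
    rw [KC.V_ap] at v
    linear_combination -t * e0 + 2 * v - 2 * e2 * K.N * e2' +
      2 * e4 * (K.r + ii A * K.a * K.x) * e4' + 2 * e3 * (K.r - ii A * K.a * K.x) * e3' +
      2 * e2 * (K.R f - ii A * K.a * K.x * K.sg * (K.H f - K.B f)) * i.hN +
      2 * e4 * (ii A * K.a * K.s * K.T f + K.Q f - K.a * K.a * K.x * K.sg * K.s * K.H f +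
        ii A * K.a * K.r * K.sg * K.s * K.B f) * zb +
      2 * e3 * (-(ii A * K.a * K.sb * K.T f) + K.P f - ii A * K.a * K.r * K.sg * K.sb * K.H f -
        K.a * K.a * K.x * K.sg * K.sb * K.B f) * z
  have t0 : t = 0 := by
    have := this 0
    simp only [Matrix.cons_val] at this
    linear_combination K.N * this - t * i.hN
  have two : ∀ {w : A}, 2 * w = 0 → w = 0 := fun e => GHP.two_unit.mul_right_eq_zero.1 e
  have a1 := this 1
  have a2 := this 2
  have a3 := this 3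
  have a4 := this 4
  have a5 := this 5
  simp only [Matrix.cons_val, t0] at a1 a2 a3 a4 a5
  have f2 : e2 = 0 := two (by linear_combination -K.Ni * a1 - 2 * e2 * i.hN)
  have f4 : e4 = 0 := two (by linear_combination K.zb * a2 - 2 * e4 * zb)
  have f3 : e3 = 0 := two (by linear_combination K.z * a3 - 2 * e3 * z)
  simp only [f2, f3, f4, t] at t0 a4 a5
  exact ⟨by linear_combination t0, f2, f3, f4, two (by linear_combination a4),
    two (by linear_combination a5)⟩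

end Cd

section
variable {R : Type} [CommRing R] [Algebra ℂ R] {c : R →+* R} {N : Tri c} {K : Hp R} {p : Pm R}
  {G : GHP R} {ze zi ka : R} (h : Nh N K p G ze zi ka) {e : Fin 6 → Fin 6 → R}
  (he : ∀ i k, ∑ b, e i b * fr G b (K.z k) = if i = k then 1 else 0)
include h he

theorem Nh.de (i : Fin 6) (f : R) : K.d i f = ∑ b, e i b * fr G b f := by
  have : ∑ b, e i b * fr G b f = ∑ k, (∑ b, e i b * fr G b (K.z k)) * K.d k f := by
    simp only [Finset.sum_mul, mul_assoc]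
    rw [Finset.sum_comm]
    exact Finset.sum_congr rfl fun b _ => by rw [h.eq b f, Finset.mul_sum]
  simp [this, he]

theorem Nh.cd (hb : ∀ i b, e i b ∈ N.B) {y : Fin 6 → R} (hy : ∀ k, y k ∈ N.B)
    (dy : ∀ i k, K.d i (y k) = if i = k then 1 else 0) :
    Cd h.nk.T (fun i => (h.kd i).qt) (fun i b => N.mk' ⟨_, hb i b⟩) fun k => N.mk' ⟨_, hy k⟩ where
  de i q := let ⟨f, k⟩ := Tri.sj q
    (k.D _).fn (Tri.rr.sum fun b => Tri.rr.mul (Tri.rp_mk _) (h.nk.rD b k)) (h.de he i f)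
  dy i k := ((Tri.rp_mk _).D _).fn (Tri.rr.dl i k) (dy i k)
  comm i k q := let ⟨f, l⟩ := Tri.sj q; ((l.D _).D _).fn ((l.D _).D _) (h.hi.comm i k f)

end

end Vale.Agent.P354RI
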