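import Vale.Agent.P354RI.Defs
import Vale.Agent.P354XG.An
import Vale.Agent.P354XG.Dual
import Vale.Agent.P354XG.ToTD

/-!
Relations between rings, and the quotient of the bounded elements by the negligible ones.
-/

noncomputable section

namespace Vale.Agent.P354RI

open Vale.Agent.P354XG Vale.Agent.P354XG.Geo Vale.Agent.P354XR Vale.Agent.P354NP
open Vale.Agent.P354XF (fr)

section rel
variable {A A' : Type*} [CommRing A] [Algebra ℂ A] [CommRing A'] [Algebra ℂ A']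

/-- A relation which is compatible with the ring operations. -/
structure RR (ρ : A → A' → Prop) : Prop where
  add : ∀ {a b a' b'}, ρ a a' → ρ b b' → ρ (a + b) (a' + b')
  mul : ∀ {a b a' b'}, ρ a a' → ρ b b' → ρ (a * b) (a' * b')
  alg : ∀ z : ℂ, ρ (algebraMap ℂ A z) (algebraMap ℂ A' z)

variable {ρ : A → A' → Prop} {a b : A} {a' b' : A'}

theorem rr_hom (φ : A →ₐ[ℂ] A') : RR fun a a' => φ a = a' :=
  ⟨fun h k => by rw [map_add, h, k], fun h k => by rw [map_mul, h, k], φ.commutes⟩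

theorem rr_mem (B : Subalgebra ℂ A) : RR fun a (_ : A) => a ∈ B :=
  ⟨add_mem, mul_mem, algebraMap_mem B⟩

theorem RR.comp {A0 : Type*} [CommRing A0] [Algebra ℂ A0] (h : RR ρ) (φ : A0 →ₐ[ℂ] A) :
    RR fun a a' => ρ (φ a) a' :=
  ⟨fun k l => by rw [map_add]; exact h.add k l, fun k l => by rw [map_mul]; exact h.mul k l,
    fun z => by rw [φ.commutes]; exact h.alg z⟩

namespace RR
variable (h : RR ρ)
include h

theorem one : ρ 1 1 := by simpa only [map_one] using h.alg 1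
theorem zero : ρ 0 0 := by simpa only [map_zero] using h.alg 0
theorem two : ρ 2 2 := by simpa only [map_ofNat] using h.alg 2
theorem three : ρ 3 3 := by simpa only [map_ofNat] using h.alg 3
theorem ii : ρ (ii A) (ii A') := h.alg _
theorem hf : ρ (hf A) (hf A') := h.alg _
theorem neg (k : ρ a a') : ρ (-a) (-a') := by
  simpa only [map_neg, map_one, neg_one_mul] using h.mul (h.alg (-1)) k
theorem sub (k : ρ a a') (l : ρ b b') : ρ (a - b) (a' - b') := by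
  simpa only [sub_eq_add_neg] using h.add k (h.neg l)
theorem pow (k : ρ a a') (n : ℕ) : ρ (a ^ n) (a' ^ n) := by
  induction n with
  | zero => simpa only [pow_zero] using h.one
  | succ n ih => simpa only [pow_succ] using h.mul ih k
theorem sum {ι : Type} [Fintype ι] {f : ι → A} {g : ι → A'} (k : ∀ i, ρ (f i) (g i)) :
    ρ (∑ i, f i) (∑ i, g i) := by
  generalize (Finset.univ : Finset ι) = s
  induction s using Finset.cons_induction with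
  | empty => exact h.zero
  | cons i s hi ih => simpa only [Finset.sum_cons] using h.add (k i) ih
theorem dl {ι : Type} [DecidableEq ι] (i k : ι) :
    ρ (if i = k then 1 else 0) (if i = k then 1 else 0) := by
  split_ifs
  exacts [h.one, h.zero]

end RR

/-- The functions of the charts are related. -/
structure KR (ρ : A → A' → Prop) (K : KC A) (K' : KC A') : Prop where
  rr : RR ρ
  r : ρ K.r K'.r
  x : ρ K.x K'.x
  s : ρ K.s K'.s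
  sb : ρ K.sb K'.sb
  N : ρ K.N K'.N
  Ni : ρ K.Ni K'.Ni
  sg : ρ K.sg K'.sg
  a : ρ K.a K'.a
  M : ρ K.M K'.M

namespace KR
variable {K : KC A} {K' : KC A'} (h : KR ρ K K')
include h

theorem ia : ρ (ii A * K.a) (ii A' * K'.a) := h.rr.mul h.rr.ii h.a
theorem z : ρ K.z K'.z := h.rr.mul h.sg (h.rr.add h.r (h.rr.mul h.ia h.x))
theorem zb : ρ K.zb K'.zb := h.rr.mul h.sg (h.rr.sub h.r (h.rr.mul h.ia h.x))
theorem De : ρ K.De K'.De := h.rr.add (h.rr.sub (h.rr.mul h.r h.r)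
  (h.rr.mul (h.rr.mul h.rr.two h.M) h.r)) (h.rr.mul h.a h.a)
theorem W : ρ K.W K'.W := h.rr.add (h.rr.mul h.r h.r) (h.rr.mul h.a h.a)
theorem ee : ρ K.ee K'.ee := h.rr.sub (h.rr.mul (h.rr.sub h.r h.M) h.sg)
  (h.rr.mul (h.rr.mul (h.rr.mul h.De h.r) h.sg) h.sg)
theorem rh : ρ K.rh K'.rh := h.rr.neg (h.rr.mul (h.rr.mul (h.rr.mul h.N h.sg) h.De) h.z)
theorem rh2 : ρ K.rh2 K'.rh2 := h.rr.mul h.Ni h.z
theorem ta : ρ K.ta K'.ta := h.rr.neg (h.rr.mul (h.rr.mul h.ia h.sg) h.s)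
theorem ta2 : ρ K.ta2 K'.ta2 := h.rr.neg (h.rr.mul (h.rr.mul (h.rr.mul h.ia h.z) h.z) h.sb)
theorem P2 : ρ K.P2 K'.P2 :=
  h.rr.neg (h.rr.mul (h.rr.mul (h.rr.mul (h.rr.mul h.rr.two h.M) h.z) h.z) h.z)

theorem kc (b k : Fin 6) : ρ (kc K b k) (kc K' b k) := by
  obtain ⟨r, h1, h2, h3, h4, h5, h6, h7, h8, h9⟩ := id h
  have := h.z
  have := h.zb
  have := h.De
  have := h.W
  have := h.ee
  have := r.one
  have := r.zero
  have := r.two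
  have := r.ii
  fin_cases b <;> fin_cases k <;> simp only [P354RI.kc, Fin.reduceFinMk, Matrix.cons_val] <;>
    repeat' first | assumption | apply r.neg | apply r.mul | apply r.add | apply r.sub

end KR

theorem RR.zv (h : RR ρ) {e y : Fin 6 → A} {e' y' : Fin 6 → A'} (he : ∀ k, ρ (e k) (e' k))
    (hy : ∀ k, k ≠ 0 → ρ (y k) (y' k)) (i : Fin 6) : ρ (zv e y i) (zv e' y' i) := by
  have y2 := hy 2 (by decide)
  have y3 := hy 3 (by decide)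
  have y4 := hy 4 (by decide)
  have y5 := hy 5 (by decide)
  fin_cases i
  exacts [h.sub (he 0) (he 1), he 1, h.sub (h.mul (he 4) y2) (h.mul (he 2) y5),
    h.add (h.mul (he 4) y3) (h.mul (he 2) y4), h.sub (h.mul (he 5) y4) (h.mul (he 3) y3),
    h.add (h.mul (he 5) y5) (h.mul (he 3) y2)]

/-- The derivations of the charts are related. -/
structure KD (ρ : A → A' → Prop) (K : KC A) (K' : KC A') : Prop extends KR ρ K K' where
  c : ∀ {f q}, ρ f q → ρ (K.c f) (K'.c q)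
  T : ∀ {f q}, ρ f q → ρ (K.T f) (K'.T q)
  R : ∀ {f q}, ρ f q → ρ (K.R f) (K'.R q)
  P : ∀ {f q}, ρ f q → ρ (K.P f) (K'.P q)
  Q : ∀ {f q}, ρ f q → ρ (K.Q f) (K'.Q q)
  H : ∀ {f q}, ρ f q → ρ (K.H f) (K'.H q)
  B : ∀ {f q}, ρ f q → ρ (K.B f) (K'.B q)

/-- The field with the components e. -/
def Vv (K : KC A) (e : Fin 6 → A) : Der A := K.V (e 0) (e 1) (e 2) (e 3) (e 4) (e 5)

theorem fr_kc (K : KC A) (b : Fin 6) : fr K.kerr b = Vv K (kc K b) := by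
  fin_cases b
  iterate 4 rfl
  all_goals ext f; simp [fr, KC.kerr, Vv, kc, KC.V_ap]

variable {K : KC A} {K' : KC A'}

theorem KD.fr (h : KD ρ K K') (b : Fin 6) {f q} (k : ρ f q) :
    ρ (fr K.kerr b f) (fr K'.kerr b q) := by
  simp only [fr_kc, Vv, KC.V_ap]
  have r := h.rr
  exact r.add (r.add (r.add (r.add (r.add (r.mul (h.kc b 0) (h.T k)) (r.mul (h.kc b 1) (h.R k)))
    (r.mul (h.kc b 2) (h.P k))) (r.mul (h.kc b 3) (h.Q k))) (r.mul (h.kc b 4) (h.H k)))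
    (r.mul (h.kc b 5) (h.B k))

theorem KD.is (h : KD ρ K K') (sj : ∀ q, ∃ f, ρ f q)
    (fn : ∀ {f g p q}, ρ f p → ρ g q → f = g → p = q) (i : K.Is) : K'.Is := by
  obtain ⟨r, h1, h2, h3, h4, h5, h6, h7, h8, h9⟩ := h.toKR
  have := r.one
  have := r.zero
  have := r.two
  have u : ∀ {L R : A → A} {L' R' : A' → A'}, (∀ f, L f = R f) →
      (∀ f q, ρ f q → ρ (L f) (L' q)) → (∀ f q, ρ f q → ρ (R f) (R' q)) → ∀ q, L' q = R' q :=
    fun e k l q => let ⟨f, hf⟩ := sj q; fn (k f q hf) (l f q hf) (e f)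
  refine ⟨u i.cc ?_ ?_, fun z => fn (h.c (r.alg z)) (r.alg _) (i.calg z), u i.c_T ?_ ?_,
    u i.c_R ?_ ?_, u i.c_P ?_ ?_, u i.c_H ?_ ?_, fn ?_ ?_ i.c_r, fn ?_ ?_ i.c_x, fn ?_ ?_ i.c_s,
    fn ?_ ?_ i.c_N, fn ?_ ?_ i.c_a, fn ?_ ?_ i.c_M, u i.R_T ?_ ?_, u i.P_T ?_ ?_, u i.H_T ?_ ?_,
    u i.P_R ?_ ?_, u i.H_R ?_ ?_, u i.P_Q ?_ ?_, u i.H_P ?_ ?_, u i.H_Q ?_ ?_, u i.B_H ?_ ?_,
    fn ?_ ?_ i.T_r, fn ?_ ?_ i.T_x, fn ?_ ?_ i.T_s, fn ?_ ?_ i.T_N, fn ?_ ?_ i.T_a, fn ?_ ?_ i.T_M,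
    fn ?_ ?_ i.R_r, fn ?_ ?_ i.R_x, fn ?_ ?_ i.R_s, fn ?_ ?_ i.R_N, fn ?_ ?_ i.R_a, fn ?_ ?_ i.R_M,
    fn ?_ ?_ i.P_r, fn ?_ ?_ i.P_x, fn ?_ ?_ i.P_s, fn ?_ ?_ i.P_sb, fn ?_ ?_ i.P_N, fn ?_ ?_ i.P_a,
    fn ?_ ?_ i.P_M, fn ?_ ?_ i.H_r, fn ?_ ?_ i.H_x, fn ?_ ?_ i.H_s, fn ?_ ?_ i.H_sb, fn ?_ ?_ i.H_N,
    fn ?_ ?_ i.H_a, fn ?_ ?_ i.H_M, fn ?_ ?_ i.hs, fn ?_ ?_ i.hN, fn ?_ ?_ i.hg⟩
  all_goals
    intros
    repeat' first
      | assumption | apply r.neg | apply r.mul | apply r.add | apply r.sub | apply h.T | apply h.R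
      | apply h.P | apply h.Q | apply h.H | apply h.B | apply h.c

end rel

section tri
variable {R R' : Type} [CommRing R] [Algebra ℂ R] [CommRing R'] [Algebra ℂ R']

/-- The bounded elements B, the small elements S and the negligible elements I. -/
structure Tri (c : R →+* R) where
  B : Subalgebra ℂ R
  I : AddSubgroup R
  S : AddSubgroup R
  cc : ∀ f, c (c f) = f
  IS : ∀ a ∈ I, a ∈ S
  SB : ∀ a ∈ S, a ∈ B
  mI : ∀ b ∈ B, ∀ a ∈ I, b * a ∈ I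
  mS : ∀ b ∈ B, ∀ a ∈ S, b * a ∈ S
  cB : ∀ a ∈ B, c a ∈ B
  cI : ∀ a ∈ I, c a ∈ I
  cS : ∀ a ∈ S, c a ∈ S

namespace Tri
variable {c : R →+* R} {c' : R' →+* R'} (N : Tri c) (N' : Tri c')

def ie : Ideal N.B where
  carrier := {a | a.1 ∈ N.I}
  add_mem' ha hb := N.I.add_mem ha hb
  zero_mem' := zero_mem N.I
  smul_mem' b _ ha := N.mI _ b.2 _ ha

/-- The quotient. -/
def Q : Type := N.B ⧸ N.ie

instance : CommRing N.Q := inferInstanceAs (CommRing (N.B ⧸ N.ie))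
instance : Algebra ℂ N.Q := inferInstanceAs (Algebra ℂ (N.B ⧸ N.ie))

def mk' : N.B →ₐ[ℂ] N.Q := Ideal.Quotient.mkₐ ℂ N.ie

/-- q is the class of f. -/
def Rp (f : R) (q : N.Q) : Prop := ∃ h : f ∈ N.B, N.mk' ⟨f, h⟩ = q

variable {N N'} {f g : R} {p q : N.Q}

theorem rp_mk (h : f ∈ N.B) : N.Rp f (N.mk' ⟨f, h⟩) := ⟨h, rfl⟩
theorem Rp.mem (h : N.Rp f q) : f ∈ N.B := h.1
theorem sj (q : N.Q) : ∃ f, N.Rp f q := by
  obtain ⟨f, rfl⟩ := Ideal.Quotient.mkₐ_surjective ℂ N.ie q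
  exact ⟨f.1, f.2, rfl⟩
theorem Rp.eq_iff (h : N.Rp f p) (k : N.Rp g q) : p = q ↔ f - g ∈ N.I := by
  obtain ⟨_, rfl⟩ := h
  obtain ⟨_, rfl⟩ := k
  exact Ideal.Quotient.eq (I := N.ie)
theorem Rp.fn (h : N.Rp f p) (k : N.Rp g q) (e : f = g) : p = q :=
  (h.eq_iff k).2 (by rw [e, sub_self]; exact zero_mem _)
theorem rr : RR N.Rp :=
  ⟨fun ⟨h, e⟩ ⟨k, e'⟩ => ⟨add_mem h k, by rw [← e, ← e', ← map_add]; rfl⟩,
    fun ⟨h, e⟩ ⟨k, e'⟩ => ⟨mul_mem h k, by rw [← e, ← e', ← map_mul]; rfl⟩,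
    fun z => ⟨algebraMap_mem _ z, N.mk'.commutes z⟩⟩
theorem Rp.zero_iff (h : N.Rp f q) : q = 0 ↔ f ∈ N.I := by
  simpa only [sub_zero] using h.eq_iff rr.zero
theorem Rp.congr (h : N.Rp f q) (e : g - f ∈ N.I) : N.Rp g q := by
  have m : g ∈ N.B := by simpa using add_mem (N.SB _ (N.IS _ e)) h.mem
  exact ⟨m, ((rp_mk m).eq_iff h).2 e⟩

variable (N N') in
/-- A homomorphism which keeps the classes. -/
structure Hm (φ : R →ₐ[ℂ] R') : Prop where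
  B : ∀ a ∈ N.B, φ a ∈ N'.B
  I : ∀ a ∈ N.I, φ a ∈ N'.I
  S : ∀ a ∈ N.S, φ a ∈ N'.S
  c : ∀ a, φ (c a) = c' (φ a)

variable (N) in
def cq : N.Q →+* N.Q :=
  Ideal.Quotient.lift N.ie ((N.mk' : N.B →+* N.Q).comp
    ((c.comp N.B.toSubring.subtype).codRestrict N.B.toSubring fun f => N.cB f.1 f.2))
    fun f hf => Ideal.Quotient.eq_zero_iff_mem.2 (N.cI f.1 hf)

theorem Rp.cq (h : N.Rp f q) : N.Rp (c f) (N.cq q) := by
  obtain ⟨h, rfl⟩ := h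
  exact ⟨N.cB f h, rfl⟩

instance : StarRing N.Q := starOf N.cq fun q =>
  let ⟨f, h⟩ := sj q; h.cq.cq.fn h (N.cc f)

theorem Rp.star (h : N.Rp f q) : N.Rp (c f) (star q) := h.cq

def Hm.qt {φ : R →ₐ[ℂ] R'} (h : N.Hm N' φ) : N.Q →ₐ[ℂ] N'.Q :=
  Ideal.Quotient.liftₐ N.ie (N'.mk'.comp ((φ.comp N.B.val).codRestrict N'.B fun f => h.B f.1 f.2))
    fun f hf => Ideal.Quotient.eq_zero_iff_mem.2 (h.I f.1 hf)

theorem Rp.map {φ : R →ₐ[ℂ] R'} (h : N.Hm N' φ) (k : N.Rp f q) : N'.Rp (φ f) (h.qt q) := by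
  obtain ⟨k, rfl⟩ := k
  exact ⟨h.B f k, rfl⟩

variable (N) in
/-- A derivation which keeps the classes. -/
structure Kp (X : Der R) : Prop where
  B : ∀ a ∈ N.B, X a ∈ N.B
  I : ∀ a ∈ N.I, X a ∈ N.I
  S : ∀ a ∈ N.S, X a ∈ N.S

def Kp.qt {X : Der R} (h : N.Kp X) : Der N.Q := GHP.qd N.ie (subD N.B X h.B) fun f => h.I f.1

theorem Rp.D {X : Der R} (h : N.Kp X) (k : N.Rp f q) : N.Rp (X f) (h.qt q) := by
  obtain ⟨k, rfl⟩ := k
  exact ⟨h.B f k, (GHP.qd_mk N.ie (subD N.B X h.B) _ ⟨f, k⟩).symm⟩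

variable (N) in
/-- The small classes. -/
def Sq : Ideal N.Q where
  carrier := {q | ∃ f ∈ N.S, N.Rp f q}
  add_mem' := fun ⟨_, h, k⟩ ⟨_, h', k'⟩ => ⟨_, add_mem h h', rr.add k k'⟩
  zero_mem' := ⟨0, zero_mem _, rr.zero⟩
  smul_mem' b _ := fun ⟨_, h, k⟩ => let ⟨_, l⟩ := sj b; ⟨_, N.mS _ l.mem _ h, rr.mul l k⟩

theorem Rp.sq_iff (h : N.Rp f q) : q ∈ N.Sq ↔ f ∈ N.S :=
  ⟨fun ⟨g, k, l⟩ => by simpa using add_mem (N.IS _ ((h.eq_iff l).1 rfl)) k, fun k => ⟨f, k, h⟩⟩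

theorem Rp.sub_sq (h : N.Rp f p) (k : N.Rp g q) (e : f - g ∈ N.S) : p - q ∈ N.Sq :=
  (rr.sub h k).sq_iff.2 e

theorem Rp.unit (h : N.Rp f q) (k : g ∈ N.B) (e : f * g = 1) : IsUnit q :=
  IsUnit.of_mul_eq_one _ ((rr.mul h (rp_mk k)).fn rr.one e)

variable (N) in
def Inv : Prop := ∀ a ∈ N.S, ∃ b ∈ N.B, (1 + a) * b = 1

theorem sq_inv (i : N.Inv) (s : N.Q) (hs : s ∈ N.Sq) : IsUnit (1 + s) := by
  obtain ⟨f, h, k⟩ := hs
  obtain ⟨b, hb, e⟩ := i f h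
  exact (rr.add rr.one k).unit hb e

variable (N) in
/-- Closeness up to small, and up to negligible elements. -/
def Cs (f g : R) : Prop := g ∈ N.B ∧ f - g ∈ N.S
variable (N) in
def Ci (f g : R) : Prop := g ∈ N.B ∧ f - g ∈ N.I

theorem Cs.mem (h : N.Cs f g) : f ∈ N.B := by simpa using add_mem (N.SB _ h.2) h.1
theorem Ci.cs (h : N.Ci f g) : N.Cs f g := ⟨h.1, N.IS _ h.2⟩
theorem rr_cs : RR N.Cs :=
  ⟨fun h k => ⟨add_mem h.1 k.1, by rw [add_sub_add_comm]; exact add_mem h.2 k.2⟩,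
    fun {a b a' b'} h k => ⟨mul_mem h.1 k.1, by
      rw [show a * b - a' * b' = b * (a - a') + a' * (b - b') by ring]
      exact add_mem (N.mS _ k.mem _ h.2) (N.mS _ h.1 _ k.2)⟩,
    fun z => ⟨algebraMap_mem _ z, by rw [sub_self]; exact zero_mem _⟩⟩
theorem rr_ci : RR N.Ci :=
  ⟨fun h k => ⟨add_mem h.1 k.1, by rw [add_sub_add_comm]; exact add_mem h.2 k.2⟩,
    fun {a b a' b'} h k => ⟨mul_mem h.1 k.1, by
      rw [show a * b - a' * b' = b * (a - a') + a' * (b - b') by ring]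
      exact add_mem (N.mI _ k.cs.mem _ h.2) (N.mI _ h.1 _ k.2)⟩,
    fun z => ⟨algebraMap_mem _ z, by rw [sub_self]; exact zero_mem _⟩⟩
theorem Cs.refl (h : f ∈ N.B) : N.Cs f f := ⟨h, by rw [sub_self]; exact zero_mem _⟩
theorem Ci.refl (h : f ∈ N.B) : N.Ci f f := ⟨h, by rw [sub_self]; exact zero_mem _⟩
theorem Cs.symm (h : N.Cs f g) : N.Cs g f := ⟨h.mem, by simpa using neg_mem h.2⟩
theorem Ci.symm (h : N.Ci f g) : N.Ci g f := ⟨h.cs.mem, by simpa using neg_mem h.2⟩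
theorem Cs.trans {u : R} (h : N.Cs f g) (k : N.Cs g u) : N.Cs f u :=
  ⟨k.1, by simpa using add_mem h.2 k.2⟩
theorem Ci.trans {u : R} (h : N.Ci f g) (k : N.Ci g u) : N.Ci f u :=
  ⟨k.1, by simpa using add_mem h.2 k.2⟩
theorem Cs.cj (h : N.Cs f g) : N.Cs (c f) (c g) := ⟨N.cB _ h.1, by simpa using N.cS _ h.2⟩
theorem Ci.cj (h : N.Ci f g) : N.Ci (c f) (c g) := ⟨N.cB _ h.1, by simpa using N.cI _ h.2⟩
theorem Cs.D {X : Der R} (k : N.Kp X) (h : N.Cs f g) : N.Cs (X f) (X g) :=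
  ⟨k.B _ h.1, by simpa using k.S _ h.2⟩
theorem Ci.D {X : Der R} (k : N.Kp X) (h : N.Ci f g) : N.Ci (X f) (X g) :=
  ⟨k.B _ h.1, by simpa using k.I _ h.2⟩

/-- The pull back of the classes. -/
def comap (N' : Tri c') (φ : R →ₐ[ℂ] R') (cc : ∀ f, c (c f) = f) (hc : ∀ f, φ (c f) = c' (φ f)) :
    Tri c where
  B := N'.B.comap φ
  I := N'.I.comap (φ : R →+* R').toAddMonoidHom
  S := N'.S.comap (φ : R →+* R').toAddMonoidHom
  cc := cc
  IS a := N'.IS (φ a)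
  SB a := N'.SB (φ a)
  mI b hb a ha := show φ (b * a) ∈ N'.I from map_mul φ b a ▸ N'.mI _ hb _ ha
  mS b hb a ha := show φ (b * a) ∈ N'.S from map_mul φ b a ▸ N'.mS _ hb _ ha
  cB a ha := show φ (c a) ∈ N'.B from hc a ▸ N'.cB _ ha
  cI a ha := show φ (c a) ∈ N'.I from hc a ▸ N'.cI _ ha
  cS a ha := show φ (c a) ∈ N'.S from hc a ▸ N'.cS _ ha

end Tri
end tri

end Vale.Agent.P354RI
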