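import Vale.Agent.P354RI.Defs
import Vale.Agent.P354MG.Gg
import Vale.Agent.P354XD.G1S

/-!
The exponential and the logarithm of germs, and the values on the base curve.
-/

open scoped ContDiff
open Set Filter Topology

noncomputable section

namespace Vale.Agent.P354RI

open Vale.Agent.P354XG hiding Dom Dom0 Bd bdSub domI Keeps Low dom0_mk dom0_zero dom0_cst dom_of
  dom_zero dom_cst bd_alg dom_sum dom0_sum keeps_pd keeps_zero keeps_sum bd_closure dom_pb_aff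
  bd_fn bd_par Conn gron gron0 dom_of_sys dom_sub_ev0
open Vale.Agent.P354MG Vale.Agent.P354XD Vale.Agent.P354XR
open Vale.Agent.P354XO (Om VF Wts)
open Vale.Agent.P354YA (Rx HHom)

variable {J : Type}

section gen
variable {E : Type} [NormedAddCommGroup E] [NormedSpace ℝ E] {G : Filter (J × E)} [Loc G]
  {a b : Sm G}

theorem rs_ex (a : Sm G) : Rs (ex a) fun p => Complex.exp (rep a p) :=
  rs_gm ((rep_sm a).mono fun _ h => (Complex.contDiff_exp (𝕜 := ℝ)).contDiffAt.comp _ h)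

theorem ex_add (a b : Sm G) : ex (a + b) = ex a * ex b :=
  (rs_ex _).ext ((rs_ex a).mul (rs_ex b))
    ((rep_add a b).mono fun p h => by simp only [h, Pi.add_apply, Complex.exp_add])

theorem ex_zero : ex (0 : Sm G) = 1 :=
  (rs_ex _).ext rs_one (rep_zero.mono fun p h => by simp only [h, Complex.exp_zero])

theorem ex_neg (a : Sm G) : ex a * ex (-a) = 1 := by rw [← ex_add, add_neg_cancel, ex_zero]

theorem cj_ex (a : Sm G) : cj (ex a) = ex (cj a) :=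
  (rs_ex a).cj.ext (rs_ex _) ((rep_cj a).mono fun p h => by simp only [h, Complex.exp_conj])

theorem pd_ex (v : E) (a : Sm G) : pd v (ex a) = ex a * pd v a :=
  ((rs_ex a).pd v).ext ((rs_ex a).mul ((rs_rep a).pd v)) ((rep_sm a).diff.mono fun p h => by
    have : fderiv ℝ (sl (fun p => Complex.exp (rep a p)) p.1) p.2 = _ := h.hasFDerivAt.cexp.fderiv
    simp only [pdF, this]
    rfl)

theorem vf_ex [FiniteDimensional ℝ E] {X : Der (Sm G)} (h : VF X) (a : Sm G) :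
    X (ex a) = ex a * X a := by
  obtain ⟨u, hu⟩ := h
  simp only [hu, P354XO.co, pd_ex, Finset.mul_sum]
  exact Finset.sum_congr rfl fun _ _ => by ring

theorem slit {z : ℂ} (h : ‖z - 1‖ < 1 / 2) : z ∈ Complex.slitPlane := by
  have := (Complex.abs_re_le_norm (z - 1)).trans_lt h
  rw [Complex.sub_re, Complex.one_re, abs_lt] at this
  exact Or.inl (by linarith [this.1])

theorem Nr.rs (h : Nr a) : Rs (lg a) fun p => Complex.log (rep a p) :=
  rs_gm ((h.and (rep_sm a)).mono fun p k =>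
    ((Complex.contDiffAt_log (slit k.1)).restrict_scalars ℝ).comp p.2 k.2)

theorem Nr.ex_lg (h : Nr a) : ex (lg a) = a :=
  (rs_ex _).ext (rs_rep a) ((h.rs.and h).mono fun p k => by
    beta_reduce
    rw [k.1, Complex.exp_log (Complex.slitPlane_ne_zero (slit k.2))])

theorem Nr.cj (h : Nr a) : Nr (cj a) := ((rep_cj a).and h).mono fun p k => by
  rw [k.1, ← map_one (starRingEnd ℂ), ← map_sub, Complex.norm_conj]; exact k.2

theorem Nr.cj_lg (h : Nr a) : P354XG.cj (lg a) = lg (P354XG.cj a) :=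
  h.rs.cj.ext h.cj.rs (((rep_cj a).and h).mono fun p k => by
    beta_reduce
    rw [k.1, Complex.log_conj _ (Complex.slitPlane_arg_ne_pi (slit k.2))])

theorem Nr.unit (h : Nr a) : a * ex (-lg a) = 1 := by
  have := ex_neg (lg a)
  rwa [h.ex_lg] at this

theorem Nr.vf_lg [FiniteDimensional ℝ E] (h : Nr a) {X : Der (Sm G)} (hX : VF X) :
    X (lg a) = ex (-lg a) * X a := by
  have := vf_ex hX (lg a)
  rw [h.ex_lg] at this
  linear_combination -ex (-lg a) * this - X (lg a) * h.unit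

theorem rix_ex {J' : Type} {G' : Filter (J' × E)} [Loc G'] {κ : J' → J} (h : Rx G' G κ) (a : Sm G) :
    h.rix (ex a) = ex (h.rix a) :=
  (h.rs (rs_ex a)).ext (rs_ex _) ((h.rep a).mono fun p k => by simp only [k])

theorem Nr.rix {J' : Type} {G' : Filter (J' × E)} [Loc G'] {κ : J' → J} (h : Rx G' G κ)
    (n : Nr a) : Nr (h.rix a) := ((h.rep a).and (h.ev n)).mono fun p k => by rw [k.1]; exact k.2

theorem Nr.rix_lg {J' : Type} {G' : Filter (J' × E)} [Loc G'] {κ : J' → J} (h : Rx G' G κ)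
    (n : Nr a) : h.rix (lg a) = lg (h.rix a) :=
  (h.rs n.rs).ext (n.rix h).rs ((h.rep a).mono fun p k => by simp only [k])

end gen

section dom
variable {E : Type} [NormedAddCommGroup E] [NormedSpace ℝ E] {F : Filter J} {K : J → Set E}
  {a : Sm (nb F K)}

theorem pb_ex {E' : Type} [NormedAddCommGroup E'] [NormedSpace ℝ E'] {K' : J → Set E'}
    {X : J × E' → E} (h : Mp F K' K X) (a : Sm (nb F K)) : h.pb (ex a) = ex (h.pb a) :=
  Rs.ext ((h.rep_pb _).trans (h.ev (rs_ex a))) (rs_ex _)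
    ((h.rep_pb a).mono fun p k => by simp only [k])

variable [Gr F] [FiniteDimensional ℝ E] {ν : ℕ → J → ℝ}

theorem bd_ex (h : Bd a) : Bd (ex a) := by
  have m : ex a ∈ Subring.closure ({ex a} ∪ {a | Bd a}) := Subring.subset_closure (Or.inl rfl)
  refine bd_closure {ex a} (finite_singleton _) (fun s hs => ?_) (fun s hs v => ?_) _ m
  · rw [mem_singleton_iff.1 hs]
    filter_upwards [h.dom0, evk (ev_nb_on (rs_ex a))] with k h1 h2 θ
    obtain ⟨C, -, h1⟩ := h1 θ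
    refine ⟨Real.exp C, (Real.exp_pos C).le, (h1.and (h2 θ)).mono fun j k x hx => ?_⟩
    have := k.1 x hx
    simp only [w1, mul_one] at this ⊢
    rw [k.2 x hx]
    exact (Complex.norm_exp_le_exp_norm _).trans (Real.exp_le_exp.2 this)
  · rw [mem_singleton_iff.1 hs, pd_ex]
    exact mul_mem m (Subring.subset_closure (Or.inr (h.pd v)))

omit [FiniteDimensional ℝ E] in
theorem dom0_le {b : Sm (nb F K)} (h : Dom0 ν a) {c : ℝ} (hc : 0 ≤ c)
    (e : ∀ᶠ j in F, ∀ x ∈ K j, ‖rep b (j, x)‖ ≤ c * ‖rep a (j, x)‖) : Dom0 ν b := by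
  filter_upwards [h, evk e] with k h1 h2 θ
  obtain ⟨C, hC, h1⟩ := h1 θ
  refine ⟨c * C, mul_nonneg hc hC, (h1.and (h2 θ)).mono fun j k x hx => (k.2 x hx).trans ?_⟩
  rw [mul_assoc]
  exact mul_le_mul_of_nonneg_left (k.1 x hx) hc

theorem dom_ex (hν : Wgt ν) (s : Sml F ν) (h : Dom ν a) : Dom ν (ex a - 1) := by
  refine dom_of hν (dom0_le h.dom0 zero_le_two ?_) fun v => ?_
  · filter_upwards [h.ev_lt s 1 one_pos, ev_nb_on ((rs_ex a).sub rs_one)] with j h1 h2 x hx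
    rw [h2 x hx]
    exact Complex.norm_exp_sub_one_le (h1 x hx).le
  · rw [D_sub, D_one, sub_zero, pd_ex]
    exact Dom.bmul hν (bd_ex (h.bd s hν)) (h.pd v)

theorem dom_lg (hν : Wgt ν) (s : Sml F ν) (n : Nr a) (h : Dom ν (a - 1)) : Dom ν (lg a) := by
  have lo := h.low_one_add s
  have ba : Bd (1 + (a - 1)) := Dom.add wgt_one bd_one (h.bd s hν)
  rw [add_sub_cancel] at lo ba
  refine dom_of hν (dom0_le h.dom0 (c := 3 / 2) (by norm_num) ?_) fun v => ?_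
  · filter_upwards [ev_nb_on n, ev_nb_on n.rs, ev_nb_on ((rs_rep a).sub rs_one)] with j h1 h2 h3 x hx
    rw [h2 x hx, h3 x hx]
    simpa using Complex.norm_log_one_add_half_le_self (h1 x hx).le
  · rw [n.vf_lg (P354XO.vf_pd v)]
    refine Dom.bmul hν (lo.bd_inv ba n.unit) ?_
    simpa only [D_sub, D_one, sub_zero] using h.pd v

end dom

section sl
variable {F : Filter J} [Gr F] {s : Sl J} {S : Set (ℂ × ℂ)}

theorem reg_of (o : ∀ᶠ k in atTop, ∀ θ, s.Ok (ph F k θ)) (hS : S ⊆ SA) {M : ℝ} (hM : 0 < M)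
    (a : ℝ) : Reg F (s.K S) (fun _ => M) fun _ => a := o.mono fun k h θ => by
  obtain ⟨ra, rb, r, h⟩ := h θ
  refine ⟨min (min M ra) (1 / 256), by positivity, max (max M |a|) (max rb 32),
    h.mono fun j h x hx => ?_⟩
  have h1 := h.2.1 hx.2.1
  obtain ⟨h2, h3⟩ := hS hx.2.2
  have h4 := (norm_fst_le x.2.2).trans h3
  have h5 := (norm_snd_le x.2.2).trans h3
  have n1 := norm_nonneg x.2.2.1
  have n2 := norm_nonneg x.2.2.2
  rw [Prod.norm_def, le_max_iff] at h2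
  refine ⟨by simp [abs_of_pos hM], by simp [abs_of_pos hM], by simp, by simp [h1.1],
    by simp [h1.2], (min_le_right _ _).trans ?_, le_max_of_le_right (le_max_of_le_right ?_)⟩ <;>
    simp only [nq, Complex.normSq_eq_norm_sq]
  · rcases h2 with h2 | h2 <;> nlinarith
  · nlinarith

theorem x0_mem (o : ∀ᶠ k in atTop, ∀ θ, s.Ok (ph F k θ)) (h1 : ((1, 1) : ℂ × ℂ) ∈ S) :
    ∀ᶠ j in F, s.x0 j ∈ s.K S j := evk_of (o.mono fun k h θ => by
  obtain ⟨_, _, -, h⟩ := h θ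
  exact h.mono fun j h => ⟨rfl, h.1, h1⟩)

end sl

namespace Dm
variable {m : Dm J} [Gr m.sF] (o : m.Ok) {S S' : Set (ℂ × ℂ)}
include o

theorem Ok.ev {P : J × E6 → Prop} (h : ∀ᶠ j in m.F, ∀ x ∈ Om (m.D j), P (j, x)) :
    ∀ᶠ p in m.G, P p := ev_nb.2 ((o.op.and h).mono fun _ k _ hx =>
  mem_of_superset ((P354XO.om_open k.1.1).mem_nhds hx) k.2)

theorem Ok.pos : Pos m.G := o.ev (o.op.mono fun _ h _ hx => ⟨(h.2 _ hx.1).1, hx.2⟩)
theorem Ok.off : Off m.G := o.pos.off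
theorem Ok.is : m.h.Is := hp_is o.off

theorem Ok.reg (hS : S ⊆ SA) {M : ℝ} (hM : 0 < M) (a : ℝ) :
    Reg m.sF (m.sl.K S) (fun _ => M) fun _ => a := reg_of o.sl hS hM a

theorem Ok.conn (c : CONN) : Conn m.sF (m.sl.K SA) m.sl.x0 ∧ Conn m.sF (m.sl.K SO) m.sl.x0 :=
  ⟨o.sl.mono fun _ h θ => (c _ _ _ (h θ)).1, o.sl.mono fun _ h θ => (c _ _ _ (h θ)).2⟩

theorem Ok.x0 (h1 : ((1, 1) : ℂ × ℂ) ∈ S) : ∀ᶠ q in m.sF, m.sl.x0 q ∈ m.sl.K S q := x0_mem o.sl h1

theorem Ok.hh (hS : S ⊆ SA) : HHom m.h (hp (m.sl.G m.sF S)) (o.rx hS) := (o.rxx hS).hp o.off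

theorem Ok.rx_cj (hS : S ⊆ SA) (f : m.S) : o.rx hS (cj f) = cj (o.rx hS f) := (o.rxx hS).rix_cj f

theorem Ok.rs_rx (hS : S ⊆ SA) (h : S' ⊆ S) (f : m.S) :
    m.sl.rs m.sF h (o.rx hS f) = o.rx (h.trans hS) f :=
  Rs.ext ((rep_res _ _).trans (((mp_res (m.sl.sub m.sF h)).ev ((o.rxx hS).rep f)).mono
    fun p k => by simpa [aff, Ok.rx] using k)) ((o.rxx (h.trans hS)).rep f) .rfl

/-- A property of the values on the slices holds on the unit spinors. -/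
theorem Ok.unit (hS : S ⊆ SA) (h1 : ∀ w, ‖w‖ = 1 → w ∈ S) (f : m.S) {P : ℂ → Prop}
    (h : ∀ᶠ q in m.sF, ∀ x ∈ m.sl.K S q, P (rep (o.rx hS f) (q, x))) :
    ∀ᶠ j in m.F, ∀ x ∈ Om (m.D j), ‖x.2.2‖ = 1 → P (rep f (j, x)) := by
  filter_upwards [o.cov _ (h.and (ev_nb_on ((o.rxx hS).rep f)))] with j k x hx n
  obtain ⟨q, l, rfl, e1, e2⟩ := k _ hx.1
  exact l.2 x ⟨e1.symm, e2, h1 _ n⟩ ▸ l.1 x ⟨e1.symm, e2, h1 _ n⟩

theorem Ok.all (hS : S ⊆ SA) (h1 : ∀ w, ‖w‖ = 1 → w ∈ S) {f : m.S} (H : m.h.H f = 0)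
    (B : m.h.B f = 0) {P : ℂ → Prop}
    (h : ∀ᶠ q in m.sF, ∀ x ∈ m.sl.K S q, P (rep (o.rx hS f) (q, x))) : ∀ᶠ p in m.G, P (rep f p) := by
  refine o.ev ?_
  filter_upwards [o.unit hS h1 f h, P354XO.ev_hom (u := f) (m := 0) (n := 0) (by simp [H])
    (by simp [B])] with j k1 k2 x hx
  have z := inv_ne_zero (P354XO.nz_ne hx.2)
  have := k2 x hx (Complex.log (P354XO.nz x)⁻¹)
  rw [Complex.exp_log z] at this
  simpa [this] using k1 _ (P354XO.om_sc hx z) (P354XO.norm_unit hx.2)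

theorem Ok.pd_bs (v : E6) (f : m.S) : pd v (o.bs f) = o.bs (pd (pt v) f) := pd_pb_aff _ v f
theorem Ok.bs_cj (f : m.S) : o.bs (cj f) = cj (o.bs f) := o.mp.pb_cj f
theorem Ok.bs_ex (f : m.S) : o.bs (ex f) = ex (o.bs f) := pb_ex _ f

theorem Ok.d_bs (i : Fin 6) (f : m.S) :
    m.h.d i (o.bs f) = if i = 0 then o.bs (m.h.d 0 f) else 0 := by
  have z : pd (0 : E6) f = 0 := by simpa using pd_smul_dir 0 (0 : E6) f
  have e1 : ∀ i, pt (v1 i) = if i = 0 then v1 0 else 0 := fun i => by fin_cases i <;> rfl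
  have e2 : ∀ i, pt (v2 i) = 0 := fun i => by fin_cases i <;> rfl
  have e3 : v2 0 = 0 := rfl
  simp only [hp_d, o.pd_bs, e1, e2, e3, z, map_zero, mul_zero, add_zero]
  split_ifs with h
  · rw [h, map_mul, AlgHom.commutes]
  · rw [z, map_zero, mul_zero]

theorem Ok.rs_bs (f : m.S) : Rs (o.bs f) fun p => rep f (p.1, p.2.1, m.R1, 1, 1) :=
  (o.mp.rep_pb f).trans (Eventually.of_forall fun p => by simp [aff, pt])

theorem Ok.bs_z (i : Fin 6) :
    o.bs (m.h.z i) = ![m.h.z 0, algebraMap ℂ _ m.R1, 1, 1, 1, 1] i := by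
  have e : Rs (o.bs (m.h.z i)) fun p => zc i (p.2.1, m.R1, 1, 1) :=
    (o.mp.rep_pb _).trans ((o.mp.ev (rs_z i)).mono fun p k => by simpa [aff, pt] using k)
  fin_cases i
  · exact e.ext (rs_z 0) .rfl
  · exact e.ext (rs_alg _) .rfl
  all_goals exact e.ext rs_one (Eventually.of_forall fun p => by simp [zc])

theorem Ok.bs_bs (f : m.S) : o.bs (o.bs f) = o.bs f :=
  Rs.ext ((o.mp.rep_pb _).trans (o.mp.ev (o.rs_bs f))) (o.rs_bs f)
    (Eventually.of_forall fun p => by simp [aff, pt])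

theorem Ok.mps (h1 : ((1, 1) : ℂ × ℂ) ∈ S) : Mp m.sF (m.sl.K S') (m.sl.K S)
    (aff (fun _ => (0, m.R1, 1, 1)) pt) :=
  mp_aff _ _ ((o.x0 h1).mono fun j h x hx => ⟨by simpa [pt] using hx.1,
    by simpa [pt, Dm.sl, Sl.x0] using h.2.1, by simpa [pt] using h1⟩)

theorem Ok.rx_bs (hS : S ⊆ SA) (hS' : S' ⊆ SA) (h1 : ((1, 1) : ℂ × ℂ) ∈ S) (f : m.S) :
    o.rx hS' (o.bs f) = (o.mps h1).pb (o.rx hS f) :=
  ((o.rxx hS').rs (o.rs_bs f)).ext
    (((o.mps h1).rep_pb _).trans ((o.mps h1).ev ((o.rxx hS).rep f)))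
    (Eventually.of_forall fun p => by simp [aff, pt])

omit o [Gr m.sF] in
theorem rs_rf {φ : ℝ → ℝ} (h : ContDiff ℝ ∞ φ) : Rs (m.rf φ) fun p => (φ p.2.2.1 : ℂ) :=
  rs_gm (Eventually.of_forall fun _ => (Complex.ofRealCLM.contDiff.comp
    (h.comp (contDiff_fst.comp contDiff_snd))).contDiffAt)

omit o [Gr m.sF] in
theorem cj_rf {φ : ℝ → ℝ} (h : ContDiff ℝ ∞ φ) : cj (m.rf φ) = m.rf φ :=
  (rs_rf h).cj.ext (rs_rf h) (Eventually.of_forall fun _ => Complex.conj_ofReal _)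

omit o [Gr m.sF] in
theorem pd_rf {φ : ℝ → ℝ} (h : ContDiff ℝ ∞ φ) (v : E6) :
    pd v (m.rf φ) = algebraMap ℂ _ v.2.1 * m.rf (deriv φ) :=
  ((rs_rf h).pd v).ext ((rs_alg _).mul (rs_rf (contDiff_infty_iff_deriv.1 h).2))
    (Eventually.of_forall fun p => by
      have : fderiv ℝ (P354XG.sl (fun p : J × E6 => (φ p.2.2.1 : ℂ)) p.1) p.2 = _ :=
        (Complex.ofRealCLM.hasFDerivAt.comp p.2 ((h.differentiable (by simp) _).hasDerivAt
          |>.comp_hasFDerivAt p.2 (hasFDerivAt_fst.comp p.2 hasFDerivAt_snd))).fderiv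
      simp [pdF, this, mul_comm])

omit o [Gr m.sF] in
theorem d_rf {φ : ℝ → ℝ} (h : ContDiff ℝ ∞ φ) (i : Fin 6) :
    m.h.d i (m.rf φ) = if i = 1 then m.rf (deriv φ) else 0 := by
  rw [hp_d, pd_rf h, pd_rf h]
  fin_cases i <;> simp [d1, P354XD.d2, v1, v2]

theorem Ok.p0 (M a : ℝ) : (m.p0 M a).Is m.h :=
  have h := (contDiff_infty_iff_deriv.1 o.H).2
  { pm_is o.pos (fun _ => M) fun _ => a with
    ch := by show cj (1 + _) = 1 + _; rw [map_add, map_one, cj_rf h]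
    dh := fun i hi => by show m.h.d i (1 + _) = 0; rw [D_add, D_one, d_rf h, if_neg hi, add_zero] }

theorem Ok.K0 (M a : ℝ) : (m.K0 M a).Is := kk_is o.is (o.p0 M a)

theorem Ok.bd_rf (hS : S ⊆ SA) {φ : ℝ → ℝ} (h : ContDiff ℝ ∞ φ) : Bd (o.rx hS (m.rf φ)) := by
  let L : E6 →L[ℝ] ℝ := (ContinuousLinearMap.fst ℝ ℝ _).comp (.snd ℝ ℝ _)
  have k : Mp m.sF (m.sl.K S) m.I (aff (fun _ => 0) L) :=
    mp_aff _ _ (Eventually.of_forall fun q x hx => by simpa [L, Dm.sl] using hx.2.1)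
  obtain ⟨s, hs⟩ := bd_fn (F := m.sF) (K := m.I) isOpen_univ (o.sl.mono fun k h θ => by
    obtain ⟨ra, rb, -, h⟩ := h θ
    exact ⟨Icc ra rb, isCompact_Icc, subset_univ _, h.mono fun j h => h.2.1⟩)
    (φ := fun r => (φ r : ℂ)) (Complex.ofRealCLM.contDiff.comp h).contDiffOn
  rw [Ok.rx, ((o.rxx hS).rs (rs_rf h)).ext
    ((k.rep_pb (fn _ s)).trans (k.ev (rs_mk (f := fun p => φ p.2) s)))
    (Eventually.of_forall fun p => by simp [aff, L])]
  exact dom_pb_aff _ hs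

variable {μ ν : ℕ → m.Q → ℝ} {f g : m.S} {o}

theorem Ok.DB.bs (h : o.DB μ f) : o.DA μ (o.bs f) := by
  rw [Ok.DA, o.rx_bs sb_sa le_rfl one_sb]; exact dom_pb_aff _ h

theorem Ok.DB.sm1 (h : o.DB μ f) (s : Sml m.sF μ) : P354XO.Sm1 f := fun e he =>
  o.unit sb_sa (fun w n => by norm_num [SB, n]) f (P := fun z => ‖z‖ ≤ e)
    ((Dom.ev_lt h s e he).mono fun _ k x hx => (k x hx).le)

theorem Ok.DA.db (h : o.DA μ f) : o.DB μ f := by
  rw [Ok.DB, ← o.rs_rx le_rfl sb_sa]; exact Dom.res _ h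

theorem Ok.DA.nr (h : o.DA ν (f - 1)) (s : Sml m.sF ν) (H : m.h.H f = 0) (B : m.h.B f = 0) :
    Nr f := by
  have := o.all le_rfl (fun w n => by norm_num [SA, n]) (f := f - 1) (by simp [H]) (by simp [B])
    (P := fun z => ‖z‖ < 1 / 2) (Dom.ev_lt h s _ one_half_pos)
  exact (this.and ((rs_rep f).sub rs_one)).mono fun p k => (congrArg _ k.2).ge.trans_lt k.1

end Dm

end Vale.Agent.P354RI
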