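import Vale.Agent.P354RI.Cd
import Vale.Agent.P354RI.Fun

/-!
The algebras of the slices.
-/

open scoped ContDiff
open Set Filter Topology

noncomputable section

namespace Vale.Agent.P354RI

open Vale.Agent.P354XG hiding Dom Dom0 Bd bdSub domI Keeps Low dom0_mk dom0_zero dom0_cst dom_of
  dom_zero dom_cst bd_alg dom_sum dom0_sum keeps_pd keeps_zero keeps_sum bd_closure dom_pb_aff
  bd_fn bd_par Conn gron gron0 dom_of_sys dom_sub_ev0
open Vale.Agent.P354MG Vale.Agent.P354XD Vale.Agent.P354XR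
open Vale.Agent.P354XO (Om VF Wts co co_is gpush GV Psh Cj push)
open Vale.Agent.P354YA (Rx HHom)
open Vale.Agent.P354XF (fr)

section alg
variable {A B : Type*} [CommRing A] [Algebra ℂ A] [CommRing B] [Algebra ℂ B] {K : Hp A} {K' : Hp B}
  {φ : A →ₐ[ℂ] B} {p : Pm A}

def pmap (φ : A →ₐ[ℂ] B) (p : Pm A) : Pm B := ⟨φ p.a, φ p.M, φ p.sg, φ p.h1, φ p.j1⟩

theorem kr_hom (h : HHom K K' φ) : KR (fun a b => φ a = b) (kk K p) (kk K' (pmap φ p)) := by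
  refine ⟨rr_hom φ, h.z 1, ?_, ?_, ?_, h.N, h.Ni, rfl, rfl, rfl⟩ <;>
    simp only [kk, Hp.kc, map_mul, map_sub, map_ofNat, h.z, h.Ni]

theorem pmap_is (h : HHom K K' φ) (q : p.Is K) : (pmap φ p).Is K' := by
  have x : φ K.kc.x = K'.kc.x := (kr_hom (p := p) h).x
  refine ⟨?_, ?_, ?_, ?_, fun i => ?_, fun i => ?_, fun i e => ?_, fun i e => ?_, ?_⟩ <;>
    simp only [pmap, ← h.c, ← h.d, q.ca, q.cM, q.ch, q.cj, q.da, q.dM, map_zero]
  · rw [q.dh i e, map_zero]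
  · rw [q.dj i e, map_zero]
  · simp only [← h.z, ← x, ← map_mul, ← map_add, q.hg, map_one]

theorem fr_hom (h : HHom K K' φ) (b : Fin 6) (f : A) :
    φ (fr (kk K p).kerr b f) = fr (kk K' (pmap φ p)).kerr b (φ f) := by
  have k := kr_hom (p := p) h
  have e : ∀ i, φ (kc (kk K p) b i) = kc (kk K' (pmap φ p)) b i := k.kc b
  have x : φ K.kc.x = K'.kc.x := k.x
  have s : φ K.kc.s = K'.kc.s := k.s
  have sb : φ K.kc.sb = K'.kc.sb := k.sb
  simp only [fr_kc, vk_eq, map_sum, map_mul, h.d]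
  refine Finset.sum_congr rfl fun i _ => congrArg (· * _) ?_
  fin_cases i <;> simp [zu, sh, e, h.z, x, s, sb, pmap, P354YA.map_ii]

theorem hom_fr {G : GHP A} {G' : GHP B} (h : GHP.Hom G G' φ) (b : Fin 6) (f : A) :
    φ (fr G b f) = fr G' b (φ f) := by
  fin_cases b
  exacts [h.th f, h.tp f, h.et f, h.ep f, h.H f, h.Hb f]

end alg

section gp
variable {J J' J2 : Type} {G : Filter (J × E6)} {G' : Filter (J' × E6)} {G2 : Filter (J2 × E6)}
  [Loc G] [Loc G'] [Loc G2]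

/-- The calculus on another ring of germs. -/
def gp (φ : Sm G →ₐ[ℂ] Sm G') (X : GHP (Sm G)) : GHP (Sm G') := gpush (co G') φ (co G).x cj X

variable {κ : J' → J} (h : Rx G' G κ) {X : GHP (Sm G)}

theorem rix_psh : Psh (co G) (co G') h.rix (co G).x := by
  have e : ∀ k, h.rix ((co G).x k) = (co G').x k := fun k => h.rix_mk _ (P354XO.sm_lin _)
  refine ⟨co_is, co_is, fun k f => ?_, e⟩
  simp only [e, co_is.dx]
  simpa [co] using (h.rix_pd _ f).symm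

theorem rix_cjs : Cj (co G') h.rix (co G).x cj cj :=
  ⟨h.rix_cj, fun _ => (cj_mk _ (P354XO.sm_lin _)).trans
    ((mk_eq (hg := P354XO.sm_lin _)).2 (Eventually.of_forall fun _ => Complex.conj_ofReal _)),
    fun _ => cj_pd _, cj_cj⟩

omit h in
theorem gv_of (v : ∀ b, VF (fr X b)) : GV (co G) X := ⟨v 0, v 1, v 2, v 3, v 4, v 5⟩

theorem gp_hom (v : ∀ b, VF (fr X b)) (c : X.c = cj) : GHP.Hom X (gp h.rix X) h.rix :=
  (rix_psh h).hom (gv_of v) (c ▸ rix_cjs h)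

theorem gp_is (v : ∀ b, VF (fr X b)) (c : X.c = cj) (i : X.Is) : (gp h.rix X).Is :=
  (rix_psh h).is (gv_of v) (c ▸ rix_cjs h) i

omit h in
theorem gp_vf (φ : Sm G →ₐ[ℂ] Sm G') (b : Fin 6) : VF (fr (gp φ X) b) := by
  fin_cases b <;> exact P354XO.vf_push _

omit h in
theorem gp_gp {φ : Sm G →ₐ[ℂ] Sm G'} {φ2 : Sm G →ₐ[ℂ] Sm G2} {ψ : Sm G' →ₐ[ℂ] Sm G2}
    (e : ∀ f, ψ (φ f) = φ2 f) (d : ∀ v f, ψ (pd v f) = pd v (ψ f)) (c : ∀ f, ψ (cj f) = cj (ψ f)) :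
    GHP.Hom (gp φ X) (gp φ2 X) ψ := by
  have u : ∀ D f, ψ (push (co G') φ (co G).x D f) = push (co G2) φ2 (co G).x D (ψ f) := fun D f => by
    simp only [push, P354XO.Co.vf_ap, map_sum, map_mul, e]
    exact Finset.sum_congr rfl fun _ _ => congrArg (_ * ·) (d _ f)
  exact ⟨c, u _, u _, u _, u _, u _, u _, e _, e _, e _, e _, e _, e _, e _, e _, e _, e _, e _,
    e _, e _⟩

omit h in
theorem vf_cz {D : Der (Sm G)} (v : VF D) : (cz (hp G)).VF D :=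
  ⟨fun i => D ((hp G).z i), fun f => by
    conv_lhs => rw [v.eq_z]
    exact (cz (hp G)).vf_ap _ f⟩

end gp

section tri
variable {J : Type} {F : Filter J} [Gr F] {μ ν : ℕ → J → ℝ}

variable (F μ ν) in
/-- The weights. -/
structure Wt : Prop where
  wm : Wgt μ
  wn : Wgt ν
  s : P354MG.Sml F ν
  le : Le F μ ν

def dg (K : J → Set E6) (h : Wgt μ) : AddSubgroup (Sm (nb F K)) where
  carrier := {a | Dom μ a}
  add_mem' ha hb := Dom.add h ha hb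
  zero_mem' := dom_zero h
  neg_mem' ha := Dom.neg h ha

/-- The classes on a family of sets. -/
def Wt.tri (w : Wt F μ ν) (K : J → Set E6) : Tri (cj : Sm (nb F K) →+* _) where
  B := bdSub F K
  I := dg K w.wm
  S := dg K w.wn
  cc := cj_cj
  IS _ h := Dom.mono h w.le
  SB _ h := Dom.bd h w.s w.wn
  mI _ h _ k := Dom.bmul w.wm h k
  mS _ h _ k := Dom.bmul w.wn h k
  cB _ h := Dom.cj h
  cI _ h := Dom.cj h
  cS _ h := Dom.cj h

variable (w : Wt F μ ν) {K K1 : J → Set E6}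

theorem Wt.inv : (w.tri K).Inv := fun _ h =>
  Low.inv (Dom.add wgt_one bd_one (Dom.bd h w.s w.wn)) (Dom.low_one_add h w.s)

theorem keeps_d {μ : ℕ → J → ℝ} (hμ : Wgt μ) (i : Fin 6) {u : Sm (nb F K)} (h : Dom μ u) :
    Dom μ ((hp (nb F K)).d i u) := by
  rw [hp_d]
  exact (Dom.bmul hμ (bd_alg _) (h.pd _)).add hμ (Dom.bmul hμ (bd_alg _) (h.pd _))

theorem Wt.kd (i : Fin 6) : (w.tri K).Kp ((hp _).d i) :=
  ⟨fun _ => keeps_d wgt_one i, fun _ => keeps_d w.wm i, fun _ => keeps_d w.wn i⟩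

theorem Wt.res (hs : ∀ᶠ j in F, K1 j ⊆ K j) : (w.tri K).Hm (w.tri K1) (res hs) :=
  ⟨fun _ => Dom.res hs, fun _ => Dom.res hs, fun _ => Dom.res hs, res_cj hs⟩

theorem Wt.ev0 {x0 : J → E6} (hx : ∀ᶠ j in F, x0 j ∈ K j) : (w.tri K).Hm (w.tri K1) (ev0 x0 hx) :=
  ⟨fun _ h => (Dom.dom0 h).ev0 wgt_one x0 hx, fun _ h => (Dom.dom0 h).ev0 w.wm x0 hx,
    fun _ h => (Dom.dom0 h).ev0 w.wn x0 hx, ev0_cj x0 hx⟩

omit [Gr F] in
theorem rs_res (hs : ∀ᶠ j in F, K1 j ⊆ K j) {a : Sm (nb F K)} {f : J × E6 → ℂ} (h : Rs a f) :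
    Rs (res hs a) f :=
  (rep_res hs a).trans (((mp_res hs).ev h).mono fun p k => by simpa [aff] using k)

omit [Gr F] in
theorem hh_res (hs : ∀ᶠ j in F, K1 j ⊆ K j) (o : Off (nb F K)) :
    HHom (hp (nb F K)) (hp (nb F K1)) (res hs) :=
  have o1 : Off (nb F K1) := ((mp_res hs).ev o).mono fun p k => by simpa [aff] using k
  ⟨res_cj hs, fun i f => by simp only [hp_d, map_add, map_mul, AlgHom.commutes, pd_res],
    fun i => (rs_res hs (rs_z i)).ext (rs_z i) .rfl, (rs_res hs (rs_ri o)).ext (rs_ri o1) .rfl,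
    (rs_res hs (rs_Ni o)).ext (rs_Ni o1) .rfl⟩

end tri

variable {J : Type} {m : Dm J} [Gr m.sF] {o : m.Ok} {M a : ℝ} {G : GHP m.S} {μ ν : ℕ → m.Q → ℝ}
  {S S' : Set (ℂ × ℂ)}

theorem Dm.Ok.DA.to {f : m.S} (h : o.DA μ f) (hS : S ⊆ SA) : Dom μ (o.rx hS f) := by
  rw [← o.rs_rx le_rfl hS]; exact Dom.res _ h

/-- The cube root of P2. -/
structure Zi (o : m.Ok) (M a : ℝ) (G : GHP m.S) (ν : ℕ → m.Q → ℝ) (ze zi : m.S) (k : ℝ) : Prop where
  e : ze * zi = 1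
  e3 : zi ^ 3 = G.P2
  k3 : k ^ 3 = -(2 * M)
  b : o.DA (w1 _) ze
  c : o.DA ν (zi - algebraMap ℂ _ k * (m.K0 M a).z)

namespace In
variable (h : In m o M a G μ ν)
include h

theorem wt : Wt m.sF μ ν := ⟨h.wμ, h.wν, h.sν, h.le⟩

theorem hom (hS : S ⊆ SA) : GHP.Hom G (gp (o.rx hS) G) (o.rx hS) := gp_hom _ h.vf h.c

theorem pb (hS : S ⊆ SA) : PB (pmap (o.rx hS) (m.p0 M a)) (bdSub m.sF (m.sl.K S)) := by
  have r := o.reg hS h.M0 a
  have e : ∀ c : ℝ, o.rx hS (cst fun _ => c) = cst fun _ => c := fun c => (o.rxx hS).rix_cst _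
  have g := (pmap_is (o.hh hS) (o.p0 M a)).hg
  have g' := (pm_is r.pos (fun _ => M) fun _ => a).hg
  refine ⟨(congrArg Bd (e a)).mpr r.bd_a, (congrArg Bd (e M)).mpr r.bd_M, ?_, ?_,
    (congrArg Bd (map_zero (o.rx hS))).mpr (dom_zero wgt_one)⟩
  · have u : (pmap (o.rx hS) (m.p0 M a)).a = (pm _ (fun _ => M) fun _ => a).a := e a
    rw [u] at g
    rw [mul_comm] at g'
    rw [left_inv_eq_right_inv g g']
    exact r.pb.sg
  · show Bd (o.rx hS (1 + _))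
    rw [map_add, map_one]
    exact Dom.add wgt_one bd_one (o.bd_rf hS (contDiff_infty_iff_deriv.1 o.H).2)

variable {ze zi : m.S} {k : ℝ} (z : Zi o M a G ν ze zi k)
include z

theorem nh (hS : S ⊆ SA) : Nh (h.wt.tri (m.sl.K S)) (hp _) (pmap (o.rx hS) (m.p0 M a))
    (gp (o.rx hS) G) (o.rx hS ze) (o.rx hS zi) (algebraMap ℂ _ k) := by
  have r := o.reg hS h.M0 a
  have g := h.hom hS
  have hh := o.hh hS
  have kr := kr_hom (p := m.p0 M a) hh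
  have t : ∀ {f g : m.S} {f' g' : m.R S}, o.DA ν (f - g) → o.rx hS f = f' → o.rx hS g = g' →
      Dom ν (f' - g') := fun k e e' => by rw [← e, ← e', ← map_sub]; exact k.to hS
  have u : ∀ c : ℝ, c ≠ 0 → ∃ u ∈ bdSub m.sF (m.sl.K S), o.rx hS (cst fun _ => c) * u = 1 :=
    fun c hc => ⟨_, bd_alg (c : ℂ)⁻¹, by
      rw [show (cst fun _ => c : m.S) = algebraMap ℂ _ c from rfl, AlgHom.commutes, ← map_mul,
        mul_inv_cancel₀ (Complex.ofReal_ne_zero.2 hc), map_one]⟩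
  have ps := rix_psh (o.rxx hS)
  refine ⟨hp_is r.pos.off, pmap_is hh (o.p0 M a), r.hb, h.pb hS, h.wt.kd, gp_is _ h.vf h.c h.is,
    rfl, rfl, ps.push_eq P354XO.vf_H fun k => ?_, ps.push_eq P354XO.vf_B fun k => ?_,
    fun b => vf_cz (gp_vf _ b), ?_, ?_, h.P0.to hS, h.P4.to hS,
    fun b i => t (h.fr b i) ?_ ?_, t h.rh rfl kr.rh, t h.rh2 rfl kr.rh2, t h.ta rfl kr.ta,
    t h.ta2 rfl kr.ta2, t z.c rfl (kr.rr.mul (kr.rr.alg _) kr.z), z.b.to hS, bd_alg _, ?_, ?_, ?_,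
    ?_, fun i => D_alg _ _, u a h.a0, u M h.M0.ne'⟩
  · rw [h.H, ← ps.inv]; exact hh.H _
  · rw [h.B, ← ps.inv]; exact hh.Bf _
  · rw [← g.P1, h.P1, map_zero]
  · rw [← g.P3, h.P3, map_zero]
  · rw [hom_fr g, hh.z]
  · rw [Dm.K0, fr_hom hh, hh.z]
  · rw [← map_mul, z.e, map_one]
  · rw [← map_pow, z.e3, g.P2]
  · show _ = -(2 * o.rx hS (algebraMap ℂ _ M))
    rw [AlgHom.commutes, ← map_pow, ← map_ofNat (algebraMap ℂ (m.R S)) 2, ← map_mul, ← map_neg]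
    exact congrArg _ (show (k : ℂ) ^ 3 = -(2 * M) by exact_mod_cast z.k3)
  · rw [cj_alg, Complex.conj_ofReal]

end In

end Vale.Agent.P354RI
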