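import Vale.Agent.P354MG.Gp
import Vale.Agent.P354XO.Fam
import Vale.Agent.P354YA.Rix
import Vale.Agent.P354XR.Gin
import Vale.Agent.P354XF.Tab

/-!
The rigidity of Kerr: the slices, the statement, and the analytic lemmas.
-/

open scoped ContDiff
open Set Filter Topology

noncomputable section

namespace Vale.Agent.P354RI

open Vale.Agent.P354XG hiding Dom Dom0 Bd bdSub domI Keeps Low dom0_mk dom0_zero dom0_cst dom_of
  dom_zero dom_cst bd_alg dom_sum dom0_sum keeps_pd keeps_zero keeps_sum bd_closure dom_pb_aff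
  bd_fn bd_par Conn gron gron0 dom_of_sys dom_sub_ev0
open Vale.Agent.P354MG Vale.Agent.P354XD Vale.Agent.P354XR
open Vale.Agent.P354XO (Om VF Wts)
open Vale.Agent.P354YA (Rx)
open Vale.Agent.P354XF (fr)

/-! ### Slices -/

def Ann : Set ℂ := {z | 1 / 16 ≤ ‖z‖ ∧ ‖z‖ ≤ 4}
def Dsc : Set ℂ := {z | ‖z‖ ≤ 4}
/-- The northern and the southern region, their intersection and their union, and the smaller
shell. -/
def SN : Set (ℂ × ℂ) := Ann ×ˢ Dsc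
def SS : Set (ℂ × ℂ) := Dsc ×ˢ Ann
def SO : Set (ℂ × ℂ) := Ann ×ˢ Ann
def SA : Set (ℂ × ℂ) := {w | 1 / 16 ≤ ‖w‖ ∧ ‖w‖ ≤ 4}
def SB : Set (ℂ × ℂ) := {w | 1 / 4 ≤ ‖w‖ ∧ ‖w‖ ≤ 4}

theorem ann_dsc : Ann ⊆ Dsc := fun _ h => h.2
theorem so_sn : SO ⊆ SN := prod_mono le_rfl ann_dsc
theorem so_ss : SO ⊆ SS := prod_mono ann_dsc le_rfl
theorem sn_sa : SN ⊆ SA := fun _ h => ⟨h.1.1.trans (norm_fst_le _), max_le h.1.2 h.2⟩
theorem ss_sa : SS ⊆ SA := fun _ h => ⟨h.2.1.trans (norm_snd_le _), max_le h.1 h.2.2⟩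
theorem so_sa : SO ⊆ SA := so_sn.trans sn_sa
theorem sb_sa : SB ⊆ SA := fun _ h => ⟨le_trans (by norm_num) h.1, h.2⟩
theorem one_so : ((1, 1) : ℂ × ℂ) ∈ SO := by norm_num [SO, Ann]
theorem one_sb : ((1, 1) : ℂ × ℂ) ∈ SB := by norm_num [SB]
theorem sa_ne {w : ℂ × ℂ} (h : w ∈ SA) : w ≠ 0 := norm_pos_iff.1 (lt_of_lt_of_le (by norm_num) h.1)

/-- A family of slices: the time, the set of radii and the radius of the base point. -/
structure Sl (J : Type) where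
  tt : J → ℝ
  I : J → Set ℝ
  R1 : ℝ

namespace Sl
variable {J : Type} (s : Sl J) (F : Filter J)

def K (S : Set (ℂ × ℂ)) (j : J) : Set E6 := {x | x.1 = s.tt j ∧ x.2.1 ∈ s.I j ∧ x.2.2 ∈ S}
def x0 (j : J) : E6 := (s.tt j, s.R1, 1, 1)
abbrev G (S : Set (ℂ × ℂ)) : Filter (J × E6) := nb F (s.K S)
abbrev R (S : Set (ℂ × ℂ)) : Type := Sm (s.G F S)

def Ok : Prop := ∃ ra rb, 0 < ra ∧ ∀ᶠ j in F, s.R1 ∈ s.I j ∧ s.I j ⊆ Icc ra rb ∧
  ∀ r ∈ s.I j, segment ℝ s.R1 r ⊆ s.I j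

theorem sub {S S' : Set (ℂ × ℂ)} (h : S' ⊆ S) : ∀ᶠ j in F, s.K S' j ⊆ s.K S j :=
  Eventually.of_forall fun _ _ hx => ⟨hx.1, hx.2.1, h hx.2.2⟩

/-- The restriction to a smaller region. -/
def rs {S S' : Set (ℂ × ℂ)} (h : S' ⊆ S) : s.R F S →ₐ[ℂ] s.R F S' := res (s.sub F h)

end Sl

/-! ### The global region -/

/-- A family of regions D j of the (t, r) plane, with an initial time, a base radius, the height
function H, and a family of slices. -/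
structure Dm (J : Type) : Type 1 where
  F : Filter J
  D : J → Set (ℝ × ℝ)
  t0 : J → ℝ
  R1 : ℝ
  H : ℝ → ℝ
  Q : Type
  sF : Filter Q
  ka : Q → J
  tt : Q → ℝ
  I : Q → Set ℝ

namespace Dm
variable {J : Type} (m : Dm J)

abbrev G : Filter (J × E6) := nb m.F fun j => Om (m.D j)
abbrev S : Type := Sm m.G
abbrev h : Hp m.S := hp m.G

def sl : Sl m.Q := ⟨m.tt, m.I, m.R1⟩
abbrev R (S : Set (ℂ × ℂ)) : Type := m.sl.R m.sF S

/-- The slices are contained in the regions. -/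
structure Sub : Prop where
  td : Tendsto m.ka m.sF m.F
  sub : ∀ᶠ q in m.sF, ∀ r ∈ m.I q, (m.tt q, r) ∈ m.D (m.ka q)

structure Ok [Gr m.sF] : Prop extends m.Sub where
  H : ContDiff ℝ ∞ m.H
  op : ∀ᶠ j in m.F, IsOpen (m.D j) ∧ ∀ p ∈ m.D j, 0 < p.2 ∧ segment ℝ (p.1, m.R1) p ⊆ m.D j ∧
    segment ℝ (m.t0 j, m.R1) (p.1, m.R1) ⊆ m.D j
  cov : ∀ P : m.Q → Prop, (∀ᶠ q in m.sF, P q) →
    ∀ᶠ j in m.F, ∀ p ∈ m.D j, ∃ q, P q ∧ m.ka q = j ∧ m.tt q = p.1 ∧ p.2 ∈ m.I q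
  sl : ∀ᶠ k in atTop, ∀ θ, m.sl.Ok (ph m.sF k θ)

variable {m} in
theorem Sub.rxx (o : m.Sub) {S : Set (ℂ × ℂ)} (hS : S ⊆ SA) :
    Rx (m.sl.G m.sF S) m.G m.ka := fun P hP => by
  have h1 : ∀ᶠ p in m.G, p ∈ P := hP
  refine ev_nb.2 ((o.sub.and (o.td.eventually (ev_nb.1 h1))).mono fun q h x hx =>
    h.2 x ⟨?_, sa_ne (hS hx.2.2)⟩)
  rw [hx.1]; exact h.1 _ hx.2.1

variable [Gr m.sF]

/-- The germ along the slices. -/
def Ok.rx {m : Dm J} [Gr m.sF] (o : m.Ok) {S : Set (ℂ × ℂ)} (hS : S ⊆ SA) : m.S →ₐ[ℂ] m.R S :=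
  (o.rxx hS).rix

/-- Domination on the large and on the small shell. -/
def Ok.DA {m : Dm J} [Gr m.sF] (o : m.Ok) (μ : ℕ → m.Q → ℝ) (f : m.S) : Prop :=
  Dom μ (o.rx le_rfl f)
def Ok.DB {m : Dm J} [Gr m.sF] (o : m.Ok) (μ : ℕ → m.Q → ℝ) (f : m.S) : Prop :=
  Dom μ (o.rx sb_sa f)

omit [Gr m.sF] in
/-- The projection to the time axis. -/
def pt : E6 →L[ℝ] E6 := (ContinuousLinearMap.inl ℝ ℝ _).comp (.fst ℝ ℝ _)

variable {m} in
theorem Ok.mp (o : m.Ok) : Mp m.F (fun j => Om (m.D j)) (fun j => Om (m.D j))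
    (aff (fun _ => (0, m.R1, 1, 1)) pt) := by
  refine mp_aff _ _ (o.op.mono fun j h x hx => ⟨?_, by simp [pt]⟩)
  simpa [pt] using (h.2 _ hx.1).2.1 (left_mem_segment ℝ _ _)

variable {m} in
/-- The value on the base curve (t, R1, 1, 1). -/
def Ok.bs (o : m.Ok) : m.S →ₐ[ℂ] m.S := o.mp.pb

omit [Gr m.sF]

/-- A function of the radius. -/
def rf (φ : ℝ → ℝ) : m.S := gm m.G fun p => (φ p.2.2.1 : ℂ)

/-- The Kerr chart v = t + r + H r. -/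
def p0 (M a : ℝ) : Pm m.S :=
  { pm m.G (fun _ => M) fun _ => a with h1 := 1 + m.rf (deriv m.H) }
def K0 (M a : ℝ) : KC m.S := kk m.h (m.p0 M a)

end Dm

/-! ### The statement -/

section alg
variable {A : Type*} [CommRing A] [Algebra ℂ A]

/-- The components of the frame of Kerr in the basis T R P Q H B. -/
def kc (K : KC A) : Fin 6 → Fin 6 → A :=
  ![![2 * K.N * K.sg * K.W, K.N * K.sg * K.De, ii A * K.a * K.N * K.sg * K.s,
      -(ii A * K.a * K.N * K.sg * K.sb), -(K.N * (K.ee + ii A * K.a * K.x * K.sg)),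
      -(K.N * (K.ee - ii A * K.a * K.x * K.sg))],
    ![0, -K.Ni, 0, 0, ii A * K.a * K.x * K.sg * K.Ni, -(ii A * K.a * K.x * K.sg * K.Ni)],
    ![ii A * K.a * K.s * K.zb, 0, 0, K.zb, -(K.a * K.a * K.x * K.sg * K.s * K.zb),
      ii A * K.a * K.r * K.sg * K.s * K.zb],
    ![-(ii A * K.a * K.sb * K.z), 0, K.z, 0, -(ii A * K.a * K.r * K.sg * K.sb * K.z),
      -(K.a * K.a * K.x * K.sg * K.sb * K.z)],
    ![0, 0, 0, 0, 1, 0], ![0, 0, 0, 0, 0, 1]]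

/-- The field with the components e, applied to the coordinates y of the chart v = t + r. -/
def zv (e y : Fin 6 → A) : Fin 6 → A :=
  ![e 0 - e 1, e 1, e 4 * y 2 - e 2 * y 5, e 4 * y 3 + e 2 * y 4, e 5 * y 4 - e 3 * y 3,
    e 5 * y 5 + e 3 * y 2]

/-- The functions of the Kerr chart at the point y. -/
def ky (c : A →+* A) (y : Fin 6 → A) (Ni sg a M : A) : KC A :=
  kk ⟨c, 0, y, 0, Ni⟩ ⟨a, M, sg, 1, 0⟩

/-- The field which is proportional to the Killing field, and its conjugate. -/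
def Yf (G : GHP A) : Der A := G.rh' • G.th - G.rh • G.tp - G.ta' • G.et + G.ta • G.ep
def Yb (G : GHP A) : Der A :=
  G.c G.rh' • G.th - G.c G.rh • G.tp - G.c G.ta' • G.ep + G.c G.ta • G.et

end alg

variable {J : Type}

/-- The hypotheses: G is a transverse calculus which is close to Kerr (weight ν), with small
P0 and P4 (weight μ), and the time derivative is along the Killing direction on the base curve. -/
structure In (m : Dm J) [Gr m.sF] (o : m.Ok) (M a : ℝ) (G : GHP m.S) (μ ν : ℕ → m.Q → ℝ) :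
    Prop where
  a0 : a ≠ 0
  M0 : 0 < M
  is : G.Is
  c : G.c = cj
  H : G.H = m.h.H
  B : G.Hb = m.h.B
  vf : ∀ b, VF (fr G b)
  P1 : G.P1 = 0
  P3 : G.P3 = 0
  wμ : Wgt μ
  wν : Wgt ν
  sν : Sml m.sF ν
  le : Le m.sF μ ν
  P0 : o.DA μ G.P0
  P4 : o.DA μ G.P4
  fr : ∀ b i, o.DA ν (fr G b (m.h.z i) - fr (m.K0 M a).kerr b (m.h.z i))
  rh : o.DA ν (G.rh - (m.K0 M a).rh)
  rh2 : o.DA ν (G.rh' - (m.K0 M a).rh2)
  ta : o.DA ν (G.ta - (m.K0 M a).ta)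
  ta2 : o.DA ν (G.ta' - (m.K0 M a).ta2)
  P2 : o.DA ν (G.P2 - (m.K0 M a).P2)
  tube : ∃ c c' : m.S, o.DA (w1 _) (o.bs c) ∧ o.DA (w1 _) (o.bs c') ∧ ∀ b, o.DA μ (o.bs
    (m.h.d 0 (m.h.co b) - c * Yf G (m.h.co b) - c' * Yb G (m.h.co b)))

/-- The new chart (t, r, x1, x2) and the functions Mh, ah. -/
structure Out (m : Dm J) [Gr m.sF] (o : m.Ok) (M a : ℝ) (G : GHP m.S) (μ ν : ℕ → m.Q → ℝ)
    (t r x1 x2 Mh ah Ni sg : m.S) (y : Fin 6 → m.S) (K : KC m.S) : Prop where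
  hy : y = ![t, r, x1, x2, cj x1, cj x2]
  hK : K = ky cj y Ni sg ah Mh
  w : Wts t r x1 x2
  cM : cj Mh = Mh
  ca : cj ah = ah
  HM : m.h.H Mh = 0
  Ha : m.h.H ah = 0
  hN : K.N * Ni = 1
  hg : sg * (r * r + ah * ah * K.x * K.x) = 1
  bN : o.DB (w1 _) Ni
  bg : o.DB (w1 _) sg
  nt : ∀ i, o.DB ν (m.h.d i (t - m.h.z 0 - m.rf m.H))
  nr : o.DB ν (r - m.h.z 1)
  n1 : o.DB ν (x1 - m.h.z 2)
  n2 : o.DB ν (x2 - m.h.z 3)
  nM : o.DB ν (Mh - algebraMap ℂ _ M)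
  na : o.DB ν (ah - algebraMap ℂ _ a)
  tb : ∀ b i, o.DB μ (fr G b (y i) - zv (kc K b) y i)
  dM : ∀ i, o.DB μ (m.h.d i Mh)
  da : ∀ i, o.DB μ (m.h.d i ah)
  rh : o.DB μ (G.rh - K.rh)
  rh2 : o.DB μ (G.rh' - K.rh2)
  ta : o.DB μ (G.ta - K.ta)
  ta2 : o.DB μ (G.ta' - K.ta2)
  P2 : o.DB μ (G.P2 - K.P2)
  ka : o.DB μ G.ka
  si : o.DB μ G.si
  ka' : o.DB μ G.ka'
  si' : o.DB μ G.si'

/-- The rigidity theorem. -/
def RIG : Prop := ∀ (J : Type) (m : Dm J) [Gr m.sF] (o : m.Ok) (M a : ℝ) (G : GHP m.S)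
  (μ ν : ℕ → m.Q → ℝ), In m o M a G μ ν →
    ∃ t r x1 x2 Mh ah Ni sg y K, Out m o M a G μ ν t r x1 x2 Mh ah Ni sg y K

/-! ### The analytic lemmas -/

/-- The slices are uniformly connected. -/
def CONN : Prop := ∀ (J : Type) (F : Filter J) (s : Sl J), s.Ok F →
  P354XG.Conn F (s.K SA) s.x0 ∧ P354XG.Conn F (s.K SO) s.x0

/-- The root of a quartic equation. -/
def QRT : Prop := ∀ (J : Type) (F : Filter J) [Gr F] (K : J → Set E6) (ν : ℕ → J → ℝ), Wgt ν →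
  Sml F ν → ∀ a b c : Sm (nb F K), Dom ν a → Dom ν b → Dom ν c →
    ∃ z, Bd z ∧ 1 + z + a * z ^ 2 + b * z ^ 3 + c * z ^ 4 = 0

/-- The integral along the base curve. -/
def TIM : Prop := ∀ (J : Type) (m : Dm J) [Gr m.sF] (o : m.Ok) (f : m.S), cj f = f →
  ∃ u : m.S, cj u = u ∧ m.h.d 0 u = o.bs f ∧ ∀ i, i ≠ 0 → m.h.d i u = 0

/-- The form with the components α i on the coordinate fields is closed up to μ. -/
def Cl {F : Filter J} [Gr F] {K : J → Set E6} (μ : ℕ → J → ℝ) (α : Fin 6 → Sm (nb F K)) : Prop :=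
  ∀ i k, Dom μ ((hp _).d i (α k) - (hp _).d k (α i))

/-- The period along the loop (exp (2 pi i u), 1): the integral of z2 α2 - z4 α4. -/
def PER : Prop := ∀ (J : Type) (F : Filter J) [Gr F] (s : Sl J), s.Ok F →
  ∃ per : (Fin 6 → s.R F SO) →+ s.R F SA,
    (∀ (c : J → ℂ) α, per ((cst c : s.R F SO) • α) = cst c * per α) ∧
    (∀ μ, Wgt μ → ∀ α, (∀ i, Dom μ (α i)) → Dom μ (per α)) ∧
    (∀ μ, Wgt μ → ∀ (α : Fin 6 → s.R F SN) (c c' : J → ℂ), Cl μ α →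
      Dom μ ((hp _).z 2 * α 2 + (hp _).z 3 * α 3 - cst c) →
      Dom μ ((hp _).z 4 * α 4 + (hp _).z 5 * α 5 - cst c') →
      Dom μ (per (fun i => s.rs F so_sn (α i)) - (cst c - cst c'))) ∧
    (∀ μ, Wgt μ → ∀ α : Fin 6 → s.R F SS, Cl μ α → Dom μ (per fun i => s.rs F so_ss (α i))) ∧
    ∀ ν, Wgt ν → Sml F ν → ∀ u v : s.R F SO, u * v = 1 →
      (Dom ν (u - (hp _).kc.s) → per (fun i => v * (hp _).d i u) = 1) ∧
      (Dom ν (u - (hp _).kc.sb) → per (fun i => v * (hp _).d i u) = -1)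

/-- The conjugation of the coordinates, and their weights. -/
def bz : Fin 6 → Fin 6 := ![0, 1, 4, 5, 2, 3]
def hw : Fin 6 → ℂ := ![0, 0, 1, 1, 0, 0]

/-- A real form which comes from the base. -/
structure Bas {G : Filter (J × E6)} [Loc G] (α : Fin 6 → Sm G) : Prop where
  re : ∀ i, cj (α i) = α (bz i)
  wt : ∀ i, (hp G).H (α i) = algebraMap ℂ _ (-hw i) * α i
  ver : (hp G).z 2 * α 2 + (hp G).z 3 * α 3 = 0

/-- The potential which vanishes on the base curve. -/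
def POT : Prop := ∀ (J : Type) (m : Dm J) [Gr m.sF] (o : m.Ok) (α : Fin 6 → m.S), Bas α →
  ∃ u : m.S, cj u = u ∧ m.h.H u = 0 ∧ o.bs u = 0 ∧ ∀ μ, Wgt μ →
    ((∀ i k, o.DA μ (m.h.d i (α k) - m.h.d k (α i))) →
      o.DB μ (m.h.d 0 u - α 0 + o.bs (α 0)) ∧ ∀ i, i ≠ 0 → o.DB μ (m.h.d i u - α i)) ∧
    ((∀ i, i ≠ 0 → o.DA μ (α i)) → o.DB μ u)

/-- The coordinate fields in the frame. -/
def FRM : Prop := ∀ (J : Type) (m : Dm J) [Gr m.sF] (o : m.Ok) (M a : ℝ) (G : GHP m.S)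
  (μ ν : ℕ → m.Q → ℝ), In m o M a G μ ν → ∃ e : Fin 6 → Fin 6 → m.S,
    (∀ i b, o.DA (w1 _) (e i b)) ∧ ∀ i k, ∑ b, e i b * fr G b (m.h.z k) = if i = k then 1 else 0

section fn
variable {E : Type} [NormedAddCommGroup E] [NormedSpace ℝ E] {G : Filter (J × E)} [Loc G]

/-- The exponential, the logarithm, and the germs which are close to one. -/
def ex (a : Sm G) : Sm G := gm G fun p => Complex.exp (rep a p)
def lg (a : Sm G) : Sm G := gm G fun p => Complex.log (rep a p)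
def Nr (a : Sm G) : Prop := ∀ᶠ p in G, ‖rep a p - 1‖ < 1 / 2

end fn

end Vale.Agent.P354RI
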