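import Vale.Agent.P354RI.Rig
import Vale.Agent.P354NA.Main

/-!
The rigidity theorem, unconditionally.
-/

namespace Vale.Agent.P354RI

theorem rig : RIG := rig_of P354NA.nat

end Vale.Agent.P354RI
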