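import Vale.Agent.P354RI.Ins

/-!
The algebraic rigidity theorem on the slices.
-/

open scoped ContDiff
open Set Filter Topology

noncomputable section

namespace Vale.Agent.P354RI

open Vale.Agent.P354XG hiding Dom Dom0 Bd bdSub domI Keeps Low dom0_mk dom0_zero dom0_cst dom_of
  dom_zero dom_cst bd_alg dom_sum dom0_sum keeps_pd keeps_zero keeps_sum bd_closure dom_pb_aff
  bd_fn bd_par Conn gron gron0 dom_of_sys dom_sub_ev0
open Vale.Agent.P354MG Vale.Agent.P354XD Vale.Agent.P354XR Vale.Agent.P354NP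
open Vale.Agent.P354XO (Om VF Wts)
open Vale.Agent.P354YA (Rx HHom)
open Vale.Agent.P354XF (fr)

section per
variable {J : Type} {F : Filter J} [Gr F] {s : Sl J}

/-- The properties of the period. -/
structure Pr (F : Filter J) [Gr F] (s : Sl J) (per : (Fin 6 → s.R F SO) →+ s.R F SA) : Prop where
  sm : ∀ (c : J → ℂ) α, per ((cst c : s.R F SO) • α) = cst c * per α
  dom : ∀ μ, Wgt μ → ∀ α, (∀ i, Dom μ (α i)) → Dom μ (per α)
  pn : ∀ μ, Wgt μ → ∀ (α : Fin 6 → s.R F SN) (c c' : J → ℂ), Cl μ α →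
    Dom μ ((hp _).z 2 * α 2 + (hp _).z 3 * α 3 - cst c) →
    Dom μ ((hp _).z 4 * α 4 + (hp _).z 5 * α 5 - cst c') →
    Dom μ (per (fun i => s.rs F so_sn (α i)) - (cst c - cst c'))
  ps : ∀ μ, Wgt μ → ∀ α : Fin 6 → s.R F SS, Cl μ α → Dom μ (per fun i => s.rs F so_ss (α i))
  w : ∀ ν, Wgt ν → P354MG.Sml F ν → ∀ u v : s.R F SO, u * v = 1 →
    (Dom ν (u - (hp _).kc.s) → per (fun i => v * (hp _).d i u) = 1) ∧
    (Dom ν (u - (hp _).kc.sb) → per (fun i => v * (hp _).d i u) = -1)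

omit [Gr F] in
theorem res_cst {K K1 : J → Set E6} (hs : ∀ᶠ j in F, K1 j ⊆ K j) (c : J → ℂ) :
    res hs (cst c) = cst c := Mp.pb_cst _ c

omit [Gr F] in
theorem ev0_cst {K K1 : J → Set E6} {x0 : J → E6} (hx : ∀ᶠ j in F, x0 j ∈ K j) (c : J → ℂ) :
    (ev0 x0 hx (cst c) : Sm (nb F K1)) = cst c := Mp.pb_cst _ c

/-- The base curves. -/
def Sl.pt (s : Sl J) : Sl J := ⟨s.tt, fun _ => {s.R1}, s.R1⟩

section
variable (sb : ∀ S, ∀ᶠ j in F, s.pt.K S j ⊆ s.K S j) {q : (Fin 6 → s.pt.R F SO) →+ s.pt.R F SA}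

omit [Gr F] in
theorem pt_x0 : ∀ᶠ j in F, s.x0 j ∈ s.pt.K SA j := .of_forall fun _ => ⟨rfl, rfl, so_sa one_so⟩

def wr (q : (Fin 6 → s.pt.R F SO) →+ s.pt.R F SA) : (Fin 6 → s.R F SO) →+ s.R F SA :=
  AddMonoidHom.mk' (fun α => ev0 s.x0 pt_x0 (q fun i => res (sb SO) (α i))) fun α β => by
    rw [← map_add, ← map_add]
    exact congrArg (fun u => ev0 s.x0 pt_x0 (q u)) (funext fun i => map_add _ _ _)

omit [Gr F] in
theorem wr_ap (α : Fin 6 → s.R F SO) :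
    wr sb q α = ev0 s.x0 pt_x0 (q fun i => res (sb SO) (α i)) := rfl

omit [Gr F] in
theorem res_rs {S : Set (ℂ × ℂ)} (hS : SO ⊆ S) (f : s.R F S) :
    res (sb SO) (s.rs F hS f) = s.pt.rs F hS (res (sb S) f) :=
  (rs_res _ (rs_res _ (rs_rep f))).ext (rs_res _ (rs_res _ (rs_rep f))) .rfl

theorem Pr.wr (h : Pr F s.pt q) (o : ∀ {S}, S ⊆ SA → Off (s.G F S)) : Pr F s (wr sb q) := by
  have hh : ∀ {S}, S ⊆ SA → HHom (hp _) (hp _) (res (sb S)) := fun hS => hh_res _ (o hS)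
  have cl : ∀ {S μ} {α : Fin 6 → s.R F S}, S ⊆ SA → Cl μ α → Cl μ fun i => res (sb S) (α i) :=
    fun hS h i k => by
      have := (h i k).res (sb _)
      rwa [map_sub, (hh hS).d, (hh hS).d] at this
  have ve : ∀ {μ} {a b : s.R F SN} {c : J → ℂ} (i k : Fin 6),
      Dom μ ((hp _).z i * a + (hp _).z k * b - cst c) →
      Dom μ ((hp _).z i * res (sb SN) a + (hp _).z k * res (sb SN) b - cst c) := fun i k l => by
    have := l.res (sb _)
    rwa [map_sub, map_add, map_mul, map_mul, (hh sn_sa).z, (hh sn_sa).z, res_cst] at this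
  refine ⟨fun c α => ?_, fun μ hμ α l => (h.dom μ hμ _ fun i => (l i).res _).dom0.ev0 hμ _ pt_x0,
    fun μ hμ α c c' k1 k2 k3 => ?_, fun μ hμ α k => ?_, fun ν hν sν u v uv => ?_⟩
  · rw [wr_ap, wr_ap, ← ev0_cst (K := s.pt.K SA) (K1 := s.K SA) pt_x0, ← map_mul, ← h.sm]
    exact congrArg (fun u => ev0 s.x0 pt_x0 (q u)) (funext fun i =>
      (map_mul _ _ _).trans (congrArg (· * _) (res_cst _ c)))
  · have := (h.pn μ hμ _ c c' (cl sn_sa k1) (ve 2 3 k2) (ve 4 5 k3)).dom0.ev0 (K' := s.K SA) hμ _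
      pt_x0
    rw [map_sub, map_sub, ev0_cst, ev0_cst] at this
    rw [wr_ap]
    simpa only [res_rs] using this
  · have := (h.ps μ hμ _ (cl ss_sa k)).dom0.ev0 (K' := s.K SA) hμ _ pt_x0
    rw [wr_ap]
    simpa only [res_rs] using this
  · have k := kr_hom (p := ⟨0, 0, 0, 0, 0⟩) (hh so_sa)
    have ks : res (sb SO) (hp _).kc.s = (hp _).kc.s := k.s
    have kb : res (sb SO) (hp _).kc.sb = (hp _).kc.sb := k.sb
    obtain ⟨a, b⟩ := h.w ν hν sν (res (sb SO) u) (res (sb SO) v) (by rw [← map_mul, uv, map_one])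
    have e1 : (fun i => res (sb SO) (v * (hp _).d i u)) =
        fun i => res (sb SO) v * (hp _).d i (res (sb SO) u) :=
      funext fun i => by rw [map_mul, (hh so_sa).d]
    refine ⟨fun l => ?_, fun l => ?_⟩ <;> have := l.res (sb SO)
    · rw [map_sub, ks] at this
      rw [wr_ap, e1, a this, map_one]
    · rw [map_sub, kb] at this
      rw [wr_ap, e1, b this, map_neg, map_one]

end

theorem ex_per (p : PER) (o : ∀ᶠ k in atTop, ∀ θ, s.Ok (ph F k θ)) : ∃ per, Pr F s per := by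
  have r1 : ∀ᶠ j in F, 0 < s.R1 ∧ s.R1 ∈ s.I j := evk_of (o.mono fun k h θ => by
    obtain ⟨_, _, r, h⟩ := h θ
    exact h.mono fun j h => ⟨r.trans_le (h.2.1 h.1).1, h.1⟩)
  have o1 : s.pt.Ok F := ⟨if 0 < s.R1 then s.R1 else 1, s.R1, by split_ifs with h <;> positivity,
    r1.mono fun j h => ⟨rfl, by simp [Sl.pt, h.1], by simp [Sl.pt]⟩⟩
  obtain ⟨q, h1, h2, h3, h4, h5⟩ := p J F s.pt o1
  exact ⟨_, Pr.wr (fun S => r1.mono fun j h x hx =>
    ⟨hx.1, (mem_singleton_iff.1 hx.2.1).symm ▸ h.2, hx.2.2⟩) ⟨h1, h2, h3, h4, h5⟩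
    fun hS => (reg_of o hS one_pos 0).pos.off⟩

theorem low_z {S : Set (ℂ × ℂ)} (i : Fin 6) (h : ∀ w ∈ S, ∀ t r, 1 / 16 ≤ ‖zc i (t, r, w)‖) :
    Low ((hp (s.G F S)).z i) :=
  low_of (rs_z i) (.of_forall fun _ _ => ⟨1 / 16, by norm_num, .of_forall fun _ x hx =>
    h _ hx.2.2 x.1 x.2.1⟩)

end per

variable {J : Type} {m : Dm J} [Gr m.sF] {o : m.Ok} {M a : ℝ} {G : GHP m.S} {μ ν : ℕ → m.Q → ℝ}
  {S S' : Set (ℂ × ℂ)} {ze zi : m.S} {k : ℝ} {e : Fin 6 → Fin 6 → m.S}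

/-- The coordinates, centred at the time of the slice. -/
def yS (m : Dm J) (S : Set (ℂ × ℂ)) (i : Fin 6) : m.R S :=
  (hp _).z i - if i = 0 then cst fun q => m.tt q else 0

omit [Gr m.sF] in
theorem d_yS (i l : Fin 6) : (hp _).d i (yS m S l) = if i = l then 1 else 0 := by
  rw [yS, D_sub, P354XO.d_z]
  split_ifs <;> simp [hp_d, pd_cst]

theorem bd_yS (o : m.Ok) (hS : S ⊆ SA) (i : Fin 6) : Bd (yS m S i) := by
  by_cases h : i = 0
  · subst h
    have e : Rs (yS m S 0) fun p => zc 0 p.2 - m.tt p.1 :=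
      (rs_z 0).sub (rs_cst fun q => m.tt q)
    refine dom_of wgt_one (dom0_of wgt_one e 0 fun _ => ⟨0, le_rfl, .of_forall fun q x hx => ?_⟩)
      fun v => ?_
    · simp [zc, show x.1 = m.tt q from hx.1]
    · rw [yS, D_sub, if_pos rfl, pd_cst, sub_zero, P354XO.z_lin, P354XO.pd_lin]
      exact bd_alg _
  · rw [yS, if_neg h, sub_zero]
    exact (o.reg hS one_pos 0).z i h

/-- The inverse frame. -/
structure Fe (o : m.Ok) (G : GHP m.S) (e : Fin 6 → Fin 6 → m.S) : Prop where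
  b : ∀ i b, o.DA (w1 _) (e i b)
  e : ∀ i k, ∑ b, e i b * fr G b (m.h.z k) = if i = k then 1 else 0

namespace In
variable (h : In m o M a G μ ν) (z : Zi o M a G ν ze zi k) (f : Fe o G e)
include h

include f in
theorem he (hS : S ⊆ SA) (i l : Fin 6) :
    ∑ b, o.rx hS (e i b) * P354XF.fr (gp (o.rx hS) G) b ((hp _).z l) = if i = l then 1 else 0 := by
  have := (rr_hom (o.rx hS)).dl i l
  rw [← f.e, map_sum] at this
  simpa only [map_mul, hom_fr (h.hom hS), (o.hh hS).z] using this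

abbrev N (S : Set (ℂ × ℂ)) := h.wt.tri (m.sl.K S)
abbrev T (hS : S ⊆ SA) : TD (h.N S).Q := (h.nh z hS).nk.T
def dq (S : Set (ℂ × ℂ)) (i : Fin 6) : Der (h.N S).Q := (h.wt.kd i).qt
def eq (hS : S ⊆ SA) (i b : Fin 6) : (h.N S).Q := (h.N S).mk' ⟨_, (f.b i b).to hS⟩

theorem req (hS : S ⊆ SA) (i b : Fin 6) : (h.N S).Rp (o.rx hS (e i b)) (h.eq f hS i b) :=
  Tri.rp_mk _

theorem cd (hS : S ⊆ SA) : Cd (h.T z hS) (h.dq S) (h.eq f hS)
    fun i => (h.N S).mk' ⟨_, bd_yS o hS i⟩ :=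
  (h.nh z hS).cd (h.he f hS) (fun i b => (f.b i b).to hS) (bd_yS o hS) d_yS

def ev : (h.N SA).Q →ₐ[ℂ] (h.N SA).Q := (h.wt.ev0 (o.x0 (so_sa one_so))).qt

theorem rev {u : m.R SA} {q} (l : (h.N SA).Rp u q) :
    (h.N SA).Rp (ev0 m.sl.x0 (o.x0 (so_sa one_so)) u) (h.ev q) := l.map _

include f in
theorem evv (c : CONN) :
    Ev (h.T z le_rfl) (h.nh z le_rfl).nk.Kq (h.N SA).Sq h.ev := by
  have n := h.nh z le_rfl
  have hx := o.x0 (so_sa one_so)
  have r := Tri.rr (N := h.N SA)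
  have zz : ∀ i : Fin 6, 2 ≤ i → (ev0 m.sl.x0 hx ((hp _).z i) : m.R SA) = 1 := fun i hi =>
    Rs.ext (((mp_ev _ hx).rep_pb _).trans ((mp_ev _ hx).ev (rs_z i))) rs_one
      (.of_forall fun p => by fin_cases i <;> simp [zc, aff, Sl.x0] at hi ⊢)
  have z2 := zz 2 (by decide)
  have z3 := zz 3 (by decide)
  have z4 := zz 4 (by decide)
  have z5 := zz 5 (by decide)
  refine ⟨fun q => ?_, fun q => ?_, fun q => ?_, ?_, (h.rev n.nk.kd.x).fn r.zero ?_,
    (h.rev n.nk.kd.s).fn r.one ?_, fun l x hD h0 i => ?_⟩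
  · obtain ⟨u, l⟩ := Tri.sj q
    exact (h.rev l.star).fn (h.rev l).star (ev0_cj _ _ u)
  · obtain ⟨u, l⟩ := Tri.sj q
    exact n.nk.const (h.rev l) fun b => by simp [n.eq b (ev0 _ _ u), hp_d, pd_ev0]
  · obtain ⟨u, l⟩ := Tri.sj q
    exact (h.rev (h.rev l)).fn (h.rev l) (by rw [ev0_eq _ _ u, ev0_cst])
  · rintro _ ⟨u, hu, l⟩
    exact ⟨_, (h.wt.ev0 hx).S u hu, h.rev l⟩
  · simp [kk, Hp.kc, z2, z3, z4, z5]
  · have := congrArg (ev0 m.sl.x0 hx : _ →ₐ[ℂ] m.R SA) n.hi.hN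
    simp only [Hp.N, map_mul, map_add, map_one, z2, z3, z4, z5] at this
    simp only [kk, Hp.kc, map_mul, map_ofNat, z2, z3]
    linear_combination this
  · choose X hX using fun i => Tri.sj (x i)
    refine (hX i).zero_iff.2 (gron h.wμ (o.conn c).1 hx X (fun v i => ?_)
      (fun i => ((h.rev (hX i)).zero_iff.1 (h0 i)).dom0) i)
    have e1 : ∑ l, algebraMap ℂ _ (zc l v) * h.dq SA l (x i) ∈ Ideal.span (range x) :=
      sum_mem fun l _ => Ideal.mul_mem_left _ _ ((h.cd z f le_rfl).de l _ ▸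
        sum_mem fun b _ => Ideal.mul_mem_left _ _ (hD b i))
    obtain ⟨c, hc⟩ := Ideal.mem_span_range_iff_exists_fun.1 e1
    choose C hC using fun l => Tri.sj (c l)
    refine ⟨C, fun l => (hC l).mem, ?_⟩
    have e2 : pd v (X i) = ∑ l, algebraMap ℂ _ (zc l v) * (hp _).d l (X i) := by
      rw [(vf_cz (P354XO.vf_pd v)).eq (cz_is n.hi)]
      exact Finset.sum_congr rfl fun l _ => congrArg (· * _) (P354XO.pd_lin v _)
    rw [e2]
    exact ((r.sum fun l => r.mul (r.alg _) ((hX i).D (h.wt.kd l))).eq_iff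
      (r.sum fun l => r.mul (hC l) (hX l))).1 hc.symm

end In

end Vale.Agent.P354RI
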