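import Vale.Agent.P354RI.Cd

/-!
The algebra of the components in the Kerr chart: flatness, the spinor and its phase.
-/

noncomputable section

namespace Vale.Agent.P354RI

open Vale.Agent.P354XG Vale.Agent.P354XG.Geo Vale.Agent.P354XR Vale.Agent.P354XD
open Vale.Agent.P354XF (fr)

variable {A A' : Type*} [CommRing A] [Algebra ℂ A] [CommRing A'] [Algebra ℂ A'] {K : KC A}
  {K' : KC A'} {ρ : A → A' → Prop}

/-- The components in the chart of the field with the components e in the frame. -/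
def fc (K : KC A) (e : Fin 6 → A) (k : Fin 6) : A := ∑ b, e b * kc K b k

theorem vv_fc (e : Fin 6 → A) (g : A) : Vv K (fc K e) g = ∑ b, e b * Vv K (kc K b) g := by
  simp only [Vv, KC.V_ap, fc, Fin.sum_univ_six]; ring

theorem KR.fc (h : KR ρ K K') {e : Fin 6 → A} {e' : Fin 6 → A'} (he : ∀ b, ρ (e b) (e' b))
    (k : Fin 6) : ρ (fc K e k) (fc K' e' k) := h.rr.sum fun b => h.rr.mul (he b) (h.kc b k)

omit [Algebra ℂ A] in
theorem zv_sum (c y : Fin 6 → A) (f : Fin 6 → Fin 6 → A) (k : Fin 6) :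
    zv (fun l => ∑ i, c i * f i l) y k = ∑ i, c i * zv (f i) y k := by
  fin_cases k <;> simp [zv, Fin.sum_univ_six] <;> ring

theorem zu_sh {K : Hp A} {p : Pm A} (j : p.j1 = 0) (e y : Fin 6 → A) {k : Fin 6} (hk : 2 ≤ k) :
    zu (sh K p e) y k = zv e y k := by
  fin_cases k <;> simp [zv, zu, sh, j] at hk ⊢

/-- The signs of the phase. -/
def sn (A : Type*) [CommRing A] : Fin 6 → A := ![0, 0, 1, -1, -1, 1]

theorem RR.sn (h : RR ρ) (k : Fin 6) : ρ (sn A k) (sn A' k) := by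
  fin_cases k
  exacts [h.zero, h.zero, h.one, h.neg h.one, h.neg h.one, h.one]

/-- The form of the phase. -/
def gam (Ni : A) (y f dy : Fin 6 → A) : A :=
  hf A * Ni * ((dy 4 - zv f y 4) * y 2 + (dy 3 - zv f y 3) * y 5 - (dy 2 - zv f y 2) * y 4 -
    (dy 5 - zv f y 5) * y 3)

theorem RR.gam (h : RR ρ) {n : A} {n' : A'} {y f d : Fin 6 → A} {y' f' d' : Fin 6 → A'}
    (hn : ρ n n') (hy : ∀ k, k ≠ 0 → ρ (y k) (y' k)) (hf : ∀ k, ρ (f k) (f' k))
    (hd : ∀ k, k ≠ 0 → ρ (d k) (d' k)) : ρ (gam n y f d) (gam n' y' f' d') :=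
  have u := fun k l e e' => h.mul (h.sub (hd k e) (h.zv hf hy k)) (hy l e')
  h.mul (h.mul h.hf hn) (h.sub (h.sub (h.add (u 4 2 (by decide) (by decide))
    (u 3 5 (by decide) (by decide))) (u 2 4 (by decide) (by decide))) (u 5 3 (by decide) (by decide)))

theorem gam_sum (n : A) (c y : Fin 6 → A) (f d : Fin 6 → Fin 6 → A) :
    ∑ i, c i * gam n y (f i) (d i) =
      gam n y (fun l => ∑ i, c i * f i l) fun l => ∑ i, c i * d i l := by
  simp only [gam, zv_sum]
  simp only [Fin.sum_univ_six]; ring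

/-- The chart K comes from the spinor y. -/
structure Sp (K : KC A) (y : Fin 6 → A) : Prop where
  N : K.N = y 2 * y 4 + y 3 * y 5
  x : K.x = (y 2 * y 4 - y 3 * y 5) * K.Ni
  s : K.s = 2 * y 2 * y 3 * K.Ni
  sb : K.sb = 2 * y 4 * y 5 * K.Ni

theorem Sp.eq {y : Fin 6 → A} (h : Sp K y) (i : K.Is) (f : Fin 6 → A) (k : Fin 6) (hk : 2 ≤ k) :
    Vv K f (y k) = zv f y k - sn A k * gam K.Ni y f (fun l => Vv K f (y l)) * y k := by
  have n := i.hN
  have two : ∀ {w : A}, 2 * w = 0 → w = 0 := fun e => GHP.two_unit.mul_right_eq_zero.1 e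
  have t := two_hf (A := A)
  have hx : K.x * K.N = y 2 * y 4 - y 3 * y 5 := by
    rw [h.x]; linear_combination (y 2 * y 4 - y 3 * y 5) * n
  have hs : K.s * K.N = 2 * (y 2 * y 3) := by rw [h.s]; linear_combination 2 * y 2 * y 3 * n
  have hb : K.sb * K.N = 2 * (y 4 * y 5) := by rw [h.sb]; linear_combination 2 * y 4 * y 5 * n
  have X1 : Vv K f K.N = (f 4 + f 5) * K.N := by simp only [Vv, KC.V_ap, i.tab]; ring
  have X2 : Vv K f K.x = -(f 2 * K.sb) - f 3 * K.s := by simp only [Vv, KC.V_ap, i.tab]; ring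
  have X3 : Vv K f K.s = 2 * f 2 * K.x + (f 4 - f 5) * K.s := by
    simp only [Vv, KC.V_ap, i.tab]; ring
  have X4 : Vv K f K.sb = 2 * f 3 * K.x - (f 4 - f 5) * K.sb := by
    simp only [Vv, KC.V_ap, i.tab]; ring
  have e1 := congrArg (Vv K f) h.N
  have e2 := congrArg (Vv K f) hx
  have e3 := congrArg (Vv K f) hs
  have e4 := congrArg (Vv K f) hb
  simp only [D_mul, D_add, D_sub, D_num, X1, X2, X3, X4] at e1 e2 e3 e4
  rw [h.N] at n
  simp only [gam]
  generalize Vv K f = X at *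
  have a : (X (y 2) - zv f y 2) * y 4 + y 2 * (X (y 4) - zv f y 4) = 0 := two (by
    simp only [zv, Matrix.cons_val]
    linear_combination -e1 - e2 + (f 4 + f 5) * (h.N + hx) - f 2 * hb - f 3 * hs)
  have b : (X (y 5) - zv f y 5) * y 3 + y 5 * (X (y 3) - zv f y 3) = 0 := two (by
    simp only [zv, Matrix.cons_val]
    linear_combination -e1 + e2 + (f 4 + f 5) * (h.N - hx) + f 2 * hb + f 3 * hs)
  have c : (X (y 2) - zv f y 2) * y 3 + y 2 * (X (y 3) - zv f y 3) = 0 := two (by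
    simp only [zv, Matrix.cons_val]
    linear_combination -e3 + 2 * f 4 * hs + 2 * f 2 * hx)
  have d : (X (y 5) - zv f y 5) * y 4 + y 5 * (X (y 4) - zv f y 4) = 0 := two (by
    simp only [zv, Matrix.cons_val]
    linear_combination -e4 + 2 * f 5 * hb + 2 * f 3 * hx)
  fin_cases k <;> simp only [sn, Fin.reduceFinMk, Matrix.cons_val, Fin.reduceLE] at hk ⊢
  · generalize zv f y = z at *
    linear_combination K.Ni * (y 2 * a + y 5 * c) - hf A * K.Ni * y 2 * (a + b) +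
      K.Ni * y 2 * ((X (y 4) - z 4) * y 2 + (X (y 3) - z 3) * y 5) * t - (X (y 2) - z 2) * n
  · generalize zv f y = z at *
    linear_combination K.Ni * (y 4 * c + y 3 * b) - hf A * K.Ni * y 3 * (a + b) +
      K.Ni * y 3 * ((X (y 2) - z 2) * y 4 + (X (y 5) - z 5) * y 3) * t - (X (y 3) - z 3) * n
  · generalize zv f y = z at *
    linear_combination K.Ni * (y 4 * a + y 3 * d) - hf A * K.Ni * y 4 * (a + b) +
      K.Ni * y 4 * ((X (y 2) - z 2) * y 4 + (X (y 5) - z 5) * y 3) * t - (X (y 4) - z 4) * n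
  · generalize zv f y = z at *
    linear_combination K.Ni * (y 2 * d + y 5 * b) - hf A * K.Ni * y 5 * (a + b) +
      K.Ni * y 5 * ((X (y 4) - z 4) * y 2 + (X (y 3) - z 3) * y 5) * t - (X (y 5) - z 5) * n

/-- Two commuting fields. -/
theorem flat (i : K.Is) (fr : K.Free) {f g : Fin 6 → A}
    (c : ∀ u, Vv K f (Vv K g u) = Vv K g (Vv K f u)) : Vv K f (g 0) - Vv K g (f 0) = 0 ∧
      Vv K f (g 1) - Vv K g (f 1) = 0 ∧
      Vv K f (g 2) - Vv K g (f 2) - (f 4 - f 5) * g 2 + f 2 * (g 4 - g 5) = 0 ∧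
      Vv K f (g 3) - Vv K g (f 3) + (f 4 - f 5) * g 3 - f 3 * (g 4 - g 5) = 0 ∧
      Vv K f (g 4) - Vv K g (f 4) + (f 2 * g 3 - f 3 * g 2) = 0 ∧
      Vv K f (g 5) - Vv K g (f 5) - (f 2 * g 3 - f 3 * g 2) = 0 :=
  fr _ _ _ _ _ _ fun u => by
    have := i.V_comm (E := Vv K f) (F := Vv K g) rfl rfl u
    rwa [c u, left_eq_add] at this

theorem Sp.closed {y : Fin 6 → A} (h : Sp K y) (i : K.Is) (fr : K.Free) {f g : Fin 6 → A}
    (c : ∀ u, Vv K f (Vv K g u) = Vv K g (Vv K f u)) :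
    Vv K f (gam K.Ni y g fun l => Vv K g (y l)) - Vv K g (gam K.Ni y f fun l => Vv K f (y l)) = 0 := by
  obtain ⟨-, -, a2, a3, a4, a5⟩ := flat i fr c
  have f2 := h.eq i f 2 le_rfl
  have f5 := h.eq i f 5 (by decide)
  have g2 := h.eq i g 2 le_rfl
  have g5 := h.eq i g 5 (by decide)
  generalize gam K.Ni y f (fun l => Vv K f (y l)) = p at *
  generalize gam K.Ni y g (fun l => Vv K g (y l)) = q at *
  have c2 := c (y 2)
  have c5 := c (y 5)
  have n := i.hN
  simp only [zv, sn, Matrix.cons_val, one_mul] at f2 f5 g2 g5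
  rw [h.N] at n
  rw [f2, g2] at c2
  rw [f5, g5] at c5
  simp only [D_sub, D_add, D_mul, f2, f5, g2, g5] at c2 c5
  linear_combination -K.Ni * (y 4 * c2 + y 3 * c5) + K.Ni * y 4 * (y 2 * a4 - y 5 * a2) +
    K.Ni * y 3 * (y 5 * a5 + y 2 * a3) - (Vv K f q - Vv K g p) * n

omit [Algebra ℂ A] in
/-- The inverse of the matrix of a frame. -/
theorem inv_of {e E : Fin 6 → Fin 6 → A} (h : ∀ i k, ∑ b, e i b * E b k = if i = k then 1 else 0)
    (a b : Fin 6) : ∑ i, E a i * e i b = if a = b then 1 else 0 := by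
  have e1 : Matrix.of e * Matrix.of E = 1 := by
    ext i k
    rw [Matrix.mul_apply, Matrix.one_apply, ← h]
    rfl
  have e2 := mul_eq_one_comm.1 e1
  have := congrFun₂ e2 a b
  rwa [Matrix.mul_apply, Matrix.one_apply] at this

omit [Algebra ℂ A] in
theorem free_of {e E : Fin 6 → Fin 6 → A} (h : ∀ i k, ∑ b, e i b * E b k = if i = k then 1 else 0)
    {u : Fin 6 → A} (hu : ∀ k, ∑ b, u b * E b k = 0) (b : Fin 6) : u b = 0 := by
  have : ∑ i, (∑ a, u a * E a i) * e i b = u b := by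
    simp only [Finset.sum_mul, mul_assoc]
    rw [Finset.sum_comm]
    simp [← Finset.mul_sum, inv_of h]
  simpa [hu] using this.symm

theorem fc_inv {e E : Fin 6 → Fin 6 → A} (h : ∀ i k, ∑ b, e i b * E b k = if i = k then 1 else 0)
    (a k : Fin 6) : ∑ i, E a i * fc K (e i) k = kc K a k := by
  simp only [fc, Finset.mul_sum, ← mul_assoc]
  rw [Finset.sum_comm]
  simp [← Finset.sum_mul, inv_of h]

/-- The conjugation of the frames, and the weights. -/
def br : Fin 6 → Fin 6 := ![0, 1, 3, 2, 5, 4]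
def wb (A : Type*) [CommRing A] : Fin 6 → A := ![1, -1, 1, -1, 0, 0]
def wk (A : Type*) [CommRing A] : Fin 6 → A := ![0, 0, 1, -1, 0, 0]
def wz (A : Type*) [CommRing A] : Fin 6 → A := ![0, 0, 1, 1, 0, 0]

theorem sum_br {B : Type*} [AddCommMonoid B] (f : Fin 6 → B) : ∑ b, f (br b) = ∑ b, f b := by
  simp only [Fin.sum_univ_six, br, Matrix.cons_val]; abel

theorem c_d {K : Hp A} (h : K.Is) (i : Fin 6) (f : A) : K.c (K.d i f) = K.d (bz i) (K.c f) := by
  fin_cases i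
  exacts [h.c0 f, h.c1 f, h.c2 f, h.c3 f, h.c4 f, h.c5 f]

theorem H_d {K : Hp A} (h : K.Is) (i : Fin 6) (f : A) :
    K.H (K.d i f) = K.d i (K.H f) - wz A i * K.d i f := by
  simp only [Hp.H_ap, D_add, D_mul, h.dz, h.comm 2 i, h.comm 3 i]
  fin_cases i <;> simp [wz] <;> ring

theorem c_fr {G : GHP A} (h : G.Is) (b : Fin 6) (f : A) :
    G.c (fr G b f) = fr G (br b) (G.c f) := by
  fin_cases b
  exacts [h.c_th f, h.c_tp f, h.c_et f, h.c_ep f, h.c_H f, h.c_Hb f]

theorem H_fr {G : GHP A} (h : G.Is) (b : Fin 6) (f : A) :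
    G.H (fr G b f) = fr G b (G.H f) + wb A b * fr G b f := by
  fin_cases b <;> simp [fr, wb, h.H_th, h.H_tp, h.H_et, h.H_ep, h.H_Hb, sub_eq_add_neg]

/-- The weights and the conjugates of the functions of a chart. -/
structure Hw (D : Der A) (c : A →+* A) (K : KC A) : Prop where
  r : D K.r = 0
  x : D K.x = 0
  s : D K.s = K.s
  sb : D K.sb = -K.sb
  N : D K.N = K.N
  Ni : D K.Ni = -K.Ni
  sg : D K.sg = 0
  a : D K.a = 0
  M : D K.M = 0
  cr : c K.r = K.r
  cx : c K.x = K.x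
  cs : c K.s = K.sb
  cb : c K.sb = K.s
  cN : c K.N = K.N
  ci : c K.Ni = K.Ni
  cg : c K.sg = K.sg
  ca : c K.a = K.a
  cM : c K.M = K.M
  ii : c (ii A) = -ii A

theorem Hw.kc {D : Der A} {c : A →+* A} (h : Hw D c K) (b k : Fin 6) :
    D (kc K b k) = (wb A b + wk A k) * kc K b k := by
  fin_cases b <;> fin_cases k <;>
    simp [P354RI.kc, wb, wk, KC.W, KC.De, KC.ee, KC.z, KC.zb, D_num, D_ii, h.r, h.x, h.s,
      h.sb, h.N, h.Ni, h.sg, h.a, h.M] <;> ring

theorem Hw.c_kc {D : Der A} {c : A →+* A} (h : Hw D c K) (b k : Fin 6) :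
    c (P354RI.kc K b k) = P354RI.kc K (br b) (br k) := by
  fin_cases b <;> fin_cases k <;>
    simp [P354RI.kc, br, KC.W, KC.De, KC.ee, KC.z, KC.zb, map_ofNat, h.cr, h.cx, h.cs, h.cb, h.cN,
      h.ci, h.cg, h.ca, h.cM, h.ii] <;> ring

theorem gam_wt {D : Der A} {n w : A} {y f d : Fin 6 → A} (hn : D n = -n)
    (hy : ∀ k, k ≠ 0 → D (y k) = wz A k * y k) (hf : ∀ k, D (f k) = (w + wk A k) * f k)
    (hd : ∀ k, k ≠ 0 → D (d k) = (w + wz A k) * d k) : D (gam n y f d) = w * gam n y f d := by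
  simp only [gam, zv, Matrix.cons_val, D_mul, D_add, D_sub, Hp.D_hf, hn, hf,
    hy 2 (by decide), hy 3 (by decide), hy 4 (by decide), hy 5 (by decide),
    hd 2 (by decide), hd 3 (by decide), hd 4 (by decide), hd 5 (by decide), wz, wk]
  ring

theorem gam_cj {c : A →+* A} {n : A} {y f f' d d' : Fin 6 → A} (ch : c (hf A) = hf A)
    (hn : c n = n) (hy : ∀ k, c (y k) = y (bz k)) (hf : ∀ k, c (f k) = f' (br k))
    (hd : ∀ k, c (d k) = d' (bz k)) : c (gam n y f d) = -gam n y f' d' := by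
  simp only [gam, zv, Matrix.cons_val, map_mul, map_add, map_sub, ch, hn, hy, hf, hd, bz, br]
  ring

/-- The components of the Killing direction. -/
def yc (G : GHP A) : Fin 6 → A := ![G.rh', -G.rh, -G.ta', G.ta, 0, 0]

theorem yf_eq (G : GHP A) (u : A) : Yf G u = ∑ b, yc G b * fr G b u := by
  simp [Yf, yc, fr, Fin.sum_univ_six]; ring

theorem yc_kc (n : K.N * K.Ni = 1) (g : K.sg * (K.r * K.r + K.a * K.a * K.x * K.x) = 1) :
    fc K (yc K.kerr) 2 = 0 ∧ fc K (yc K.kerr) 3 = 0 := by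
  simp only [fc, yc, kc, KC.kerr, KC.rh, KC.rh2, KC.ta, KC.ta2, Fin.sum_univ_six, Matrix.cons_val]
  refine ⟨by linear_combination ii A * K.a * K.sg * K.s * K.z * n, ?_⟩
  have : K.z * K.zb = K.sg := by
    simp only [KC.z, KC.zb]
    linear_combination K.sg * g - K.sg * K.sg * K.a * K.a * K.x * K.x * ii_sq (A := A)
  linear_combination -(ii A * K.a * K.sg * K.sb * K.z) * n + ii A * K.a * K.z * K.sb * this

end Vale.Agent.P354RI
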