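import Vale.Agent.P354RI.Glb
import Vale.Agent.P354RI.Spn

/-!
The components of the coordinate fields in the natural chart.
-/

open scoped ContDiff
open Set Filter Topology

noncomputable section

namespace Vale.Agent.P354RI

open Vale.Agent.P354XG hiding Dom Dom0 Bd bdSub domI Keeps Low dom0_mk dom0_zero dom0_cst dom_of
  dom_zero dom_cst bd_alg dom_sum dom0_sum keeps_pd keeps_zero keeps_sum bd_closure dom_pb_aff
  bd_fn bd_par Conn gron gron0 dom_of_sys dom_sub_ev0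
open Vale.Agent.P354MG Vale.Agent.P354XD Vale.Agent.P354XR Vale.Agent.P354NP
open Vale.Agent.P354XF (fr)
open Vale.Agent.P354XG.Geo (hf two_hf)

variable {J : Type} {m : Dm J} [Gr m.sF] {o : m.Ok} {M a : ℝ} {G : GHP m.S} {μ ν : ℕ → m.Q → ℝ}

/-- The data. -/
structure Dt (h : In m o M a G μ ν) where
  ze : m.S
  zi : m.S
  k : ℝ
  z : Zi o M a G ν ze zi k
  e : Fin 6 → Fin 6 → m.S
  f : Fe o G e
  K' : KC (h.N SA).Q
  ik : IsK (h.T z le_rfl) K'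
  r : m.S
  e1 : m.S
  e2 : m.S
  Ni : m.S
  sg : m.S
  ah : m.S
  Mh : m.S
  n : Nt h K' r e1 e2 Ni sg ah Mh

namespace Dt
variable {h : In m o M a G μ ν} (D : Dt h)

def y : Fin 6 → m.S := ![0, D.r, D.e1, cj D.e2, cj D.e1, D.e2]
def K : KC m.S := k1 cj D.r D.e1 D.e2 D.Ni D.sg D.ah D.Mh
def F (i : Fin 6) : Fin 6 → m.S := fc D.K (D.e i)
def γ (i : Fin 6) : m.S := gam D.Ni D.y (D.F i) fun l => m.h.d i (D.y l)

theorem sp : Sp D.K D.y := ⟨rfl, rfl, rfl, rfl⟩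

theorem de (i : Fin 6) (g : m.S) : m.h.d i g = ∑ b, D.e i b * fr G b g :=
  (h.gnh D.z le_rfl).de D.f.e i g

theorem c_e (i b : Fin 6) : cj (D.e i b) = D.e (bz i) (br b) := by
  have bb : ∀ b, br (br b) = b := by decide
  have := free_of D.f.e (u := fun b => cj (D.e i (br b)) - D.e (bz i) b) (fun k => by
    have e1 := congrArg cj (D.de i (cj (m.h.z k)))
    have e2 : ∀ b g, cj (fr G b g) = fr G (br b) (cj g) := h.c ▸ c_fr h.is
    rw [show cj (m.h.d i _) = m.h.d (bz i) (cj _) from c_d o.is i _, map_sum, ← sum_br] at e1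
    simp only [map_mul, e2, cj_cj, bb] at e1
    simp only [sub_mul, Finset.sum_sub_distrib, ← e1, ← D.de, sub_self]) (br b)
  rwa [bb, sub_eq_zero] at this

theorem H_e (i b : Fin 6) : m.h.H (D.e i b) = (-wz _ i - wb _ b) * D.e i b :=
  sub_eq_zero.1 (free_of D.f.e (u := fun b => m.h.H (D.e i b) - (-wz _ i - wb _ b) * D.e i b)
    (fun k => by
      have e1 := H_d o.is i (m.h.z k)
      have e2 : ∀ b g, m.h.H (fr G b g) = fr G b (m.h.H g) + wb _ b * fr G b g := h.H ▸ H_fr h.is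
      simp only [D.de, Fin.sum_univ_six, D_add, D_mul, e2] at e1 ⊢
      linear_combination e1) b)

theorem c_y (k : Fin 6) : cj (D.y k) = D.y (bz k) := by
  fin_cases k <;> simp [y, bz, cj_cj, D.n.cr]

theorem H_y (k : Fin 6) : m.h.H (D.y k) = wz _ k * D.y k := by
  fin_cases k <;> simp [y, wz, ← P354XO.cj_B, D.n.Hr, D.n.H1, D.n.B1, D.n.H2, D.n.B2]

theorem hw : Hw m.h.H cj D.K := by
  have n : D.Ni * (D.y 2 * D.y 4 + D.y 3 * D.y 5) = 1 := (mul_comm _ _).trans D.n.hN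
  have g := D.n.hg
  have cN : cj D.K.N = D.K.N := by simp [D.sp.N, D.c_y, bz]; ring
  have ci : cj D.Ni = D.Ni := by
    have := congrArg cj D.n.hN
    rw [map_mul, map_one, show cj (k1 _ _ _ _ _ _ _ _).N = _ from cN, mul_comm] at this
    exact left_inv_eq_right_inv this D.n.hN
  have HN : m.h.H D.K.N = D.K.N := by simp [D.sp.N, D.H_y, wz]; ring
  have Hi : m.h.H D.Ni = -D.Ni := by
    rw [KC.D_inv _ n, ← D.sp.N, HN, D.sp.N]; linear_combination -D.Ni * n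
  have i : D.K.Ni = D.Ni := rfl
  have cx : cj D.K.x = D.K.x := by simp [D.sp.x, D.c_y, bz, i, ci]; ring
  have Hx : m.h.H D.K.x = 0 := by simp [D.sp.x, D.H_y, wz, i, Hi]; ring
  change D.sg * (_ + _ * D.K.x * D.K.x) = 1 at g
  refine ⟨D.n.Hr, Hx, ?_, ?_, HN, Hi, ?_, D.n.Ha, D.n.HM, D.n.cr, cx, ?_, ?_, cN, ci, ?_, D.n.ca,
    D.n.cM, o.is.c_ii⟩
  · simp [D.sp.s, D.H_y, wz, i, Hi, D_num]; ring
  · simp [D.sp.sb, D.H_y, wz, i, Hi, D_num]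
  · show m.h.H D.sg = 0
    rw [KC.D_inv _ g]
    simp [D.n.Hr, D.n.Ha, Hx]
  · simp [D.sp.s, D.sp.sb, D.c_y, bz, i, ci, map_ofNat]
  · simp [D.sp.s, D.sp.sb, D.c_y, bz, i, ci, map_ofNat]
  · have := congrArg cj g
    simp only [map_mul, map_add, map_one, D.n.cr, D.n.ca, cx] at this
    exact left_inv_eq_right_inv this ((mul_comm _ _).trans g)

theorem c_F (i k : Fin 6) : cj (D.F i k) = D.F (bz i) (br k) := by
  simp only [F, fc, map_sum, map_mul, D.c_e, D.hw.c_kc]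
  exact sum_br fun b => D.e (bz i) b * kc D.K b (br k)

theorem H_F (i k : Fin 6) : m.h.H (D.F i k) = (-wz _ i + wk _ k) * D.F i k := by
  simp only [F, fc, Fin.sum_univ_six, D_add, D_mul, D.H_e, D.hw.kc]; ring

theorem sum_F (b k : Fin 6) : ∑ i, fr G b (m.h.z i) * D.F i k = kc D.K b k := fc_inv D.f.e b k

theorem c_γ (i : Fin 6) : cj (D.γ i) = -D.γ (bz i) :=
  gam_cj o.is.c_hf D.hw.ci D.c_y (D.c_F i) fun k => by rw [← D.c_y]; exact c_d o.is i _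

theorem H_γ (i : Fin 6) : m.h.H (D.γ i) = -wz _ i * D.γ i :=
  gam_wt D.hw.Ni (fun k _ => D.H_y k) (D.H_F i) fun k _ => by
    have : m.h.d i (wz _ k) = 0 := by fin_cases k <;> simp [wz]
    rw [H_d o.is, D.H_y, D_mul, this]; ring

omit D in
include h in
theorem ver (u : Fin 6 → m.S) :
    m.h.z 2 * u 2 + m.h.z 3 * u 3 = ∑ i, fr G 4 (m.h.z i) * u i := by
  have : fr G 4 = m.h.H := h.H
  simp [this, Hp.H_ap, o.is.dz, Fin.sum_univ_six]

omit D [Gr m.sF] in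
theorem hw_wz (i : Fin 6) : algebraMap ℂ m.S (-P354RI.hw i) = -wz _ i := by
  fin_cases i <;> simp [P354RI.hw, wz]

theorem bas0 : Bas fun i => D.F i 0 :=
  ⟨fun i => D.c_F i 0, fun i => by rw [D.H_F, hw_wz]; simp [wk],
    (ver (h := h) fun i => D.F i 0).trans (D.sum_F 4 0)⟩

theorem bas1 : Bas fun i => -ii m.S * D.γ i := by
  refine ⟨fun i => ?_, fun i => by rw [D_mul, D_neg, D_ii, D.H_γ, hw_wz]; ring, ?_⟩
  · rw [map_mul, map_neg, D.c_γ, show cj (ii m.S) = _ from o.is.c_ii]; ring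
  · have := ver (h := h) D.γ
    simp only [γ, gam_sum, D.sum_F, ← (h.gnh D.z le_rfl).eq 4] at this
    have e : fr G 4 = m.h.H := h.H
    simp only [e, D.H_y, gam, zv, kc, wz, Matrix.cons_val] at this
    simp only [γ, gam, zv, Matrix.cons_val]
    linear_combination -ii m.S * this

/-! ### The quotient -/

theorem cy (k : Fin 6) (hk : k ≠ 0) : (h.g le_rfl).Cs (D.y k) (m.h.z k) := by
  fin_cases k
  exacts [(hk rfl).elim, D.n.ks.r, D.n.c1, o.is.z5 ▸ D.n.c2.cj, o.is.z2 ▸ D.n.c1.cj, D.n.c2]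

theorem by' (k : Fin 6) : D.y k ∈ (h.g le_rfl).B := by
  by_cases hk : k = 0
  · exact hk ▸ zero_mem _
  · exact (D.cy k hk).mem

def yq (k : Fin 6) : (h.N SA).Q := (In.ex_ρ (D.by' k)).choose
theorem ry (k : Fin 6) : h.ρ le_rfl (D.y k) (D.yq k) := (In.ex_ρ (D.by' k)).choose_spec
def Fq (i : Fin 6) : Fin 6 → (h.N SA).Q := fc D.K' (h.eq D.f le_rfl i)
theorem rF (i k : Fin 6) : h.ρ le_rfl (D.F i k) (D.Fq i k) := D.n.kq.fc (h.req D.f le_rfl i) k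

theorem dq (i : Fin 6) : h.dq SA i = Vv D.K' (D.Fq i) := Derivation.ext fun q => by
  simp only [(h.cd D.z D.f le_rfl).de i q, Cd.D_eq D.ik, Fq, vv_fc]

theorem spq : Sp D.K' D.yq :=
  have r := h.rr le_rfl
  have u := fun k l => r.mul (D.ry k) (D.ry l)
  ⟨D.n.kq.N.fn (r.add (u 2 4) (u 3 5)) rfl, D.n.kq.x.fn (r.mul (r.sub (u 2 4) (u 3 5)) D.n.kq.Ni) rfl,
    D.n.kq.s.fn (r.mul (r.mul (r.mul r.two (D.ry 2)) (D.ry 3)) D.n.kq.Ni) rfl,
    D.n.kq.sb.fn (r.mul (r.mul (r.mul r.two (D.ry 4)) (D.ry 5)) D.n.kq.Ni) rfl⟩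

theorem rd (i : Fin 6) {f q} (l : h.ρ le_rfl f q) :
    h.ρ le_rfl (m.h.d i f) (Vv D.K' (D.Fq i) q) := D.dq i ▸ l.d i

theorem rγ (i : Fin 6) : h.ρ le_rfl (D.γ i)
    (gam D.K'.Ni D.yq (D.Fq i) fun l => Vv D.K' (D.Fq i) (D.yq l)) :=
  (h.rr le_rfl).gam D.n.kq.Ni (fun k _ => D.ry k) (D.rF i) fun k _ => D.rd i (D.ry k)

theorem comm (i j : Fin 6) (u : (h.N SA).Q) :
    Vv D.K' (D.Fq i) (Vv D.K' (D.Fq j) u) = Vv D.K' (D.Fq j) (Vv D.K' (D.Fq i) u) := by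
  rw [← D.dq, ← D.dq]; exact (h.cd D.z D.f le_rfl).comm i j u

theorem cl0 (i j : Fin 6) : o.DA μ (m.h.d i (D.F j 0) - m.h.d j (D.F i 0)) :=
  (((D.rd i (D.rF j 0)).ci (D.rd j (D.rF i 0))).1 (sub_eq_zero.1
    (flat D.ik.is ((h.cd D.z D.f le_rfl).kfree D.ik) (D.comm i j)).1)).2

theorem cl1 (i j : Fin 6) : o.DA μ (m.h.d i (-ii m.S * D.γ j) - m.h.d j (-ii m.S * D.γ i)) := by
  have := (((D.rd i (D.rγ j)).ci (D.rd j (D.rγ i))).1 (sub_eq_zero.1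
    (D.spq.closed D.ik.is ((h.cd D.z D.f le_rfl).kfree D.ik) (D.comm i j)))).2
  have := (h.g le_rfl).mI _ (neg_mem (ii_mem (B := (h.g le_rfl).B))) _ this
  simp only [D_mul, D_neg, D_ii, neg_zero, mul_zero, add_zero, ← mul_sub]
  exact this

theorem dr (i : Fin 6) : (h.g le_rfl).Ci (m.h.d i D.r) (D.F i 1) :=
  ((D.rd i D.n.kq.r).ci (D.rF i 1)).1 (by simp [Vv, KC.V_ap, D.ik.is.tab])

theorem da (i : Fin 6) : o.DA μ (m.h.d i D.ah) :=
  (D.rd i D.n.kq.a).zero_iff.1 (D.ik.is.V_a _ _ _ _ _ _)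

theorem dM (i : Fin 6) : o.DA μ (m.h.d i D.Mh) :=
  (D.rd i D.n.kq.M).zero_iff.1 (D.ik.is.V_M _ _ _ _ _ _)

theorem dy (i k : Fin 6) (hk : 2 ≤ k) :
    (h.g le_rfl).Ci (m.h.d i (D.y k)) (zv (D.F i) D.y k - sn _ k * D.γ i * D.y k) :=
  have r := h.rr le_rfl
  ((D.rd i (D.ry k)).ci (r.sub (r.zv (D.rF i) (fun k _ => D.ry k) k)
    (r.mul (r.mul (r.sn k) (D.rγ i)) (D.ry k)))).1 (D.spq.eq D.ik.is _ k hk)

theorem crh : (h.g le_rfl).Ci G.rh D.K.rh ∧ (h.g le_rfl).Ci G.rh' D.K.rh2 ∧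
    (h.g le_rfl).Ci G.ta D.K.ta ∧ (h.g le_rfl).Ci G.ta' D.K.ta2 ∧ (h.g le_rfl).Ci G.P2 D.K.P2 :=
  have k := (h.nh D.z le_rfl).nk
  ⟨(In.ρ.ci (f := G.rh) k.rr D.n.kq.rh).1 D.ik.rh, (In.ρ.ci (f := G.rh') k.rr2 D.n.kq.rh2).1 D.ik.rh2,
    (In.ρ.ci (f := G.ta) k.rt D.n.kq.ta).1 D.ik.ta, (In.ρ.ci (f := G.ta') k.rt2 D.n.kq.ta2).1 D.ik.ta2,
    D.z.e3 ▸ (((h.rr le_rfl).pow (a := D.zi) k.rzi 3).ci D.n.kq.P2).1 D.ik.P2⟩

/-! ### Closeness -/

theorem be (i b : Fin 6) : D.e i b ∈ (h.g le_rfl).B := D.f.b i b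

theorem cF (i k : Fin 6) : (h.g le_rfl).Cs (D.F i k) (fc (m.K0 M a) (D.e i) k) :=
  D.n.ks.fc (fun b => .refl (D.be i b)) k

theorem c0 (i k : Fin 6) : (h.g le_rfl).Cs
    (zu (sh m.h (m.p0 M a) (fc (m.K0 M a) (D.e i))) m.h.z k) (m.h.d i (m.h.z k)) := by
  rw [← vk_z o.is, D.de, show kk m.h (m.p0 M a) = m.K0 M a from rfl, vv_fc]
  exact Tri.rr_cs.sum fun b => Tri.rr_cs.mul (.refl (D.be i b))
    (fr_kc (m.K0 M a) b ▸ ((h.gnh D.z le_rfl).cE b k).symm)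

theorem sγ (i : Fin 6) : D.γ i ∈ (h.g le_rfl).S := by
  have r := Tri.rr_cs (N := h.g le_rfl)
  have u : ∀ k, 2 ≤ k → (h.g le_rfl).Cs (m.h.d i (D.y k) - zv (D.F i) D.y k) 0 := fun k hk => by
    have l := (D.cy k (by omega)).D (h.gd le_rfl i)
    have l' := D.c0 i k
    rw [zu_sh rfl _ _ hk] at l'
    have := r.sub l ((r.zv (D.cF i) D.cy k).trans l')
    rwa [sub_self] at this
  have v := fun k l hk => r.mul (u k hk) (.refl (D.by' l))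
  have := (r.mul (r.mul r.hf (.refl D.n.ks.Ni.mem)) (r.sub (r.sub (r.add (v 4 2 (by decide))
    (v 3 5 (by decide))) (v 2 4 le_rfl)) (v 5 3 (by decide)))).2
  simp only [zero_mul, add_zero, sub_zero, mul_zero] at this
  exact this

theorem ct (i : Fin 6) : (h.g le_rfl).Cs (D.F i 0 - D.F i 1) (m.h.d i (m.h.z 0 + m.rf m.H)) := by
  have r := Tri.rr_cs (N := h.g le_rfl)
  have b : m.rf (deriv m.H) ∈ (h.g le_rfl).B := o.bd_rf le_rfl (contDiff_infty_iff_deriv.1 o.H).2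
  have := r.add (D.c0 i 0) (r.mul (D.c0 i 1) (.refl b))
  refine (r.sub (D.cF i 0) (D.cF i 1)).trans ?_
  rw [D_add, Dm.d_rf o.H]
  rw [o.is.dz i 1, ite_mul, one_mul, zero_mul] at this
  simp only [zu, sh, Dm.p0, Matrix.cons_val] at this
  rwa [show ∀ u v w : m.S, u - v * (1 + w) + v * w = u - v from fun _ _ _ => by ring] at this

end Dt

end Vale.Agent.P354RI
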