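import Vale.Agent.P354RI.Lpp
import Vale.Agent.P354XD.Frm

/-!
The classes of global functions, roots, and the cube root of P2.
-/

open scoped ContDiff
open Set Filter Topology

noncomputable section

namespace Vale.Agent.P354RI

open Vale.Agent.P354XG hiding Dom Dom0 Bd bdSub domI Keeps Low dom0_mk dom0_zero dom0_cst dom_of
  dom_zero dom_cst bd_alg dom_sum dom0_sum keeps_pd keeps_zero keeps_sum bd_closure dom_pb_aff
  bd_fn bd_par Conn gron gron0 dom_of_sys dom_sub_ev0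
open Vale.Agent.P354MG Vale.Agent.P354XD Vale.Agent.P354XR Vale.Agent.P354NP
open Vale.Agent.P354XO (vf_H vf_B)

variable {J : Type} {m : Dm J} [Gr m.sF] {o : m.Ok} {M a : ℝ} {G : GHP m.S} {μ ν : ℕ → m.Q → ℝ}
  {S S' : Set (ℂ × ℂ)} {ze zi u : m.S} {k : ℝ} {e : Fin 6 → Fin 6 → m.S}

/-- A function of weight zero which is close to one. -/
structure On (o : m.Ok) (ν : ℕ → m.Q → ℝ) (u : m.S) : Prop where
  d : o.DA ν (u - 1)
  H : m.h.H u = 0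
  B : m.h.B u = 0

namespace In
variable (h : In m o M a G μ ν)
include h

/-- The classes of the global functions. -/
def g (hS : S ⊆ SA) : Tri (cj : m.S →+* m.S) := (h.N S).comap (o.rx hS) cj_cj (o.rx_cj hS)

/-- q is the class of the germ of f along the slices. -/
def ρ (hS : S ⊆ SA) (f : m.S) (q : (h.N S).Q) : Prop := (h.N S).Rp (o.rx hS f) q

theorem rr (hS : S ⊆ SA) : RR (h.ρ hS) := Tri.rr.comp _

variable {h} {hS : S ⊆ SA} {f f' : m.S} {q q' : (h.N S).Q}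

theorem ρ.ci (l : h.ρ hS f q) (l' : h.ρ hS f' q') : q = q' ↔ (h.g hS).Ci f f' :=
  (l.eq_iff l').trans ⟨fun e => ⟨l'.mem, show o.rx hS _ ∈ (h.N S).I by rwa [map_sub]⟩,
    fun e => map_sub (o.rx hS) f f' ▸ e.2⟩

theorem ρ.fn (l : h.ρ hS f q) (l' : h.ρ hS f' q') (e : f = f') : q = q' :=
  Tri.Rp.fn l l' (congrArg _ e)

theorem ρ.sq (l : h.ρ hS f q) (l' : h.ρ hS f' q') (e : (h.g hS).Cs f f') : q - q' ∈ (h.N S).Sq :=
  l.sub_sq l' (map_sub (o.rx hS) f f' ▸ e.2)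

theorem ρ.cs (l : h.ρ hS f q) (l' : h.ρ hS f' q') (e : q - q' ∈ (h.N S).Sq) : (h.g hS).Cs f f' :=
  ⟨l'.mem, show o.rx hS _ ∈ (h.N S).S from
    (map_sub (o.rx hS) f f').symm ▸ (Tri.rr.sub l l').sq_iff.1 e⟩

theorem ρ.mem (l : h.ρ hS f q) : f ∈ (h.g hS).B := l.1

theorem ρ.star (l : h.ρ hS f q) : h.ρ hS (cj f) (star q) := by
  rw [ρ, o.rx_cj]; exact Tri.Rp.star l

theorem ρ.d (l : h.ρ hS f q) (i : Fin 6) : h.ρ hS (m.h.d i f) (h.dq S i q) := by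
  rw [ρ, (o.hh hS).d]; exact l.D _

theorem ρ.D (z : Zi o M a G ν ze zi k) (l : h.ρ hS f q) (b : Fin 6) :
    h.ρ hS (P354XF.fr G b f) ((h.T z hS).D b q) := by
  rw [ρ, hom_fr (h.hom hS)]; exact (h.nh z hS).nk.rD b l

theorem ρ.congr (l : h.ρ hS f q) (e : (h.g hS).Ci f' f) : h.ρ hS f' q :=
  Tri.Rp.congr l (map_sub (o.rx hS) f' f ▸ e.2)

theorem ex_ρ (l : f ∈ (h.g hS).B) : ∃ q, h.ρ hS f q := ⟨_, l, rfl⟩

variable (h)

theorem gd (hS : S ⊆ SA) (i : Fin 6) : (h.g hS).Kp (m.h.d i) := by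
  have k := h.wt.kd (K := m.sl.K S) i
  have e := (o.hh hS).d i
  exact ⟨fun f l => show o.rx hS _ ∈ (h.N S).B from e f ▸ k.B _ l,
    fun f l => show o.rx hS _ ∈ (h.N S).I from e f ▸ k.I _ l,
    fun f l => show o.rx hS _ ∈ (h.N S).S from e f ▸ k.S _ l⟩

theorem k0 (hS : S ⊆ SA) : KR (fun a _ => a ∈ (h.g hS).B) (m.K0 M a) (m.K0 M a) :=
  kr_mem (hb_rx o hS h.M0 a).1 (hb_rx o hS h.M0 a).2

theorem gnh (z : Zi o M a G ν ze zi k) (hS : S ⊆ SA) :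
    Nh (h.g hS) m.h (m.p0 M a) G ze zi (algebraMap ℂ _ k) := by
  have u : ∀ c : ℝ, c ≠ 0 → ∃ u ∈ (h.g hS).B, (cst fun _ => c : m.S) * u = 1 :=
    fun c hc => ⟨_, algebraMap_mem _ (c : ℂ)⁻¹, by
      rw [show (cst fun _ => c : m.S) = algebraMap ℂ _ c from rfl, ← map_mul,
        mul_inv_cancel₀ (Complex.ofReal_ne_zero.2 hc), map_one]⟩
  refine ⟨o.is, o.p0 M a, (hb_rx o hS h.M0 a).1, (hb_rx o hS h.M0 a).2, h.gd hS, h.is, h.c, rfl,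
    h.H, h.B, fun b => vf_cz (h.vf b), h.P1, h.P3, h.P0.to hS, h.P4.to hS,
    fun b i => (h.fr b i).to hS, h.rh.to hS, h.rh2.to hS, h.ta.to hS, h.ta2.to hS, z.c.to hS,
    z.b.to hS, algebraMap_mem _ _, z.e, z.e3, ?_, ?_, fun i => D_alg _ _, u a h.a0, u M h.M0.ne'⟩
  · show _ = -(2 * algebraMap ℂ _ M)
    rw [← map_pow, ← map_ofNat (algebraMap ℂ m.S) 2, ← map_mul, ← map_neg]
    exact congrArg _ (show (k : ℂ) ^ 3 = -(2 * M) by exact_mod_cast z.k3)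
  · rw [cj_alg, Complex.conj_ofReal]

theorem kq0 (z : Zi o M a G ν ze zi k) (hS : S ⊆ SA) :
    KR (h.ρ hS) (m.K0 M a) (h.nh z hS).nk.Kq := by
  have k := kr_hom (p := m.p0 M a) (o.hh hS)
  have l := (h.nh z hS).nk.kd
  have t : ∀ {f g q}, o.rx hS f = g → (h.N S).Rp g q → h.ρ hS f q := fun e l => by rwa [ρ, e]
  exact ⟨h.rr hS, t k.r l.r, t k.x l.x, t k.s l.s, t k.sb l.sb, t k.N l.N, t k.Ni l.Ni, l.sg, l.a,
    l.M⟩

theorem on_of (c : (h.g le_rfl).Cs u 1) (H : m.h.H u = 0) (B : m.h.B u = 0) : On o ν u :=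
  ⟨c.2, H, B⟩

theorem _root_.Vale.Agent.P354RI.On.cs (l : On o ν u) : (h.g le_rfl).Cs u 1 := ⟨one_mem _, l.d⟩

theorem lg (l : On o ν u) : o.DA ν (lg u) ∧ m.h.H (lg u) = 0 ∧ m.h.B (lg u) = 0 := by
  have n := l.d.nr h.sν l.H l.B
  refine ⟨?_, by rw [n.vf_lg vf_H, l.H, mul_zero], by rw [n.vf_lg vf_B, l.B, mul_zero]⟩
  have d : Dom ν (o.rx le_rfl u - 1) := by simpa only [Dm.Ok.DA, map_sub, map_one] using l.d
  rw [Dm.Ok.DA, Dm.Ok.rx, n.rix_lg]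
  exact dom_lg h.wν h.sν (n.rix _) d

theorem cs_ex (hS : S ⊆ SA) (d : u ∈ (h.g hS).S) : (h.g hS).Cs (ex u) 1 :=
  ⟨one_mem _, show Dom ν (o.rx hS _) by
    rw [map_sub, map_one, Dm.Ok.rx, rix_ex]; exact dom_ex h.wν h.sν d⟩

/-- Roots and inverses. -/
theorem rt (l : On o ν u) (n : ℕ) (hn : n ≠ 0) :
    ∃ w v, On o ν w ∧ On o ν v ∧ w ^ n = u ∧ w * v = 1 ∧ (cj u = u → cj w = w ∧ cj v = v) := by
  have nr := l.d.nr h.sν l.H l.B
  obtain ⟨d, H, B⟩ := h.lg l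
  have on : ∀ c : ℂ, On o ν (ex (algebraMap ℂ _ c * P354RI.lg u)) := fun c =>
    h.on_of (h.cs_ex le_rfl ((h.g le_rfl).mS _ (algebraMap_mem _ c) _ d))
      (by rw [vf_ex vf_H, D_mul, H, D_alg]; ring) (by rw [vf_ex vf_B, D_mul, B, D_alg]; ring)
  have pw : ∀ (n : ℕ) (a : m.S), ex a ^ n = ex ((n : m.S) * a) := fun n a => by
    induction n with
    | zero => simp [ex_zero]
    | succ n ih => rw [pow_succ, ih, ← ex_add]; congr 1; push_cast; ring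
  refine ⟨_, _, on (n : ℂ)⁻¹, on (-(n : ℂ)⁻¹), ?_, ?_, fun c => ?_⟩
  · rw [pw, ← mul_assoc, ← map_natCast (algebraMap ℂ m.S), ← map_mul,
      mul_inv_cancel₀ (Nat.cast_ne_zero.2 hn), map_one, one_mul, nr.ex_lg]
  · rw [map_neg, neg_mul, ex_neg]
  · simp [cj_ex, cj_alg, nr.cj_lg, c]

theorem ex_zi : ∃ ze zi k, Zi o M a G ν ze zi k := by
  obtain ⟨k, hk⟩ : ∃ k : ℝ, k ^ 3 = -(2 * M) :=
    ⟨-(2 * M) ^ ((3 : ℕ)⁻¹ : ℝ), by
      rw [Odd.neg_pow (by decide), Real.rpow_inv_natCast_pow (by linarith [h.M0]) three_ne_zero]⟩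
  have k0 : (k : ℂ) ≠ 0 := by
    rintro e
    rw [Complex.ofReal_eq_zero.1 e] at hk
    linarith [h.M0]
  set K := m.K0 M a
  have i : K.Is := o.K0 M a
  have b := h.k0 le_rfl
  have r := Tri.rr_cs (N := h.g le_rfl)
  set c : m.S := algebraMap ℂ _ k
  set d : m.S := algebraMap ℂ _ (k : ℂ)⁻¹
  have cd : c * d = 1 := by rw [← map_mul, mul_inv_cancel₀ k0, map_one]
  have c3 : c ^ 3 = -(2 * K.M) := by
    show _ = -(2 * algebraMap ℂ _ M)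
    rw [← map_pow, ← map_ofNat (algebraMap ℂ m.S) 2, ← map_mul, ← map_neg]
    exact congrArg _ (show (k : ℂ) ^ 3 = -(2 * M) by exact_mod_cast hk)
  set y := K.r - ii _ * K.a * K.x
  have zy : K.z * y = 1 := i.z_ze
  have by' : d * y ∈ (h.g le_rfl).B :=
    mul_mem (algebraMap_mem _ _) (sub_mem b.r (mul_mem b.ia b.x))
  have Hy : m.h.H y = 0 := by
    show K.H (_ - _) = 0
    simp only [D_sub, D_mul, D_ii, i.tab]; ring
  have By : m.h.B y = 0 := by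
    show K.B (_ - _) = 0
    simp only [D_sub, D_mul, D_ii, i.tab]; ring
  have l : (h.g le_rfl).Cs (G.P2 * (d * y) ^ 3) 1 := by
    have := r.mul (a := G.P2) ⟨b.P2, h.P2⟩ (r.pow (.refl by') 3)
    rwa [show K.P2 * (d * y) ^ 3 = 1 by
      simp only [KC.P2]
      linear_combination -(K.z * d * y) ^ 3 * c3 + (c * d * (K.z * y) ^ 3 * (c * d + 1) +
        (K.z * y) ^ 3) * cd + ((K.z * y) ^ 2 + K.z * y + 1) * zy] at this
  obtain ⟨w, v, l1, l2, e1, e2, -⟩ := h.rt (h.on_of l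
    (by rw [D_mul, D_cube, D_mul, Hy, ← h.H, h.is.H_P2, D_alg]; ring)
    (by rw [D_mul, D_cube, D_mul, By, ← h.B, h.is.Hb_P2, D_alg]; ring)) 3 three_ne_zero
  refine ⟨d * y * v, c * K.z * w, k, ?_, ?_, hk, mul_mem by' (l2.cs h).mem, ?_⟩
  · linear_combination (K.z * y * w * v) * cd + w * v * zy + e2
  · linear_combination (c * K.z) ^ 3 * e1 + G.P2 * ((c * d * (K.z * y) ^ 3 * (c * d + 1) +
      (K.z * y) ^ 3) * cd + ((K.z * y) ^ 2 + K.z * y + 1) * zy)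
  · have := (r.mul (.refl (mul_mem (algebraMap_mem _ (k : ℂ)) b.z)) (l1.cs h)).2
    rwa [mul_one] at this

end In

/-- The Kerr chart of the spinor (e1, e2). -/
def k1 {A : Type*} [CommRing A] [Algebra ℂ A] (c : A →+* A) (r e1 e2 Ni sg a M : A) : KC A :=
  ky c ![0, r, e1, c e2, c e1, e2] Ni sg a M

/-- The natural functions. -/
structure Nt (h : In m o M a G μ ν) (K' : KC (h.N SA).Q) (r e1 e2 Ni sg ah Mh : m.S) : Prop where
  cr : cj r = r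
  ca : cj ah = ah
  cM : cj Mh = Mh
  Hr : m.h.H r = 0
  Ha : m.h.H ah = 0
  HM : m.h.H Mh = 0
  H1 : m.h.H e1 = e1
  B1 : m.h.B e1 = 0
  H2 : m.h.H e2 = 0
  B2 : m.h.B e2 = e2
  hN : (k1 cj r e1 e2 Ni sg ah Mh).N * Ni = 1
  hg : sg * (r * r + ah * ah * (k1 cj r e1 e2 Ni sg ah Mh).x * (k1 cj r e1 e2 Ni sg ah Mh).x) = 1
  kq : KR (h.ρ le_rfl) (k1 cj r e1 e2 Ni sg ah Mh) K'
  ks : KR (h.g le_rfl).Cs (k1 cj r e1 e2 Ni sg ah Mh) (m.K0 M a)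
  c1 : (h.g le_rfl).Cs e1 (m.h.z 2)
  c2 : (h.g le_rfl).Cs e2 (m.h.z 5)

/-- The natural functions exist. -/
def NAT : Prop := ∀ (J : Type) (m : Dm J) [Gr m.sF] (o : m.Ok) (M a : ℝ) (G : GHP m.S)
  (μ ν : ℕ → m.Q → ℝ) (h : In m o M a G μ ν) (ze zi : m.S) (k : ℝ) (z : Zi o M a G ν ze zi k)
  (K' : KC (h.N SA).Q), IsK (h.T z le_rfl) K' → Cls (h.N SA).Sq K' (h.nh z le_rfl).nk.Kq →
    ∃ r e1 e2 Ni sg ah Mh, Nt h K' r e1 e2 Ni sg ah Mh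

end Vale.Agent.P354RI
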