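import Vale.Agent.P354RI.App

/-!
The regions and the period; the Kerr chart on the quotient.
-/

open scoped ContDiff
open Set Filter Topology

noncomputable section

namespace Vale.Agent.P354RI

open Vale.Agent.P354XG hiding Dom Dom0 Bd bdSub domI Keeps Low dom0_mk dom0_zero dom0_cst dom_of
  dom_zero dom_cst bd_alg dom_sum dom0_sum keeps_pd keeps_zero keeps_sum bd_closure dom_pb_aff
  bd_fn bd_par Conn gron gron0 dom_of_sys dom_sub_ev0
open Vale.Agent.P354MG Vale.Agent.P354XD Vale.Agent.P354XR Vale.Agent.P354NP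
open Vale.Agent.P354XG.Geo (hf two_hf)
open Vale.Agent.P354YA (Rx HHom)

variable {J : Type} {m : Dm J} [Gr m.sF] {o : m.Ok} {M a : ℝ} {G : GHP m.S} {μ ν : ℕ → m.Q → ℝ}
  {S S' : Set (ℂ × ℂ)} {ze zi : m.S} {k : ℝ} {e : Fin 6 → Fin 6 → m.S}

omit [Gr m.sF] in
theorem rs_rs {S2 : Set (ℂ × ℂ)} (h : S' ⊆ S) (h' : S2 ⊆ S') (u : m.R S) :
    m.sl.rs m.sF h' (m.sl.rs m.sF h u) = m.sl.rs m.sF (h'.trans h) u :=
  (rs_res _ (rs_res _ (rs_rep u))).ext (rs_res _ (rs_rep u)) .rfl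

theorem inv_z (o : m.Ok) (hS : S ⊆ SA) (i : Fin 6) (hi : i ≠ 0)
    (h : ∀ w ∈ S, ∀ t r, 1 / 16 ≤ ‖zc i (t, r, w)‖) : ∃ u, Bd u ∧ (hp (m.sl.G m.sF S)).z i * u = 1 :=
  (low_z i h).inv ((o.reg hS one_pos 0).z i hi)

namespace In
variable (h : In m o M a G μ ν) (z : Zi o M a G ν ze zi k) (f : Fe o G e)
  {per : (Fin 6 → m.R SO) →+ m.R SA} (p : Pr m.sF m.sl per)
include h

theorem hm (h' : S' ⊆ S) : (h.N S).Hm (h.N S') (m.sl.rs m.sF h') := h.wt.res _

omit h in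
theorem gg (hS : S ⊆ SA) (h' : S' ⊆ S) :
    GHP.Hom (gp (o.rx hS) G) (gp (o.rx (h'.trans hS)) G) (m.sl.rs m.sF h') :=
  gp_gp (o.rs_rx hS h') (fun v u => (pd_res _ v u).symm) (res_cj _)

def lc (hS : S ⊆ SA) : Lc (h.T z le_rfl) (h.N SA).Sq (h.N S).Q :=
  (h.nh z le_rfl).nk.lc (h.nh z hS).nk (h.hm hS) (gg le_rfl hS) (o.rs_rx _ _ _) (o.rs_rx _ _ _)
    h.wt.inv

theorem th (hS : S ⊆ SA) (h' : S' ⊆ S) : TH (h.T z hS) (h.T z (h'.trans hS)) (h.hm h').qt :=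
  (h.nh z hS).nk.th (h.nh z (h'.trans hS)).nk (h.hm h') (gg hS h') (o.rs_rx _ _ _) (o.rs_rx _ _ _)

/-- The components of a form on the coordinate fields. -/
def lf (hS : S ⊆ SA) (n : Fin 6 → (h.N S).Q) (i : Fin 6) : m.R S :=
  (Tri.sj (∑ b, h.eq f hS i b * n b)).choose

theorem rlf (hS : S ⊆ SA) (n : Fin 6 → (h.N S).Q) (i : Fin 6) :
    (h.N S).Rp (h.lf f hS n i) (∑ b, h.eq f hS i b * n b) := (Tri.sj _).choose_spec

def pq (n : Fin 6 → (h.N SO).Q) : (h.N SA).Q :=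
  (h.N SA).mk' ⟨per (h.lf f so_sa n), p.dom _ wgt_one _ fun i => (h.rlf f so_sa n i).mem⟩

theorem rpq {n : Fin 6 → (h.N SO).Q} {α : Fin 6 → m.R SO}
    (l : ∀ i, (h.N SO).Rp (α i) (∑ b, h.eq f so_sa i b * n b)) : (h.N SA).Rp (per α) (h.pq f p n) :=
  (Tri.rp_mk _).congr (by
    rw [← map_sub]
    exact p.dom μ h.wμ _ fun i => ((l i).eq_iff (h.rlf f so_sa n i)).1 rfl)

theorem rres (hS : S ⊆ SA) (h' : SO ⊆ S) (n : Fin 6 → (h.N S).Q) :
    (h.N SA).Rp (per fun i => m.sl.rs m.sF h' (h.lf f hS n i))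
      (h.pq f p fun b => (h.hm h').qt (n b)) := h.rpq f p fun i => by
  have := (h.rlf f hS n i).map (h.hm h')
  simp only [map_sum, map_mul] at this
  have e : ∀ b, (h.hm h').qt (h.eq f hS i b) = h.eq f so_sa i b := fun b =>
    ((h.req f hS i b).map _).fn (h.req f so_sa i b) (o.rs_rx _ _ _)
  simpa only [e] using this

theorem cl_lf (hS : S ⊆ SA) {n : Fin 6 → (h.N S).Q} (hn : ∀ a b, (h.T z hS).ext n a b = 0) :
    Cl μ (h.lf f hS n) := fun i l =>
  (Tri.rr.sub ((h.rlf f hS n l).D (h.wt.kd i)) ((h.rlf f hS n i).D (h.wt.kd l))).zero_iff.1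
    ((h.cd z f hS).closed hn i l)

include z in
theorem rcomp (hS : S ⊆ SA) (n : Fin 6 → (h.N S).Q) (b : Fin 6) : (h.N S).Rp
    (∑ i, P354XF.fr (gp (o.rx hS) G) b (yS m S i) * h.lf f hS n i) (n b) :=
  (h.cd z f hS).comp n b ▸ Tri.rr.sum fun i =>
    Tri.rr.mul ((h.nh z hS).nk.rD b (Tri.rp_mk _)) (h.rlf f hS n i)

include f in
theorem rc (c : CONN) {q : (h.N SA).Q} (l : (h.T z le_rfl).Const q) :
    ∃ u : m.Q → ℂ, (h.N SA).Rp (cst u) q := by
  obtain ⟨u, r⟩ := Tri.sj q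
  have := h.rev r
  rw [(h.evv z f c).const fun b => by fin_cases b; exacts [l.k0, l.k1, l.k2, l.k3, l.kH, l.kHb],
    ev0_eq] at this
  exact ⟨_, this⟩

theorem un {i j : Fin 6} (hS : S ⊆ SA) (hi : i ≠ 0) (hj : j ≠ 0)
    (l : ∀ w ∈ S, ∀ t r, 1 / 16 ≤ ‖zc i (t, r, w)‖) (l' : ∀ w ∈ S, ∀ t r, 1 / 16 ≤ ‖zc j (t, r, w)‖)
    {u : m.R S} {q} (r : (h.N S).Rp u q) (e : u * (hp _).N = 2 * (hp _).z i * (hp _).z j) :
    IsUnit q := by
  obtain ⟨v, hv, e1⟩ := inv_z o hS i hi l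
  obtain ⟨w, hw, e2⟩ := inv_z o hS j hj l'
  refine r.unit (g := (hp _).N * hf (m.R S) * v * w) (mul_mem (mul_mem (mul_mem
    (o.reg hS one_pos 0).hb.N hf_mem) hv) hw) ?_
  linear_combination hf (m.R S) * v * w * e + 2 * hf (m.R S) * (hp _).z j * w * e1 +
    2 * hf (m.R S) * e2 + two_hf (A := m.R S)

theorem wind {s : m.R SO} (ls : Low s) {sq u v : (h.N SO).Q} (r : (h.N SO).Rp s sq)
    (e : u * v = 1) (c : u - sq ∈ (h.N SO).Sq) : ∃ U V, U * V = 1 ∧ Dom ν (U - s) ∧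
      (h.N SA).Rp (per fun i => V * (hp _).d i U) (h.pq f p fun b => v * (h.T z so_sa).D b u) := by
  obtain ⟨U, l⟩ := Tri.sj u
  have d : Dom ν (U - s) := (Tri.rr.sub l r).sq_iff.1 c
  have lo := ls.add_sml d.dom0 h.sν
  rw [add_sub_cancel] at lo
  obtain ⟨V, hV, e1⟩ := lo.inv l.mem
  have l' : (h.N SO).Rp V v := by
    have := (Tri.rr.mul l (Tri.rp_mk hV)).fn Tri.rr.one e1
    rw [mul_comm] at e
    exact left_inv_eq_right_inv e this ▸ Tri.rp_mk hV
  refine ⟨U, V, e1, d, h.rpq f p fun i => ?_⟩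
  have : ∑ b, h.eq f so_sa i b * (v * (h.T z so_sa).D b u) = v * h.dq SO i u := by
    rw [(h.cd z f so_sa).de, Finset.mul_sum]
    exact Finset.sum_congr rfl fun _ _ => mul_left_comm _ _ _
  exact this ▸ Tri.rr.mul l' (l.D _)

/-- The regions and the period. -/
def lp (c : CONN) : Lp (h.T z le_rfl) (h.nh z le_rfl).nk.Kq (h.N SA).Sq (h.N SN).Q (h.N SS).Q
    (h.N SO).Q :=
  have r : ∀ {S}, RR (h.N S).Rp := Tri.rr
  have kd := (h.nh z le_rfl).nk.kd
  have kr : ∀ {S} (hS : S ⊆ SA), _ := fun hS => kr_hom (p := pmap (o.rx le_rfl) (m.p0 M a))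
    (hh_res (m.sl.sub m.sF hS) (o.reg le_rfl one_pos 0).pos.off)
  have hN : ∀ {S} (hS : S ⊆ SA), _ := fun hS => (h.nh z hS).hi.hN
  have rcs : ∀ {S} (hS : S ⊆ SA) {u q}, (h.N SA).Rp (cst u) q →
      (h.N S).Rp (cst u) ((h.hm hS).qt q) := fun hS _ _ l => res_cst _ _ ▸ l.map (h.hm hS)
  have lo : ∀ i : Fin 6, 2 ≤ i → Low ((hp (m.sl.G m.sF SO)).z i) := fun i hi => low_z i
    fun w hw t r => by fin_cases i <;> simp [zc] at hi ⊢ <;> first | simpa using hw.1.1 | simpa using hw.2.1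
  have lN : Low (2 * (hp (m.sl.G m.sF SO)).Ni) := low_of_mul
    (mul_mem (hf_mem (B := bdSub _ _)) (o.reg so_sa one_pos 0).hb.N).dom0
    (by linear_combination 2 * hf (m.R SO) * hN so_sa + two_hf (A := m.R SO))
  { n := h.lc z sn_sa
    s := h.lc z ss_sa
    o := h.lc z so_sa
    ψn := (h.hm so_sn).qt
    ψs := (h.hm so_ss).qt
    hn := h.th z sn_sa so_sn
    hs := h.th z ss_sa so_ss
    cn := fun q => let ⟨u, l⟩ := Tri.sj q
      ((l.map (h.hm sn_sa)).map (h.hm so_sn)).fn (l.map (h.hm so_sa)) (rs_rs sn_sa so_sn u)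
    cs := fun q => let ⟨u, l⟩ := Tri.sj q
      ((l.map (h.hm ss_sa)).map (h.hm so_ss)).fn (l.map (h.hm so_sa)) (rs_rs ss_sa so_ss u)
    un := h.un (i := 2) (j := 4) sn_sa (by decide) (by decide) (fun w hw _ _ => hw.1.1)
      (fun w hw _ _ => by simpa [zc] using hw.1.1) ((r.add r.one kd.x).map (h.hm sn_sa)) (by
        rw [map_add, map_one, show m.sl.rs m.sF sn_sa _ = _ from (kr sn_sa).x]
        have := hN sn_sa
        simp only [kk, Hp.kc, Hp.N] at this ⊢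
        linear_combination ((hp _).z 2 * (hp _).z 4 - (hp _).z 3 * (hp _).z 5) * this)
    us := h.un (i := 3) (j := 5) ss_sa (by decide) (by decide) (fun w hw _ _ => hw.2.1)
      (fun w hw _ _ => by simpa [zc] using hw.2.1) ((r.sub r.one kd.x).map (h.hm ss_sa)) (by
        rw [map_sub, map_one, show m.sl.rs m.sF ss_sa _ = _ from (kr ss_sa).x]
        have := hN ss_sa
        simp only [kk, Hp.kc, Hp.N] at this ⊢
        linear_combination -((hp _).z 2 * (hp _).z 4 - (hp _).z 3 * (hp _).z 5) * this)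
    per := h.pq f p
    add := fun n n' => (h.rpq f p (α := h.lf f so_sa n + h.lf f so_sa n') fun i => by
      simpa only [Pi.add_apply, mul_add, Finset.sum_add_distrib] using
        r.add (h.rlf f so_sa n i) (h.rlf f so_sa n' i)).fn
      (r.add (h.rpq f p (h.rlf f so_sa n)) (h.rpq f p (h.rlf f so_sa n'))) (map_add _ _ _)
    smul := fun q n l => let ⟨u, l⟩ := h.rc z f c l
      (h.rpq f p (α := (cst u : m.R SO) • h.lf f so_sa n) fun i => by
        have := r.mul (rcs so_sa l) (h.rlf f so_sa n i)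
        rw [Finset.mul_sum] at this
        simp only [Pi.smul_apply, smul_eq_mul, mul_left_comm] at this ⊢
        exact this).fn
      (r.mul l (h.rpq f p (h.rlf f so_sa n))) (p.sm _ _)
    pn := fun n q q' hn l l' e4 e5 => by
      obtain ⟨u, l⟩ := h.rc z f c l
      obtain ⟨u', l'⟩ := h.rc z f c l'
      have a4 := ((h.rcomp z f sn_sa n 4).eq_iff (rcs sn_sa l)).1 e4
      have a5 := ((h.rcomp z f sn_sa n 5).eq_iff (rcs sn_sa l')).1 e5
      have H : P354XF.fr (gp (o.rx sn_sa) G) 4 = _ := (h.nh z sn_sa).H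
      have B : P354XF.fr (gp (o.rx sn_sa) G) 5 = _ := (h.nh z sn_sa).B
      simp only [H, B, Hp.H_ap, Hp.B_ap, d_yS, Fin.sum_univ_six, Fin.reduceEq, if_true, if_false,
        mul_zero, mul_one, add_zero, zero_add, zero_mul] at a4 a5
      exact ((h.rres f p sn_sa so_sn n).eq_iff (r.sub l l')).2
        (p.pn μ h.wμ _ u u' (h.cl_lf z f sn_sa hn) a4 a5)
    ps := fun n hn =>
      (h.rres f p ss_sa so_ss n).zero_iff.2 (p.ps μ h.wμ _ (h.cl_lf z f ss_sa hn))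
    w := fun u v e l => by
      have l1 := kd.s.map (h.hm so_sa)
      rw [show m.sl.rs m.sF so_sa _ = _ from (kr so_sa).s] at l1
      obtain ⟨U, V, e1, d, l2⟩ := h.wind z f p (by
        have := (lN.mul (lo 2 le_rfl)).mul (lo 3 (by decide))
        rwa [show ∀ a b c : m.R SO, 2 * a * b * c = 2 * b * c * a from fun _ _ _ => by ring]
          at this) l1 e l
      exact l2.fn r.one ((p.w ν h.wν h.sν U V e1).1 d)
    wb := fun u v e l => by
      have l1 := kd.sb.map (h.hm so_sa)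
      rw [show m.sl.rs m.sF so_sa _ = _ from (kr so_sa).sb] at l1
      obtain ⟨U, V, e1, d, l2⟩ := h.wind z f p (by
        have := (lN.mul (lo 4 (by decide))).mul (lo 5 (by decide))
        rwa [show ∀ a b c : m.R SO, 2 * a * b * c = 2 * b * c * a from fun _ _ _ => by ring]
          at this) l1 e l
      exact l2.fn (r.neg r.one) ((p.w ν h.wν h.sν U V e1).2 d) }

include f in
/-- The quotient is the algebra of a Kerr chart. -/
theorem ex_K (al : ALG) (c : CONN) (q : QRT) (p : PER) : ∃ K' : KC (h.N SA).Q,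
    IsK (h.T z le_rfl) K' ∧ Cls (h.N SA).Sq K' (h.nh z le_rfl).nk.Kq :=
  let ⟨_, p⟩ := ex_per p o.sl
  al _ _ _ _ _ _ _ _ h.ev ((h.nh z le_rfl).nk.near h.wt.inv fun a ha b hb d hd =>
    q _ _ _ ν h.wν h.sν a b d ha hb hd) (h.evv z f c) (h.lp z f p c)

end In

end Vale.Agent.P354RI
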