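import Vale.Agent.P354RI.Cmp
import Vale.Agent.P354XO.Nat

/-!
The phase of the spinor.
-/

open scoped ContDiff
open Set Filter Topology

noncomputable section

namespace Vale.Agent.P354RI

open Vale.Agent.P354XG hiding Dom Dom0 Bd bdSub domI Keeps Low dom0_mk dom0_zero dom0_cst dom_of
  dom_zero dom_cst bd_alg dom_sum dom0_sum keeps_pd keeps_zero keeps_sum bd_closure dom_pb_aff
  bd_fn bd_par Conn gron gron0 dom_of_sys dom_sub_ev0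
open Vale.Agent.P354MG Vale.Agent.P354XD Vale.Agent.P354XR Vale.Agent.P354NP
open Vale.Agent.P354XF (fr)
open Vale.Agent.P354XO (VF vf_H vf_d)
open Vale.Agent.P354XG.Geo (hf two_hf)

section alg
variable {A : Type*} [CommRing A] [Algebra ℂ A]

theorem yb_eq {G : GHP A} (h : G.Is) (u : A) : Yb G u = G.c (Yf G (G.c u)) := by
  simp [Yb, Yf, h.c_th, h.c_tp, h.c_et, h.c_ep, h.cc]

theorem p_eq (X : Der A) (Y u : Fin 6 → A) (e : A) : X (Y 3 * Y 4 - Y 2 * Y 5) -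
    ((u 4 + u 5) * (Y 3 * Y 4 - Y 2 * Y 5) - 2 * e * (Y 3 * Y 4 + Y 2 * Y 5)) =
    Y 3 * (X (Y 4) - (zv u Y 4 + sn A 4 * e * Y 4)) + Y 4 * (X (Y 3) - (zv u Y 3 + sn A 3 * e * Y 3)) -
    Y 2 * (X (Y 5) - (zv u Y 5 + sn A 5 * e * Y 5)) - Y 5 * (X (Y 2) - (zv u Y 2 + sn A 2 * e * Y 2)) +
    (Y 4 * Y 4 + Y 5 * Y 5) * u 2 - (Y 3 * Y 3 + Y 2 * Y 2) * u 3 := by
  simp only [D_sub, D_mul, zv, sn, Matrix.cons_val]; ring

omit [Algebra ℂ A] in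
theorem mem_of {I : AddSubgroup A} {a b : A} (h : a ∈ I) (e : b = a) : b ∈ I := e ▸ h

end alg

theorem Tri.Ci.of {R : Type} [CommRing R] [Algebra ℂ R] {c : R →+* R} {N : Tri c} {f g f' g' : R}
    (h : N.Ci f g) (e : f' = f) (e' : g' = g) : N.Ci f' g' := e ▸ e' ▸ h

variable {J : Type} {m : Dm J} [Gr m.sF] {o : m.Ok} {M a : ℝ} {G : GHP m.S} {μ ν : ℕ → m.Q → ℝ}
  {S : Set (ℂ × ℂ)} {f g : m.S}

theorem H_bs (o : m.Ok) (f : m.S) : m.h.H (o.bs f) = 0 := by simp [Hp.H_ap, o.d_bs]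
theorem B_bs (o : m.Ok) (f : m.S) : m.h.B (o.bs f) = 0 := by simp [Hp.B_ap, o.d_bs]

namespace In
variable {h : In m o M a G μ ν}

theorem toB (l : f ∈ (h.g le_rfl).B) : f ∈ (h.g sb_sa).B := Dm.Ok.DA.db (o := o) l
theorem toI (l : (h.g le_rfl).Ci f g) : (h.g sb_sa).Ci f g :=
  ⟨toB l.1, Dm.Ok.DA.db (o := o) l.2⟩
theorem toS (l : (h.g le_rfl).Cs f g) : (h.g sb_sa).Cs f g :=
  ⟨toB l.1, Dm.Ok.DA.db (o := o) l.2⟩
theorem bsB (l : f ∈ (h.g sb_sa).B) : o.bs f ∈ (h.g le_rfl).B := Dm.Ok.DB.bs l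
theorem bsI (l : (h.g sb_sa).Ci f g) : (h.g le_rfl).Ci (o.bs f) (o.bs g) :=
  ⟨bsB l.1, map_sub o.bs f g ▸ Dm.Ok.DB.bs l.2⟩
theorem bsS (l : (h.g sb_sa).Cs f g) : (h.g le_rfl).Cs (o.bs f) (o.bs g) :=
  ⟨bsB l.1, map_sub o.bs f g ▸ Dm.Ok.DB.bs l.2⟩

variable (h) in
theorem bL (hS : S ⊆ SA) (b : Fin 4) (l : f ∈ (h.g hS).B) : m.h.L b f ∈ (h.g hS).B := by
  have k : HB m.h (h.g hS).B := (hb_rx o hS h.M0 a).1
  have d := fun i => (h.gd hS i).B f l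
  rw [Hp.L_ap, Hp.P_ap, Hp.Q_ap]
  exact add_mem (add_mem (add_mem (mul_mem (e0_mem b) (d 0)) (mul_mem (k.om b) (d 1)))
    (mul_mem (mul_mem (mul_mem hf_mem k.ri) (k.mu b))
      (sub_mem (mul_mem k.z4 (d 3)) (mul_mem k.z5 (d 2)))))
    (mul_mem (mul_mem (mul_mem hf_mem k.ri) (k.mub b))
      (sub_mem (mul_mem k.z2 (d 5)) (mul_mem k.z3 (d 4))))

end In

namespace Dt
variable {h : In m o M a G μ ν} (D : Dt h)

/-- The phase and its defect. -/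
structure Ph (φ ε : m.S) : Prop where
  c : cj φ = -φ
  H : m.h.H φ = 0
  s : φ ∈ (h.g sb_sa).S
  be : o.bs ε = ε
  ce : cj ε = -ε
  b : ε ∈ (h.g le_rfl).B
  d : ∀ i, (h.g sb_sa).Ci (m.h.d i φ) (D.γ i + (if i = 0 then 1 else 0) * ε)
  an : o.bs (ex (-φ) * D.y 3 * (ex (-φ) * D.y 4)) = o.bs (ex φ * D.y 2 * (ex φ * D.y 5))

theorem ex_ph (pot : POT) : ∃ φ ε, D.Ph φ ε := by
  obtain ⟨u, cu, Hu, bu, hu⟩ := pot J m o _ D.bas1
  obtain ⟨d0, di⟩ := (hu μ h.wμ).1 D.cl1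
  have ci : cj (ii m.S) = -ii m.S := o.is.c_ii
  have ch : cj (hf m.S) = hf m.S := o.is.c_hf
  have i2 := ii_sq (A := m.S)
  have bi : ii m.S ∈ (h.g sb_sa).B := ii_mem
  have su : u ∈ (h.g sb_sa).S := (hu ν h.wν).2 fun i _ =>
    (h.g le_rfl).mS _ (neg_mem ii_mem) _ (D.sγ i)
  have r := Tri.rr_cs (N := h.g le_rfl)
  have on : On o ν (o.bs (D.y 3 * D.y 4)) := h.on_of (by
    have := In.bsS (In.toS (r.mul (D.cy 3 (by decide)) (D.cy 4 (by decide))))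
    rwa [map_mul _ (m.h.z 3), o.bs_z, o.bs_z, show ∀ a b : m.S, ![a, b, 1, 1, 1, 1] 3 *
      ![a, b, 1, 1, 1, 1] 4 = 1 from fun _ _ => mul_one _] at this) (H_bs o _) (B_bs o _)
  have nr := on.d.nr h.sν on.H on.B
  set l := lg (o.bs (D.y 3 * D.y 4))
  have sl : l ∈ (h.g le_rfl).S := (h.lg on).1
  set p := hf m.S * hf m.S * (l - cj l) with hp
  have sp : p ∈ (h.g le_rfl).S :=
    (h.g le_rfl).mS _ (mul_mem hf_mem hf_mem) _ (sub_mem sl ((h.g le_rfl).cS _ sl))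
  have cp : cj p = -p := by simp only [hp, map_mul, map_sub, ch, cj_cj]; ring
  have se : m.h.d 0 p - D.γ 0 ∈ (h.g le_rfl).S := sub_mem ((h.gd le_rfl 0).S _ sp) (D.sγ 0)
  have be : o.bs (m.h.d 0 p - D.γ 0) ∈ (h.g le_rfl).B := In.bsB (In.toB ((h.g le_rfl).SB _ se))
  have bg := fun i => In.toB ((h.g le_rfl).SB _ (D.sγ i))
  have bi' : o.bs (ii m.S) = ii m.S := AlgHom.commutes _ _
  refine ⟨ii _ * u + o.bs p, o.bs (m.h.d 0 p - D.γ 0), ?_, ?_, ?_, o.bs_bs _, ?_, be, fun i => ⟨?_, ?_⟩, ?_⟩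
  · rw [map_add, map_mul, ci, cu, ← o.bs_cj, cp, map_neg]; ring
  · rw [D_add, D_mul, Hu, D_ii, H_bs]; ring
  · exact add_mem ((h.g sb_sa).mS _ bi _ su) (Dm.Ok.DA.db (Dm.Ok.DB.bs (Dm.Ok.DA.db sp)))
  · rw [← o.bs_cj, map_sub cj, D.c_γ, show cj (m.h.d 0 p) = m.h.d 0 (cj p) from o.is.c0 p, cp,
      D_neg, neg_sub_neg, ← map_neg o.bs, neg_sub]
    rfl
  · exact add_mem (bg i) (mul_mem ((rr_mem _).dl (A' := m.S) i 0) (In.toB be))
  · rw [D_add, D_mul, D_ii, o.d_bs]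
    split_ifs with e
    · have := (h.g sb_sa).mI _ bi _ d0
      rw [map_mul, map_neg, bi'] at this
      rw [e, map_sub]
      exact mem_of this (by linear_combination -(D.γ 0 - o.bs (D.γ 0)) * i2)
    · have := (h.g sb_sa).mI _ bi _ (di i e)
      exact mem_of this (by linear_combination -D.γ i * i2)
  · have e1 : o.bs (D.y 3 * D.y 4) = ex (o.bs l) := by rw [← o.bs_ex, nr.ex_lg, o.bs_bs]
    have e2 : o.bs (D.y 2 * D.y 5) = ex (o.bs (cj l)) := by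
      rw [o.bs_cj, ← cj_ex, ← e1, ← o.bs_cj, map_mul cj, D.c_y, D.c_y, mul_comm]; rfl
    have e3 : o.bs (ii _ * u + o.bs p) = o.bs p := by
      rw [map_add, map_mul, bu, mul_zero, zero_add, o.bs_bs]
    generalize ii _ * u + o.bs p = φ at e3
    rw [mul_mul_mul_comm, mul_mul_mul_comm (ex _) (D.y 2), map_mul, map_mul _ _ (D.y 2 * _), e1, e2,
      map_mul, map_mul, o.bs_ex, o.bs_ex, map_neg, e3]
    simp only [← ex_add]
    refine congrArg ex ?_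
    have t : 2 * o.bs (hf m.S) = 1 := (AlgHom.commutes o.bs _).symm ▸ two_hf
    simp only [hp, map_mul, map_sub]
    linear_combination -(2 * o.bs (hf m.S) + 1) * (o.bs l - o.bs (cj l)) * t

/-- The spinor with the phase. -/
def Y (φ : m.S) (k : Fin 6) : m.S := ex (sn _ k * φ) * D.y k

variable {D} {φ ε : m.S} (p : D.Ph φ ε)
include p

theorem Ph.cE (k : Fin 6) : (h.g sb_sa).Cs (ex (sn _ k * φ)) 1 :=
  h.cs_ex sb_sa ((h.g sb_sa).mS _ ((rr_mem _).sn (A' := m.S) k) _ p.s)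

theorem Ph.cY (k : Fin 6) (hk : k ≠ 0) : (h.g sb_sa).Cs (D.Y φ k) (m.h.z k) := by
  simpa only [one_mul, Y] using Tri.rr_cs.mul (p.cE k) (In.toS (D.cy k hk))

theorem Ph.bY (k : Fin 6) : D.Y φ k ∈ (h.g sb_sa).B := mul_mem (p.cE k).mem (In.toB (D.by' k))

theorem Ph.c_Y (k : Fin 6) : cj (D.Y φ k) = D.Y φ (bz k) := by
  have : cj (sn m.S k) = -sn m.S (bz k) := by fin_cases k <;> simp [sn, bz]
  rw [Y, map_mul, cj_ex, map_mul, this, p.c, neg_mul_neg, D.c_y, Y]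

theorem Ph.H_Y (k : Fin 6) : m.h.H (D.Y φ k) = wz _ k * D.Y φ k := by
  have : m.h.H (sn m.S k) = 0 := by fin_cases k <;> simp [sn]
  rw [Y, D_mul, vf_ex vf_H, D_mul, this, p.H, D.H_y]; ring

theorem Ph.dY (i k : Fin 6) (hk : 2 ≤ k) : (h.g sb_sa).Ci (m.h.d i (D.Y φ k))
    (zv (D.F i) (D.Y φ) k + sn _ k * ((if i = 0 then 1 else 0) * ε) * D.Y φ k) := by
  have r := Tri.rr_ci (N := h.g sb_sa)
  have := r.mul (.refl (p.cE k).mem) (r.add (In.toI (D.dy i k hk))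
    (r.mul (r.mul (r.sn k) (p.d i)) (.refl (In.toB (D.by' k)))))
  have e0 : m.h.d i (sn m.S k) = 0 := by fin_cases k <;> simp [sn]
  have e1 : zv (D.F i) (D.Y φ) k = ex (sn _ k * φ) * zv (D.F i) D.y k := by
    fin_cases k <;> simp [zv, Y, sn] at hk ⊢ <;> ring
  rw [e1, Y, D_mul, vf_ex (vf_d i), D_mul, e0]
  exact this.of (by ring) (by ring)

theorem Ph.sY {c : Fin 6 → m.S} (hc : ∀ i, c i ∈ (h.g sb_sa).B) (k : Fin 6) (hk : 2 ≤ k) :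
    (h.g sb_sa).Ci (∑ i, c i * m.h.d i (D.Y φ k))
      (zv (fun l => ∑ i, c i * D.F i l) (D.Y φ) k + sn _ k * (c 0 * ε) * D.Y φ k) := by
  refine (Tri.rr_ci.sum fun i => Tri.rr_ci.mul (.refl (hc i)) (p.dY i k hk)).of rfl ?_
  simp [zv_sum, mul_add, Finset.sum_add_distrib]; ring

variable (D φ) in
def q : m.S := D.Y φ 3 * D.Y φ 4 - D.Y φ 2 * D.Y φ 5
variable (D φ) in
def σ : m.S := D.Y φ 3 * D.Y φ 4 + D.Y φ 2 * D.Y φ 5

theorem Ph.bs_q : o.bs (D.q φ) = 0 := by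
  rw [q, map_sub, sub_eq_zero]
  simpa [Dt.Y, sn] using p.an

theorem Ph.c_q : cj (D.q φ) = -D.q φ := by simp [q, p.c_Y, bz]; ring
theorem Ph.c_σ : cj (D.σ φ) = D.σ φ := by simp [σ, p.c_Y, bz]; ring
theorem Ph.H_q : m.h.H (D.q φ) = D.q φ := by simp [q, p.H_Y, wz]; ring
theorem Ph.B_q : m.h.B (D.q φ) = D.q φ := by
  rw [← cj_cj (D.q φ), ← P354XO.cj_H, p.c_q, D_neg, p.H_q, ← p.c_q, cj_cj]
theorem Ph.bq : D.q φ ∈ (h.g sb_sa).B :=
  sub_mem (mul_mem (p.bY 3) (p.bY 4)) (mul_mem (p.bY 2) (p.bY 5))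
theorem Ph.bσ : D.σ φ ∈ (h.g sb_sa).B :=
  add_mem (mul_mem (p.bY 3) (p.bY 4)) (mul_mem (p.bY 2) (p.bY 5))

omit p in
include h in
theorem vY : VF (Yf G) ∧ VF (Yb G) :=
  ⟨((((h.vf 0).smul _).sub ((h.vf 1).smul _)).sub ((h.vf 2).smul _)).add ((h.vf 3).smul _),
    ((((h.vf 0).smul _).sub ((h.vf 1).smul _)).sub ((h.vf 3).smul _)).add ((h.vf 2).smul _)⟩

omit p in
variable (D) in
theorem cy' (b : Fin 6) : (h.g sb_sa).Ci (yc G b) (yc D.K.kerr b) := by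
  have r' := Tri.rr_ci (N := h.g le_rfl)
  obtain ⟨c1, c2, c3, c4, -⟩ := D.crh
  refine In.toI ?_
  fin_cases b
  exacts [c2, r'.neg c1, r'.neg c4, c3, r'.zero, r'.zero]

omit p in
variable (D) in
theorem cu (k : Fin 6) : (h.g sb_sa).Ci (fc D.K (yc G) k) (fc D.K (yc D.K.kerr) k) := by
  obtain ⟨-, h1, h2, h3, h4, h5, h6, h7, h8, h9⟩ := D.n.ks
  have t : ∀ {f g}, (h.g le_rfl).Cs f g → (h.g sb_sa).Ci f f := fun l => .refl (In.toB l.mem)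
  exact KR.fc (K := D.K) (K' := D.K)
    ⟨Tri.rr_ci, t h1, t h2, t h3, t h4, t h5, t h6, t h7, t h8, t h9⟩ D.cy' k

omit p in
theorem bz' (D : Dt h) (i : Fin 6) : Yf G (m.h.z i) ∈ (h.g sb_sa).B := by
  rw [yf_eq]
  exact sum_mem fun b _ => mul_mem (D.cy' b).cs.mem ((h.gnh D.z sb_sa).cE b i).mem

theorem Ph.yY (k : Fin 6) (hk : 2 ≤ k) : Yf G (D.Y φ k) - (zv (fc D.K (yc G)) (D.Y φ) k +
    sn _ k * (Yf G (m.h.z 0) * ε) * D.Y φ k) ∈ (h.g sb_sa).I := by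
  have e : Yf G (D.Y φ k) = ∑ i, Yf G (m.h.z i) * m.h.d i (D.Y φ k) :=
    (vf_cz (vY (h := h)).1).eq (cz_is o.is) _
  have e2 : fc D.K (yc G) = fun l => ∑ i, Yf G (m.h.z i) * D.F i l := funext fun l => by
    simp only [yf_eq, Finset.sum_mul, mul_assoc]
    rw [Finset.sum_comm]
    simp only [← Finset.mul_sum, D.sum_F, fc]
  rw [e, e2]
  exact (p.sY D.bz' k hk).2

theorem Ph.yq : (h.g le_rfl).Ci (o.bs (Yf G (D.q φ)))
    (-(2 * (o.bs (Yf G (m.h.z 0)) * ε) * o.bs (D.σ φ))) := by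
  obtain ⟨u2, u3⟩ := yc_kc (K := D.K) D.n.hN D.n.hg
  have v2 := (D.cu 2).2
  have v3 := (D.cu 3).2
  rw [u2, sub_zero] at v2
  rw [u3, sub_zero] at v3
  have b := p.bY
  have w := p.yY
  have I := (h.g sb_sa).mI
  have a0 := sub_mem (add_mem (sub_mem (sub_mem (add_mem (I _ (b 3) _ (w 4 (by decide)))
    (I _ (b 4) _ (w 3 (by decide)))) (I _ (b 2) _ (w 5 (by decide)))) (I _ (b 5) _ (w 2 le_rfl)))
    (I _ (add_mem (mul_mem (b 4) (b 4)) (mul_mem (b 5) (b 5))) _ v2))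
    (I _ (add_mem (mul_mem (b 3) (b 3)) (mul_mem (b 2) (b 2))) _ v3)
  rw [← p_eq] at a0
  have a1 : (h.g sb_sa).Ci (Yf G (D.q φ)) ((fc D.K (yc G) 4 + fc D.K (yc G) 5) * D.q φ -
      2 * (Yf G (m.h.z 0) * ε) * D.σ φ) :=
    ⟨sub_mem (mul_mem (add_mem (D.cu 4).cs.mem (D.cu 5).cs.mem) p.bq)
      (mul_mem (mul_mem (ofNat_mem _ 2) (mul_mem (D.bz' 0) (In.toB p.b))) p.bσ), a0⟩
  refine (In.bsI a1).of rfl ?_
  simp only [map_sub, map_mul, map_ofNat, p.bs_q, p.be, mul_zero, zero_sub]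

theorem Ph.ybq : (h.g le_rfl).Ci (o.bs (Yb G (D.q φ)))
    (-(2 * (o.bs (Yb G (m.h.z 0)) * ε) * o.bs (D.σ φ))) := by
  have yb : ∀ u, Yb G u = cj (Yf G (cj u)) := h.c ▸ yb_eq h.is
  have z0 : cj (m.h.z 0) = m.h.z 0 := o.is.z0
  refine (Tri.rr_ci.neg p.yq.cj).of ?_ ?_
  · rw [yb, p.c_q, D_neg, map_neg, map_neg, o.bs_cj]
  · simp only [yb, z0, map_neg, map_mul, map_ofNat, ← o.bs_cj, p.c_σ, p.ce]; ring

theorem Ph.on : On o ν (o.bs (hf _ * D.σ φ)) := by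
  refine h.on_of ?_ (H_bs o _) (B_bs o _)
  have k := Tri.rr_cs (N := h.g sb_sa)
  have u := fun i j hi hj => k.mul (p.cY i hi) (p.cY j hj)
  have := In.bsS (k.mul k.hf (k.add (u 3 4 (by decide) (by decide)) (u 2 5 (by decide) (by decide))))
  have e : o.bs (hf m.S) = hf m.S := AlgHom.commutes _ _
  rwa [show o.bs (hf _ * (m.h.z 3 * _ + _)) = 1 by
    simp only [map_mul, map_add, o.bs_z, Matrix.cons_val, e]
    linear_combination two_hf (A := m.S)] at this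

/-- The defect is negligible. -/
theorem Ph.eI : ε ∈ (h.g le_rfl).I := by
  obtain ⟨c, c', bc, bc', tu⟩ := h.tube
  obtain ⟨s, t, e⟩ := P354XO.VF.split o.off
    (((vf_d 0).sub ((vY (h := h)).1.smul c)).sub ((vY (h := h)).2.smul c'))
  have a4 : o.bs (m.h.d 0 (D.q φ) - c * Yf G (D.q φ) - c' * Yb G (D.q φ)) ∈ (h.g le_rfl).I := by
    have := e (D.q φ)
    simp only [Derivation.sub_apply, Derivation.smul_apply, smul_eq_mul] at this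
    rw [this, p.H_q, p.B_q, map_add, map_add, map_mul, map_mul, p.bs_q, mul_zero, mul_zero, add_zero,
      add_zero, map_sum]
    refine sum_mem fun b _ => ?_
    rw [map_mul, mul_comm]
    exact (h.g le_rfl).mI _ (In.bsB (h.bL sb_sa b p.bq)) _ (tu b)
  have a5 : o.bs (m.h.d 0 (D.q φ)) = 0 := by
    have := o.d_bs 0 (D.q φ)
    rw [p.bs_q, D_zero, if_pos rfl] at this
    exact this.symm
  have a6 := tu 0
  rw [show m.h.co 0 = m.h.z 0 by simp [Hp.co, Hp.e0, Hp.om], o.is.dz, if_pos rfl] at a6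
  obtain ⟨_, v, -, ov, e1, e2, -⟩ := h.rt p.on 1 one_ne_zero
  rw [pow_one] at e1
  rw [e1, map_mul, show o.bs (hf _) = hf _ from AlgHom.commutes _ _] at e2
  have J := (h.g le_rfl).mI
  have a7 := add_mem (add_mem a4 (add_mem (J _ bc _ p.yq.2) (J _ bc' _ p.ybq.2)))
    (J _ (mul_mem (mul_mem (ofNat_mem _ 2) p.b) (In.bsB p.bσ)) _ a6)
  refine mem_of (J _ (mul_mem (mul_mem hf_mem hf_mem) (ov.cs h).mem) _ a7) ?_
  simp only [map_sub, map_mul, map_one, a5]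
  linear_combination -ε * e2 - hf m.S * v * ε * o.bs (D.σ φ) * two_hf (A := m.S)

end Dt

end Vale.Agent.P354RI
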