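import Vale.Agent.P354RI.Tri

/-!
The algebra of type D on the quotient.
-/

noncomputable section

namespace Vale.Agent.P354RI

open Vale.Agent.P354XG Vale.Agent.P354XG.Geo Vale.Agent.P354XR Vale.Agent.P354NP
open Vale.Agent.P354XF (fr)

variable {R R' : Type} [CommRing R] [Algebra ℂ R] [CommRing R'] [Algebra ℂ R'] {c : R →+* R}
  {c' : R' →+* R'}

/-- G is a transverse calculus with negligible P0, P4 which is close to the Kerr chart K. -/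
structure Nk (N : Tri c) (G : GHP R) (K : KC R) (ze zi ka : R) : Prop where
  is : G.Is
  ki : K.Is
  gc : G.c = c
  kc : K.c = c
  H : G.H = K.H
  B : G.Hb = K.B
  kp : ∀ b, N.Kp (fr G b)
  kT : N.Kp K.T
  kR : N.Kp K.R
  kP : N.Kp K.P
  kQ : N.Kp K.Q
  kr : KR (fun a _ => a ∈ N.B) K K
  P1 : G.P1 = 0
  P3 : G.P3 = 0
  P0 : G.P0 ∈ N.I
  P4 : G.P4 ∈ N.I
  cl : ∀ b, ∀ f ∈ N.B, fr G b f - fr K.kerr b f ∈ N.S
  rh : G.rh - K.rh ∈ N.S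
  rh2 : G.rh' - K.rh2 ∈ N.S
  ta : G.ta - K.ta ∈ N.S
  ta2 : G.ta' - K.ta2 ∈ N.S
  czi : zi - ka * K.z ∈ N.S
  bze : ze ∈ N.B
  bka : ka ∈ N.B
  e : ze * zi = 1
  e3 : zi ^ 3 = G.P2
  ka3 : ka ^ 3 = -(2 * K.M)
  cka : c ka = ka
  dk : ∀ b, fr G b ka = 0
  da : ∀ b, fr G b K.a = 0
  dM : ∀ b, fr G b K.M = 0
  ua : ∃ u ∈ N.B, K.a * u = 1
  uM : ∃ u ∈ N.B, K.M * u = 1
  ur : ∃ u ∈ N.B, K.r * u = 1

namespace Nk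
variable {N : Tri c} {G : GHP R} {K : KC R} {ze zi ka : R} (h : Nk N G K ze zi ka)
include h

theorem crh : N.Cs G.rh K.rh := ⟨h.kr.rh, h.rh⟩
theorem crh2 : N.Cs G.rh' K.rh2 := ⟨h.kr.rh2, h.rh2⟩
theorem cta : N.Cs G.ta K.ta := ⟨h.kr.ta, h.ta⟩
theorem cta2 : N.Cs G.ta' K.ta2 := ⟨h.kr.ta2, h.ta2⟩
theorem cz : N.Cs zi (ka * K.z) := ⟨mul_mem h.bka h.kr.z, h.czi⟩
theorem bP2 : G.P2 ∈ N.B := h.e3 ▸ pow_mem h.cz.mem 3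

theorem div {u v : R} (e : 3 * u * G.P2 = v) (hv : v ∈ N.I) : u ∈ N.I := by
  have t : (3 : R) * algebraMap ℂ R (1 / 3) = 1 := by
    rw [← map_ofNat (algebraMap ℂ R) 3, ← map_mul]; norm_num
  have e1 : ze ^ 3 * G.P2 = 1 := by rw [← h.e3, ← mul_pow, h.e, one_pow]
  rw [show u = algebraMap ℂ R (1 / 3) * ze ^ 3 * v by
    linear_combination algebraMap ℂ R (1 / 3) * ze ^ 3 * e - u * t -
      3 * algebraMap ℂ R (1 / 3) * u * e1]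
  exact N.mI _ (mul_mem (algebraMap_mem _ _) (pow_mem h.bze 3)) _ hv

theorem ika : G.ka ∈ N.I :=
  h.div (h.is.tr_ka h.P1) (sub_mem ((h.kp 3).I _ h.P0) (N.mI _ h.cta2.mem _ h.P0))
theorem isi : G.si ∈ N.I :=
  h.div (h.is.tr_si h.P1) (sub_mem ((h.kp 1).I _ h.P0) (N.mI _ h.crh2.mem _ h.P0))
theorem ika' : G.ka' ∈ N.I :=
  h.div (h.is.pr.tr_ka h.P3) (sub_mem ((h.kp 2).I _ h.P4) (N.mI _ h.cta.mem _ h.P4))
theorem isi' : G.si' ∈ N.I :=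
  h.div (h.is.pr.tr_si h.P3) (sub_mem ((h.kp 0).I _ h.P4) (N.mI _ h.crh.mem _ h.P4))

theorem gin : G.In N.B :=
  have i := fun a ha => N.SB a (N.IS a ha)
  ⟨h.gc ▸ N.cB, (h.kp 0).B, (h.kp 1).B, (h.kp 2).B, (h.kp 3).B, (h.kp 4).B, (h.kp 5).B,
    i _ h.ika, i _ h.isi, h.crh.mem, h.cta.mem, i _ h.ika', i _ h.isi', h.crh2.mem, h.cta2.mem,
    i _ h.P0, h.P1 ▸ zero_mem _, h.bP2, h.P3 ▸ zero_mem _, i _ h.P4⟩

theorem stb : (G.sub N.B h.gin).Stable N.ie :=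
  ⟨fun f hf => show G.c f.1 ∈ N.I from h.gc ▸ N.cI _ hf, fun f => (h.kp 0).I f.1,
    fun f => (h.kp 1).I f.1, fun f => (h.kp 2).I f.1, fun f => (h.kp 3).I f.1,
    fun f => (h.kp 4).I f.1, fun f => (h.kp 5).I f.1⟩

/-- The calculus on the quotient. -/
def Gq : GHP N.Q := (G.sub N.B h.gin).quot N.ie h.stb

theorem isD : h.Gq.IsD :=
  (h.is.sub N.B h.gin).quot_isD N.ie h.stb h.P0 (show G.P1 ∈ N.I from h.P1 ▸ zero_mem _)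
    (show G.P3 ∈ N.I from h.P3 ▸ zero_mem _) h.P4
    (IsUnit.of_mul_eq_one ⟨ze ^ 3, pow_mem h.bze 3⟩ (Subtype.ext (by
      show G.P2 * ze ^ 3 = 1
      rw [← h.e3, ← mul_pow, mul_comm, h.e, one_pow])))

theorem star_c (q : N.Q) : star q = h.Gq.c q := by
  obtain ⟨f, hf, rfl⟩ := Tri.sj q
  exact (Tri.rp_mk hf).star.fn ⟨h.gin.c f hf, rfl⟩ (by rw [h.gc])

/-- The algebra of type D. -/
def T : TD N.Q := h.isD.td h.star_c (N.mk' ⟨ze, h.bze⟩) (N.mk' ⟨zi, h.cz.mem⟩)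
  ((Tri.rr.mul (Tri.rp_mk _) (Tri.rp_mk _)).fn Tri.rr.one h.e)
  ((Tri.rr.pow (Tri.rp_mk _) 3).fn (Tri.rp_mk h.bP2) h.e3)

theorem rD (b : Fin 6) {f : R} {q : N.Q} (k : N.Rp f q) : N.Rp (fr G b f) (h.T.D b q) := by
  have e : h.T.D b = (h.kp b).qt := by fin_cases b <;> rfl
  exact e ▸ k.D _

theorem rr : N.Rp G.rh h.T.r := Tri.rp_mk _
theorem rr2 : N.Rp G.rh' h.T.r2 := Tri.rp_mk _
theorem rt : N.Rp G.ta h.T.t := Tri.rp_mk _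
theorem rt2 : N.Rp G.ta' h.T.t2 := Tri.rp_mk _
theorem rze : N.Rp ze h.T.ze := Tri.rp_mk _
theorem rzi : N.Rp zi h.T.zi := Tri.rp_mk _

/-- The chart on the quotient. -/
def Kq : KC N.Q where
  c := N.cq
  T := h.kT.qt
  R := h.kR.qt
  P := h.kP.qt
  Q := h.kQ.qt
  H := (h.kp 4).qt
  B := (h.kp 5).qt
  r := N.mk' ⟨_, h.kr.r⟩
  x := N.mk' ⟨_, h.kr.x⟩
  s := N.mk' ⟨_, h.kr.s⟩
  sb := N.mk' ⟨_, h.kr.sb⟩
  N := N.mk' ⟨_, h.kr.N⟩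
  Ni := N.mk' ⟨_, h.kr.Ni⟩
  sg := N.mk' ⟨_, h.kr.sg⟩
  a := N.mk' ⟨_, h.kr.a⟩
  M := N.mk' ⟨_, h.kr.M⟩

def kq : N.Q := N.mk' ⟨ka, h.bka⟩
theorem rk : N.Rp ka h.kq := Tri.rp_mk _

theorem kd : KD N.Rp K h.Kq where
  rr := Tri.rr
  r := Tri.rp_mk _
  x := Tri.rp_mk _
  s := Tri.rp_mk _
  sb := Tri.rp_mk _
  N := Tri.rp_mk _
  Ni := Tri.rp_mk _
  sg := Tri.rp_mk _
  a := Tri.rp_mk _
  M := Tri.rp_mk _
  c k := h.kc ▸ k.cq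
  T k := k.D h.kT
  R k := k.D h.kR
  P k := k.D h.kP
  Q k := k.D h.kQ
  H k := h.H ▸ k.D (h.kp 4)
  B k := h.B ▸ k.D (h.kp 5)

theorem const {f : R} {q : N.Q} (k : N.Rp f q) (e : ∀ b, fr G b f ∈ N.I) : h.T.Const q :=
  have u := fun b => (h.rD b k).zero_iff.2 (e b)
  ⟨u 0, u 1, u 2, u 3, u 4, u 5⟩

theorem near (i : N.Inv) (root : ∀ a ∈ N.S, ∀ b ∈ N.S, ∀ d ∈ N.S,
    ∃ z ∈ N.B, 1 + z + a * z ^ 2 + b * z ^ 3 + d * z ^ 4 = 0) : Near h.T h.Kq N.Sq h.kq := by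
  have r := Tri.rr (N := N)
  have k := h.kd
  have cl : ∀ b q, h.T.D b q - fr h.Kq.kerr b q ∈ N.Sq := fun b q =>
    let ⟨f, hf⟩ := Tri.sj q; (h.rD b hf).sub_sq (k.fr b hf) (h.cl b f hf.mem)
  have un : ∀ {f q}, N.Rp f q → (∃ u ∈ N.B, f * u = 1) → IsUnit q := fun l ⟨_, m, e⟩ => l.unit m e
  refine ⟨k.is Tri.sj Tri.Rp.fn h.ki, fun _ => rfl, rfl, rfl, ?_, ?_, cl 0, cl 1, cl 2, cl 3,
    h.rr.sub_sq k.rh h.rh, h.rr2.sub_sq k.rh2 h.rh2, h.rt.sub_sq k.ta h.ta,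
    h.rt2.sub_sq k.ta2 h.ta2, h.rzi.sub_sq (r.mul h.rk k.z) h.czi,
    (r.pow h.rk 3).fn (r.neg (r.mul r.two k.M)) h.ka3, h.rk.star.fn h.rk h.cka,
    h.const h.rk fun b => h.dk b ▸ zero_mem _, h.const k.a fun b => h.da b ▸ zero_mem _,
    h.const k.M fun b => h.dM b ▸ zero_mem _, un k.a h.ua, un k.M h.uM, un k.r h.ur,
    Tri.sq_inv i, ?_⟩
  · rintro _ ⟨f, hf, l⟩
    exact ⟨_, N.cS f hf, l.star⟩
  · rintro b _ ⟨f, hf, l⟩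
    exact ⟨_, (h.kp b).S f hf, h.rD b l⟩
  · rintro _ ⟨a, ha, l1⟩ _ ⟨b, hb, l2⟩ _ ⟨d, hd, l3⟩
    obtain ⟨z, hz, e⟩ := root a ha b hb d hd
    have l := Tri.rp_mk hz
    exact ⟨_, (r.add (r.add (r.add (r.add r.one l) (r.mul l1 (r.pow l 2))) (r.mul l2 (r.pow l 3)))
      (r.mul l3 (r.pow l 4))).fn r.zero e⟩

variable {N' : Tri c'} {G' : GHP R'} {K' : KC R'} {ze' zi' ka' : R'} {φ : R →ₐ[ℂ] R'}

theorem th (h' : Nk N' G' K' ze' zi' ka') (m : N.Hm N' φ) (g : GHP.Hom G G' φ) (e1 : φ ze = ze')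
    (e2 : φ zi = zi') : TH h.T h'.T m.qt where
  st q := let ⟨f, k⟩ := Tri.sj q; (k.star.map m).fn (k.map m).star (m.c f)
  D b q := let ⟨f, k⟩ := Tri.sj q; ((h.rD b k).map m).fn (h'.rD b (k.map m)) (by
    fin_cases b
    exacts [g.th f, g.tp f, g.et f, g.ep f, g.H f, g.Hb f])
  r := (h.rr.map m).fn h'.rr g.rh
  r2 := (h.rr2.map m).fn h'.rr2 g.rh'
  t := (h.rt.map m).fn h'.rt g.ta
  t2 := (h.rt2.map m).fn h'.rt2 g.ta'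
  ze := (h.rze.map m).fn h'.rze e1
  zi := (h.rzi.map m).fn h'.rzi e2

/-- The smaller region. -/
def lc (h' : Nk N' G' K' ze' zi' ka') (m : N.Hm N' φ) (g : GHP.Hom G G' φ) (e1 : φ ze = ze')
    (e2 : φ zi = zi') (i : N'.Inv) : Lc h.T N.Sq N'.Q where
  T' := h'.T
  φ := m.qt
  S' := N'.Sq
  hom := h.th h' m g e1 e2
  le := fun _ ⟨f, hf, k⟩ => ⟨_, m.S f hf, k.map m⟩
  inv := Tri.sq_inv i

end Nk

end Vale.Agent.P354RI
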