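import Vale.Agent.P354RI.Phs
import Vale.Agent.P354XD.Qrt
import Vale.Agent.P354NP.Per
import Vale.Agent.P354NP.Pot
import Vale.Agent.P354PQ.Per

/-!
The rigidity theorem.
-/

open scoped ContDiff
open Set Filter Topology

noncomputable section

namespace Vale.Agent.P354RI

open Vale.Agent.P354XG hiding Dom Dom0 Bd bdSub domI Keeps Low dom0_mk dom0_zero dom0_cst dom_of
  dom_zero dom_cst bd_alg dom_sum dom0_sum keeps_pd keeps_zero keeps_sum bd_closure dom_pb_aff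
  bd_fn bd_par Conn gron gron0 dom_of_sys dom_sub_ev0
open Vale.Agent.P354MG Vale.Agent.P354XD Vale.Agent.P354XR Vale.Agent.P354NP
open Vale.Agent.P354XF (fr)

variable {J : Type} {m : Dm J} [Gr m.sF] {o : m.Ok} {M a : ℝ} {G : GHP m.S} {μ ν : ℕ → m.Q → ℝ}

namespace Dt
variable {h : In m o M a G μ ν} (D : Dt h)

/-- The time function. -/
theorem ex_t (pot : POT) (tim : TIM) : ∃ t, cj t = t ∧ m.h.H t = 0 ∧
    ∀ i, (h.g sb_sa).Ci (m.h.d i t) (D.F i 0 - D.F i 1) := by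
  obtain ⟨u, cu, Hu, -, hu⟩ := pot J m o _ D.bas0
  obtain ⟨d0, di⟩ := (hu μ h.wμ).1 D.cl0
  obtain ⟨w, cw, w0, wi⟩ := tim J m o (D.F 0 0) (D.c_F 0 0)
  refine ⟨u + w - D.r, by rw [map_sub, map_add, cu, cw, D.n.cr], ?_, fun i => ?_⟩
  · rw [D_sub, D_add, Hu, D.n.Hr, Hp.H_ap, wi 2 (by decide), wi 3 (by decide)]; ring
  · rw [D_sub]
    refine Tri.rr_ci.sub ⟨In.toB (D.cF i 0).mem, ?_⟩ (In.toI (D.dr i))
    rw [D_add]
    by_cases e : i = 0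
    · subst e
      exact mem_of (I := (h.g sb_sa).I) d0 (by rw [w0]; ring)
    · exact mem_of (I := (h.g sb_sa).I) (di i e) (by rw [wi i e, add_zero])

variable {D} {φ ε : m.S} (p : D.Ph φ ε)

variable (D φ) in
/-- The new chart. -/
def yy (t : m.S) : Fin 6 → m.S := ![t, D.r, D.Y φ 2, D.Y φ 3, cj (D.Y φ 2), cj (D.Y φ 3)]

include p

theorem Ph.yy_eq (t : m.S) (k : Fin 6) (hk : 2 ≤ k) : D.yy φ t k = D.Y φ k := by
  fin_cases k <;> simp [yy, p.c_Y, bz] at hk ⊢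

theorem Ph.kr (t : m.S) : KR (fun a b => AlgHom.id ℂ m.S a = b) D.K
    (ky cj (D.yy φ t) D.Ni D.sg D.ah D.Mh) := by
  have e := ex_neg φ
  have y := fun k hk => p.yy_eq t k hk
  refine ⟨rr_hom _, rfl, ?_, ?_, ?_, ?_, rfl, rfl, rfl, rfl⟩ <;>
    simp only [AlgHom.id_apply, D.sp.x, D.sp.s, D.sp.sb, D.sp.N, ky, kk, Hp.kc, Hp.N,
      y 2 le_rfl, y 3 (by decide), y 4 (by decide), y 5 (by decide), Y, sn, Matrix.cons_val,
      one_mul, neg_mul, show D.K.Ni = D.Ni from rfl]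
  · linear_combination -(D.y 2 * D.y 4 - D.y 3 * D.y 5) * D.Ni * e
  · linear_combination -(2 * D.y 2 * D.y 3) * D.Ni * e
  · linear_combination -(2 * D.y 4 * D.y 5) * D.Ni * e
  · linear_combination -(D.y 2 * D.y 4 + D.y 3 * D.y 5) * e

theorem Ph.dyy {t : m.S} (ht : ∀ i, (h.g sb_sa).Ci (m.h.d i t) (D.F i 0 - D.F i 1)) (i k : Fin 6) :
    (h.g sb_sa).Ci (m.h.d i (D.yy φ t k)) (zv (D.F i) (D.yy φ t) k) := by
  by_cases hk : 2 ≤ k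
  · have e : zv (D.F i) (D.yy φ t) k = zv (D.F i) (D.Y φ) k := by
      fin_cases k <;> simp [zv, p.yy_eq] at hk ⊢
    have r := Tri.rr_ci (N := h.g sb_sa)
    have b : zv (D.F i) (D.Y φ) k ∈ (h.g sb_sa).B :=
      (rr_mem _).zv (e' := D.F i) (y' := D.Y φ) (fun l => In.toB (D.cF i l).mem) (fun l _ => p.bY l) k
    have z : (h.g sb_sa).Ci ε 0 := In.toI ⟨zero_mem _, (sub_zero ε).symm ▸ p.eI⟩
    rw [e, p.yy_eq t k hk]
    exact (p.dY i k hk).trans ((r.add (.refl b) (r.mul (r.mul (r.sn k) (r.mul (r.dl i 0) z))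
      (.refl (p.bY k)))).of rfl (by ring))
  · fin_cases k
    exacts [ht i, In.toI (D.dr i), (hk le_rfl).elim, (hk (by decide)).elim, (hk (by decide)).elim,
      (hk (by decide)).elim]

theorem Ph.out {t : m.S} (ct : cj t = t) (Ht : m.h.H t = 0)
    (ht : ∀ i, (h.g sb_sa).Ci (m.h.d i t) (D.F i 0 - D.F i 1)) :
    Out m o M a G μ ν t D.r (D.Y φ 2) (D.Y φ 3) D.Mh D.ah D.Ni D.sg (D.yy φ t)
      (ky cj (D.yy φ t) D.Ni D.sg D.ah D.Mh) := by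
  have k := p.kr t
  have n := h.gnh D.z sb_sa
  have B : ∀ i, m.h.B (D.Y φ i) = cj (wz _ (bz i)) * D.Y φ i := fun i => by
    rw [← cj_cj (D.Y φ i), ← P354XO.cj_H, p.c_Y, p.H_Y, map_mul]
  obtain ⟨c1, c2, c3, c4, c5⟩ := D.crh
  refine ⟨rfl, rfl, ⟨ct, D.n.cr, Ht, D.n.Hr, (p.H_Y 2).trans (one_mul _), ?_,
    (p.H_Y 3).trans (one_mul _), ?_⟩, D.n.cM, D.n.ca, D.n.HM, D.n.Ha, k.N ▸ D.n.hN, k.x ▸ D.n.hg,
    In.toB D.n.ks.Ni.mem, In.toB D.n.ks.sg.mem, fun i => ?_, (In.toS D.n.ks.r).2,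
    (p.cY 2 (by decide)).2, (p.cY 3 (by decide)).2, (In.toS D.n.ks.M).2, (In.toS D.n.ks.a).2,
    fun b i => ?_, fun i => (D.dM i).db, fun i => (D.da i).db, k.rh ▸ (In.toI c1).2,
    k.rh2 ▸ (In.toI c2).2, k.ta ▸ (In.toI c3).2, k.ta2 ▸ (In.toI c4).2, k.P2 ▸ (In.toI c5).2,
    n.nk.ika, n.nk.isi, n.nk.ika', n.nk.isi'⟩
  · simp [B, wz, bz]
  · simp [B, wz, bz]
  · exact mem_of (I := (h.g sb_sa).S) ((ht i).cs.trans (In.toS (D.ct i))).2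
      (by rw [← D_sub, sub_sub])
  · have e : kc (ky cj (D.yy φ t) D.Ni D.sg D.ah D.Mh) b =
        fun l => ∑ i, fr G b (m.h.z i) * D.F i l :=
      funext fun l => (k.kc b l).symm.trans (D.sum_F b l).symm
    rw [e, zv_sum, n.eq b (D.yy φ t i)]
    exact (Tri.rr_ci.sum fun l => Tri.rr_ci.mul (.refl (n.cE b l).mem) (p.dyy ht l i)).2

end Dt

theorem rig_of (nat : NAT) : RIG := fun J m _ o M a G μ ν h => by
  obtain ⟨ze, zi, k, z⟩ := h.ex_zi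
  obtain ⟨e, be, he⟩ := frm J m o M a G μ ν h
  obtain ⟨K', ik, cl⟩ := h.ex_K z ⟨be, he⟩ alg conn qrt P354PQ.per
  obtain ⟨r, e1, e2, Ni, sg, ah, Mh, n⟩ := nat J m o M a G μ ν h ze zi k z K' ik cl
  let D : Dt h := ⟨ze, zi, k, z, e, ⟨be, he⟩, K', ik, r, e1, e2, Ni, sg, ah, Mh, n⟩
  obtain ⟨φ, ε, p⟩ := D.ex_ph (pot_of conn)
  obtain ⟨t, ct, Ht, ht⟩ := D.ex_t (pot_of conn) tim
  exact ⟨_, _, _, _, _, _, _, _, _, _, p.out ct Ht ht⟩

end Vale.Agent.P354RI
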