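import Vale.Agent.P354CS.Sg
import Vale.Agent.P354Z.Cmb
import Vale.Agent.P354YT.Main
import Vale.Agent.P354XY.Cv

/-!
The sign of the derivative of a function with spacelike levels along the null frame.
-/

open scoped ContDiff
open Set Filter Topology Complex

noncomputable section

namespace Vale.Agent.P354RI

open Vale.Agent.P354n (R4)
open Vale.Agent.P354RC (bs cv sum_bs)
open Vale.Agent.P354XG Vale.Agent.P354XD Vale.Agent.P354XR Vale.Agent.P354XI Vale.Agent.P354Z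
open Vale.Agent.P354XE (Tw rd dr)
open Vale.Agent.P354XV (jet)
open Vale.Agent.P354YN (V4 N4 cM rV vc cV_rV gm_cV gm_add1 gm_add2 gm_smul1 gm_smul2 g0)
open Vale.Agent.P354CS (gq act_at)
open Vale.Agent.P354YO (sh IsTh)
open Vale.Agent.P354YT (No)
open Vale.Agent.P354BO (kS)

theorem prod_pos {G : N4} {k : V4} {l n : P354YN.C4} (rl : star l = l) (rn : star n = n)
    (sy : gq G n l = gq G l n) (ll : gq G l l = 0) (nn : gq G n n = 0) (ln : gq G l n = -1)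
    (sp : ∀ v : V4, v ≠ 0 → v ⬝ᵥ k = 0 → 0 < v ⬝ᵥ (G.mulVec v)) :
    0 < (l ⬝ᵥ P354YN.cV k).re * (n ⬝ᵥ P354YN.cV k).re := by
  have sk : ∀ x : P354YN.C4, star x ⬝ᵥ P354YN.cV k = star (x ⬝ᵥ P354YN.cV k) := fun x => by
    simp only [dotProduct, star_sum, star_mul', P354YN.cV, Pi.star_apply, RCLike.star_def,
      conj_ofReal]
  obtain ⟨α, hα⟩ : ∃ α : ℝ, l ⬝ᵥ P354YN.cV k = α :=
    ⟨_, (conj_eq_iff_re.1 ((sk l).symm.trans (by rw [rl]))).symm⟩
  obtain ⟨β, hβ⟩ : ∃ β : ℝ, n ⬝ᵥ P354YN.cV k = β :=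
    ⟨_, (conj_eq_iff_re.1 ((sk n).symm.trans (by rw [rn]))).symm⟩
  have key : ∀ a b : ℝ, a ≠ 0 ∨ b ≠ 0 → a * α + b * β = 0 → a * b < 0 := fun a b h0 h1 => by
    obtain ⟨v, hv⟩ : ∃ v, P354YN.cV v = (a : ℂ) • l + (b : ℂ) • n :=
      ⟨_, cV_rV (by simp only [star_add, star_smul, rl, rn, RCLike.star_def, conj_ofReal])⟩
    have q : gq G (P354YN.cV v) (P354YN.cV v) = (-(2 * (a * b)) : ℝ) ∧
        gq G (P354YN.cV v) l = -b ∧ gq G (P354YN.cV v) n = -a := by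
      simp only [hv, gm_add1, gm_add2, gm_smul1, gm_smul2, sy, ll, nn, ln]
      push_cast
      exact ⟨by ring, by ring, by ring⟩
    have v0 : v ≠ 0 := fun o => by
      have z : ∀ y, gq G (P354YN.cV v) y = 0 := fun y => by
        simp [o, P354YN.gm, P354YN.cV, dotProduct]
      rw [z, z, z] at q
      exact h0.elim (fun h => h (by simpa using q.2.2)) fun h => h (by simpa using q.2.1)
    have v1 : ((v ⬝ᵥ k : ℝ) : ℂ) = (a * α + b * β : ℝ) := by
      rw [ofReal_add, ofReal_mul, ofReal_mul, ← hα, ← hβ, ← smul_eq_mul, ← smul_eq_mul,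
        ← smul_dotProduct, ← smul_dotProduct, ← add_dotProduct, ← hv]
      simp only [dotProduct, P354YN.cV, ofReal_sum, ofReal_mul]
    have := sp v v0 ((ofReal_injective v1).trans h1)
    rw [ofReal_injective ((gm_cV ..).symm.trans q.1)] at this
    linarith
  rw [hα, hβ, ofReal_re, ofReal_re]
  rcases eq_or_ne α 0 with o | o
  · exact absurd (key 1 0 (.inl one_ne_zero) (by simp [o])) (by simp)
  · linarith [key β (-α) (.inr (neg_ne_zero.2 o)) (by ring)]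

variable {O : Set E6} {g : Tw} {F : Fr (Sm (on O))} {s : Sm (on O)} {f : R4 → ℝ} {x : E6}

/-- The derivatives along l and n do not vanish and have the same sign. -/
theorem sg_pos (h : Cone O) (hv : ∀ y ∈ O, VacAt g (pj y)) (N : F.WN (ge O g))
    (hs : ∀ y ∈ O, fv s y = f (pj y)) (hx : x ∈ O) (hf : DifferentiableAt ℝ f (pj x))
    (sp : P354XV.Spl g f (pj x)) :
    0 < rv ((F.ghp (ge O g)).th s) x * rv ((F.ghp (ge O g)).tp s) x := by
  have o : Off (on O) := on_of h.op fun y hy => ⟨(h.pos y hy).1.ne', (h.pos y hy).2⟩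
  obtain ⟨D, hD, hp', M, -⟩ := hv x hx
  have c : ∀ Z : Vec (Sm (on O)), (fun a => fv ((ge O g).cv Z a) x) = star fun a => fv (Z a) x :=
    fun Z => funext fun a => fv_cj _ _
  have d : ∀ Y Z : Vec (Sm (on O)), gq ((1 / 2 : ℝ) • g0 (jet 0 g (pj x))) (fun a => fv (Y a) x)
      (fun a => fv (Z a) x) = evO ⟨x, hx⟩ ((ge O g).dot Y Z) := fun Y Z => by
    have e : ∀ a b, evO ⟨x, hx⟩ ((ge O g).g a b) =
        cM ((1 / 2 : ℝ) • g0 (jet 0 g (pj x))) a b := fun a b => by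
      have r := ev_on (rs_pb o (f := fun _ => gc g a b)
        (on_of h.op fun y hy => (hv y hy).sm_g a b)) hx
      rw [← fv_in _ hx] at r
      show fv (_ * _) x = _
      rw [fv_mul, fv_alg _ hx, r, cM, Matrix.smul_apply, P354YN.g0_jet, tb_bs, smul_eq_mul,
        ofReal_mul]
      rfl
    simp only [Geo.dot, map_sum, map_mul, e, P354YN.gm, dotProduct, Matrix.mulVec, Finset.mul_sum]
    exact Finset.sum_congr rfl fun _ _ => Finset.sum_congr rfl fun _ _ => by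
      rw [mul_left_comm, mul_assoc]
      rfl
  have a := fun u => act_at h hs hx hf g u
  have i : (ge O g).Is := geo_is o _ (on_of h.op hv)
  simp only [rv, Fr.ghp, Geo.ghp, Geo.mk', a, Geo.hat]
  refine prod_pos (G := (1 / 2 : ℝ) • g0 (jet 0 g (pj x))) (by rw [← c, N.c_l])
    (by rw [← c, N.c_n]) (by rw [d, d, i.dot_comm]) (by rw [d, N.ll, map_zero])
    (by rw [d, N.nn, map_zero]) (by rw [d, N.ln, map_neg, map_one]) fun v v0 v1 => ?_
  have := sp (vc v) (fun e => v0 (by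
    rw [← P354YN.co_vc v, e]
    funext i
    fin_cases i <;> rfl)) (by
      rw [P354YN.vc_eq, map_sum, ← v1]
      simp only [map_smul, smul_eq_mul, dotProduct])
  rw [← P354YN.ip_jet hD M hp' 0, P354YN.ip, P354YN.co_vc] at this
  rw [Matrix.smul_mulVec, dotProduct_smul, smul_eq_mul]
  positivity

/-- The value of n. -/
def nv (F : Fr (Sm (on O))) (x : E6) : R4 := ∑ a, rv (F.n a) x • bs a

theorem tp_at (h : Cone O) (hs : ∀ y ∈ O, fv s y = f (pj y)) (hx : x ∈ O)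
    (hf : DifferentiableAt ℝ f (pj x)) :
    rv ((F.ghp (ge O g)).tp s) x = fderiv ℝ f (pj x) (nv F x) := by
  have a := fun u => act_at h hs hx hf g u
  simp only [rv, Fr.ghp, Geo.ghp, Geo.mk', a, Geo.hat, nv, map_sum, map_smul, dotProduct,
    P354YN.cV, re_sum, re_mul_ofReal, smul_eq_mul]

/-- The polynomial estimate. -/
theorem phi_est {w : Fin 11 → ℂ} {δ : Fin 6 → ℂ} {ρ ε : ℝ} (r : ‖w 0‖ ≤ ρ) (z1 : ‖w 1‖ ≤ 1)
    (z2 : ‖w 2‖ ≤ 1) (z3 : ‖w 3‖ ≤ 1) (z4 : ‖w 4‖ ≤ 1) (n : w 5 = 1) (u : ‖w 9‖ ≤ ε)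
    (v : ‖w 10‖ ≤ ε) (d : ∀ i, ‖δ i‖ ≤ ε) (e : ε ≤ 1) (c : Fin 4) :
    ‖∑ i, (δ i + cV w 1 i) * bV w i c - (Hp.e0 ℂ c - (hV w).om c)‖ ≤ (6 + 20 * ρ) * ε := by
  have m : ∀ {a b : ℂ}, ‖a‖ ≤ 1 → ‖b‖ ≤ 1 → ‖a * b‖ ≤ 1 := fun p q =>
    (norm_mul_le_of_le p q).trans_eq (mul_one _)
  have ad : ∀ {a b : ℂ}, ‖a‖ ≤ 1 → ‖b‖ ≤ 1 → ‖a + b‖ ≤ 2 ∧ ‖a - b‖ ≤ 2 := fun p q =>
    ⟨(norm_add_le_of_le p q).trans_eq (by norm_num), (norm_sub_le_of_le p q).trans_eq (by norm_num)⟩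
  have i1 : ‖ii ℂ‖ = 1 := norm_I
  have b0 : ‖Hp.e0 ℂ c‖ ≤ 1 := by fin_cases c <;> simp [Hp.e0]
  have b1 : ‖(hV w).om c‖ ≤ 2 ∧ ‖(hV w).mu c‖ ≤ 2 ∧ ‖(hV w).mub c‖ ≤ 2 := by
    fin_cases c <;> simp only [hV, Hp.om, Hp.mu, Hp.mub, n, Fin.reduceFinMk, Matrix.cons_val,
      mul_one, norm_neg, norm_zero, norm_mul (ii ℂ), i1, one_mul, mul_assoc (2 : ℂ),
      norm_mul (2 : ℂ), norm_ofNat]
    · norm_num
    · exact ⟨(ad (m z3 z2) (m z1 z4)).1, (ad (m z1 z1) (m z2 z2)).2, (ad (m z3 z3) (m z4 z4)).2⟩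
    · exact ⟨(ad (m z3 z2) (m z1 z4)).2, (ad (m z1 z1) (m z2 z2)).1, (ad (m z3 z3) (m z4 z4)).1⟩
    · exact ⟨(ad (m z1 z3) (m z2 z4)).2, by linarith [m z1 z2], by linarith [m z3 z4]⟩
  have b2 : ‖(hV w).kc.s‖ ≤ 2 ∧ ‖(hV w).kc.sb‖ ≤ 2 := by
    simp only [hV, Hp.kc, n, Matrix.cons_val, mul_one, mul_assoc (2 : ℂ), norm_mul (2 : ℂ),
      norm_ofNat]
    exact ⟨by linarith [m z1 z2], by linarith [m z3 z4]⟩
  have p := norm_mul_le_of_le r b1.2.1
  have q := norm_mul_le_of_le r b1.2.2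
  have k := norm_add_le_of_le (norm_add_le_of_le (norm_add_le_of_le (norm_add_le_of_le
    (norm_mul_le_of_le (d 0) b0) (norm_mul_le_of_le (d 1) (norm_sub_le_of_le b1.1 b0)))
    (norm_mul_le_of_le (norm_sub_le_of_le ((d 1).trans e) norm_one.le) (norm_add_le_of_le
      (norm_mul_le_of_le u b0) (norm_mul_le_of_le v (norm_sub_le_of_le
        (norm_mul_le_of_le (norm_mul_le_of_le i1.le b2.1) q)
        (norm_mul_le_of_le (norm_mul_le_of_le i1.le b2.2) p))))))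
    (norm_mul_le_of_le (d 2) q)) (norm_mul_le_of_le (d 3) p)
  refine (le_of_eq (congrArg norm ?_)).trans (k.trans_eq (by ring))
  have e1 : (kV w).Ni = 1 := n
  simp only [Fin.sum_univ_six, cV, kc, bV, Bz, e1, Matrix.cons_val, Pi.zero_apply,
    show Fin.castLE (show 4 ≤ 6 by norm_num) 1 = 1 from rfl, show (hV w).z 1 = w 0 from rfl]
  ring

variable {M a M' a' ρ ε : ℝ} {A B : ℝ → ℝ}

section
variable (c : Cone O) (hA : ContDiff ℝ ∞ A) (hB : ContDiff ℝ ∞ B) (hx : x ∈ O)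
include c hA hB hx

theorem ks_z (i : Fin 6) : fv ((kS O A B).z i) x = zc i (P354BO.lsh A B x) := by
  rw [← P354BO.lsh_z c hA hB, (P354BO.mq_lsh c hA hB).fv_pb _ hx]
  exact P354BO.fv_z i ((P354BO.mq_lsh c hA hB).mp hx)

theorem ks_Ni (n : nq x = 1) : evO ⟨x, hx⟩ (kS O A B).Ni = 1 := by
  have := congrArg (evO ⟨x, hx⟩) (P354BO.kS_is c hA hB).hN
  simp only [Hp.N, map_mul, map_add, map_one] at this
  have z : ∀ i, evO ⟨x, hx⟩ ((kS O A B).z i) = _ := ks_z c hA hB hx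
  rwa [z, z, z, z, show zc 2 _ * zc 4 _ + zc 3 _ * zc 5 _ = ((nq (P354BO.lsh A B x) : ℝ) : ℂ) by
    simp [zc, nq, mul_conj], P354BO.lsh_nq, n, ofReal_one, one_mul] at this

theorem ks_No (k : Fin 4) :
    (cv k (No (sh A B (pj x))) : ℂ) = Hp.e0 ℂ k - evO ⟨x, hx⟩ ((kS O A B).om k) := by
  have p0 := (c.pos x hx).1
  have j : evO ⟨x, hx⟩ _ = _ := P354BO.fv_co c hA hB k hx
  have j2 : evO ⟨x, hx⟩ ((kS O A B).z 1) = x.2.1 := ks_z c hA hB hx 1
  rw [Hp.co, map_add, map_mul, map_mul, j2] at j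
  rw [No, P354YO.rd_sh, rd_pj p0 (c.pos x hx).2]
  fin_cases k
  · simp [cv, Hp.e0, Hp.om]
  all_goals
    simp [cv, Hp.e0] at j ⊢
    rw [← j, inv_mul_cancel_left₀ (ofReal_ne_zero.2 p0.ne')]

theorem ks_tp (k : Fin 4) : rv ((F.ghp (ge O g)).tp ((kS O A B).co k)) x =
    cv k (fderiv ℝ (sh A B) (pj x) (nv F x)) := by
  have d := (cv k).hasFDerivAt.comp _
    ((P354BO.sh_at c hA hB hx).differentiableAt (by simp)).hasFDerivAt
  exact (tp_at (f := cv k ∘ sh A B) c (fun y hy => P354BO.fv_co c hA hB k hy) hx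
    d.differentiableAt).trans (congrArg (· (nv F x)) d.fderiv)

end

theorem om_hV {A : Type} [CommRing A] [Algebra ℂ A] (φ : A →+* ℂ) (hφ : φ (ii A) = ii ℂ)
    (K : Hp A) (p : Pm A) (u v : A) (k : Fin 4) : (hV (φ ∘ gv K p u v)).om k = φ (K.om k) := by
  fin_cases k <;> simp [Hp.om, hV, gv, hφ]

/-- The image of n in the ingoing chart is close to the ingoing null direction. -/
theorem n_near (h0 : 0 < M) (t : IsTh M M a A B) (c : Cone O) (hx : x ∈ O) (n : nq x = 1)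
    (r : x.2.1 ≤ ρ) (e : ε ≤ 1) (hd : ∀ i, ‖fv (dat (hp _) (pI O M M' a') (F.ghp (ge O g)) i -
      dat (hp _) (pI O M M' a') (kI O M M' a').kerr i) x‖ ≤ ε)
    (hu : |hs M (M, a, x.2.1) - hs M (M', a', x.2.1)| ≤ ε)
    (hv : |js M (M, a, x.2.1) - js M (M', a', x.2.1)| ≤ ε) :
    ‖fderiv ℝ (sh A B) (pj x) (nv F x) - No (sh A B (pj x))‖ ≤ (6 + 20 * ρ) * ε := by
  obtain ⟨hA, hB, -⟩ := P354BO.th_sm h0 t
  have ek : kk (kS O A B) { pI O M M a with h1 := 1, j1 := 0 } = kk (hp (on O)) (pI O M M a) :=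
    P354BO.kk_S c h0 t
  have z := fun i => congrArg norm (ks_z c hA hB hx i)
  have n1 : nq (P354BO.lsh A B x) = 1 := (P354BO.lsh_nq x).trans n
  have n2 : ‖(P354BO.lsh A B x).2.2.1‖ ≤ 1 ∧ ‖(P354BO.lsh A B x).2.2.2‖ ≤ 1 := by
    simp only [nq, normSq_eq_norm_sq] at n1
    constructor <;> nlinarith [norm_nonneg (P354BO.lsh A B x).2.2.1,
      norm_nonneg (P354BO.lsh A B x).2.2.2]
  have u : ‖fv ((pI O M M a).h1 - (pI O M M' a').h1) x‖ ≤ ε := by
    simp only [P354BO.fv_sb hx, pI, P354CV.fv_rf c (P354CV.hs_on h0 _ _) hx, ← ofReal_sub,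
      norm_real]
    exact hu
  have v : ‖fv ((pI O M M a).j1 - (pI O M M' a').j1) x‖ ≤ ε := by
    simp only [P354BO.fv_sb hx, pI, P354CV.fv_rf c (P354CV.js_on h0 _ _) hx, ← ofReal_sub,
      norm_real]
    exact hv
  have key : ∀ k, |cv k (fderiv ℝ (sh A B) (pj x) (nv F x) - No (sh A B (pj x)))| ≤
      (6 + 20 * ρ) * ε := fun k => by
    have e2 := congrArg (evO ⟨x, hx⟩) (fld_co (p := pI O M M' a') (D := f4 (F.ghp (ge O g)) 1)
      (P354BO.kS_is c hA hB) ek (P354CV.cone_hp c) (P354CV.spn_ghp (P354CV.cone_hp c) _ _ F 1) 1 k)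
    simp only [map_sum, map_mul, map_add, bV_map _ (ev_ii _), cV_map _ (ev_ii _)] at e2
    have := phi_est (w := evO ⟨x, hx⟩ ∘ gv (kS O A B) (pI O M M' a')
      ((pI O M M a).h1 - (pI O M M' a').h1) ((pI O M M a).j1 - (pI O M M' a').j1)) (ρ := ρ)
      ((z 1).trans_le ((norm_real _).trans_le ((abs_of_pos (c.pos x hx).1).trans_le r)))
      ((z 2).trans_le n2.1) ((z 3).trans_le n2.2) ((z 4).trans_le ((norm_conj _).trans_le n2.1))
      ((z 5).trans_le ((norm_conj _).trans_le n2.2)) (ks_Ni c hA hB hx n) u v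
      (fun i => hd (.inl (1, i))) e k
    rw [om_hV _ (ev_ii _), ← ks_No c hA hB hx] at this
    refine le_trans (le_of_eq ?_) ((abs_re_le_norm _).trans this)
    rw [map_sub, sub_re, ofReal_re, ← ks_tp (g := g) c hA hB hx]
    exact congrArg (fun u : ℂ => |u.re - _|) e2
  exact max_le (key 0) (max_le (key 1) (max_le (key 2) (key 3)))

/-- The lid function grows along the vectors close to the ingoing null direction. -/
theorem tau_pos {c : P354YT.Pm} (h : c.Ok) (H : deriv c.H = 0) {p q Z : R4} (hp : p ∈ c.D)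
    (r : rd p ≤ c.Rs) (q0 : 0 < rd q) (pq : 3 * ‖(q - p).2‖ ^ 2 ≤ rd p * rd q)
    (z : ‖Z - No q‖ ≤ 1 / 10) : 0 < fderiv ℝ c.tau p Z := by
  have p0 := h.pos hp
  obtain ⟨e1, e2⟩ := P354YT.Pm.near_eq (c := c) (w := (p.1, rd p)) r
  have k1 : c.tR (p.1, rd p) ≤ 1 / 2 := by
    have := div_nonneg (P354YT.Pm.n1_nonneg (c := c) (le_of_lt hp)) (sq_nonneg (rd p - c.r1))
    suffices c.n2 (rd p) ≤ 1 / 2 by rw [e2, H, Pi.zero_apply]; linarith
    rcases le_total (rd p) c.R1 with k | k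
    · linarith [P354YT.Pm.n2_zero k]
    · have j := P354YT.qm_pos h.sub (show P354I.rp c.M c.a < rd p by linarith [h.rpR])
      have j1 := h.out _ k
      rw [P354YT.Pm.n2]
      rw [H, Pi.zero_apply] at *
      nlinarith [P354YT.st_mem (rd p - c.R1)]
  have k2 := (abs_le.1 ((norm_fst_le (Z - No q)).trans z)).1
  have k3 := abs_le.1 ((P354XY.dr_le p0.ne' (Z - No q)).2.trans
    (mul_le_mul_of_nonneg_left z zero_le_two))
  have e3 : dr p (Z - No q) = dr p Z + P354XA.ip p q / (rd p * rd q) := by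
    simp only [P354XA.dr_eq, P354XA.ip, No, Prod.snd_sub, Prod.fst_sub, Prod.smul_fst,
      Prod.smul_snd, smul_eq_mul]
    field_simp
    ring
  have k4 : P354XA.ip p q / (rd p * rd q) ∈ Icc (1 / 2 : ℝ) 1 := by
    have m := mul_pos p0 q0
    refine ⟨(le_div_iff₀ m).2 ?_, (div_le_one m).2 ?_⟩
    · have a1 := sq_le_sq' (abs_le.1 (norm_fst_le (q - p).2)).1 (abs_le.1 (norm_fst_le (q - p).2)).2
      have a2 := abs_le.1 ((norm_fst_le (q - p).2.2).trans (norm_snd_le _))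
      have a3 := abs_le.1 ((norm_snd_le (q - p).2.2).trans (norm_snd_le _))
      have a4 := P354XA.rd_sq p
      have a5 := P354XA.rd_sq q
      have a6 := sq_le_sq' a2.1 a2.2
      have a7 := sq_le_sq' a3.1 a3.2
      simp only [P354XA.ip, Prod.snd_sub, Prod.fst_sub] at *
      nlinarith [sq_nonneg (rd p - rd q)]
    · rw [← P354XA.inn]
      exact real_inner_le_norm _ _
  rw [h.tau_fd hp, e1]
  change -(1 / 10) ≤ Z.1 - 1 at k2
  rcases le_total (c.tR (p.1, rd p)) 0 with k | k <;> nlinarith [k4.1, k4.2]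

end Vale.Agent.P354RI
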