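import Vale.Agent.P354RI.Sga
import Vale.Agent.P354CQ.Geo
import Vale.Agent.P354XA.Uni

/-!
SGN: the gradient of the lid function is causal.
-/

open scoped ContDiff
open Set Filter Topology Complex

noncomputable section

namespace Vale.Agent.P354RI

open Vale.Agent.P354n (R4)
open Vale.Agent.P354XG Vale.Agent.P354XD Vale.Agent.P354XR Vale.Agent.P354XI Vale.Agent.P354Z
open Vale.Agent.P354XE (Tw rd gin)
open Vale.Agent.P354XO (b4 dn4 Cht Dif)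
open Vale.Agent.P354YO (sh IsTh)
open Vale.Agent.P354YT (No)
open Vale.Agent.P354MG
open Vale.Agent.P354CQ (of1)
open Vale.Agent.P354CQ.Gx

theorem par_unif {φ : ℝ × ℝ × ℝ → ℝ} (h : Continuous φ) (M a ρ : ℝ) {η : ℝ} (e : 0 < η) :
    ∃ δ > 0, ∀ M' a', |M' - M| + |a' - a| ≤ δ → ∀ r ∈ Icc 0 ρ,
      |φ (M, a, r) - φ (M', a', r)| ≤ η := by
  have k : ∀ᶠ p : ℝ × ℝ in 𝓝 (M, a), ∀ r ∈ Icc 0 ρ, |φ (M, a, r) - φ (p.1, p.2, r)| < η :=
    isCompact_Icc.eventually_forall_of_forall_eventually fun r _ =>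
      (show Continuous fun q : (ℝ × ℝ) × ℝ => |φ (M, a, q.2) - φ (q.1.1, q.1.2, q.2)| by
        fun_prop).continuousAt.eventually_lt continuousAt_const (by simpa using e)
  obtain ⟨δ, δ0, k⟩ := Metric.nhds_basis_closedBall.eventually_iff.1 k
  exact ⟨δ, δ0, fun M' a' p r m => (k (x := (M', a')) (max_le
    ((le_add_of_nonneg_right (abs_nonneg _)).trans p)
    ((le_add_of_nonneg_left (abs_nonneg _)).trans p)) r m).le⟩

theorem sign_ray {O : Set E6} (c : Cone O) {u : Sm (on O)} (h : ∀ x ∈ O, rv u x ≠ 0)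
    (k : ∀ x ∈ O, nq x = 1 → 0 < rv u x) {x : E6} (hx : x ∈ O) : 0 < rv u x := by
  have n := nq_pos (c.pos x hx).2
  have t0 : 0 < (√(nq x))⁻¹ := inv_pos.2 (Real.sqrt_pos.2 n)
  have m : ∀ t ∈ uIcc 1 (√(nq x))⁻¹, P354XO.sc (t : ℝ) x ∈ O := fun t ht =>
    c.hom x hx _ (ofReal_ne_zero.2 ((lt_min one_pos t0).trans_le ht.1).ne')
  have s : Continuous fun t : ℝ => P354XO.sc (t : ℝ) x := by
    simp only [P354XO.sc_ap]; fun_prop
  have k1 := k _ (m _ right_mem_uIcc) (by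
    rw [P354XO.nq_sc, normSq_ofReal, ← mul_inv, Real.mul_self_sqrt n.le, inv_mul_cancel₀ n.ne'])
  have e : P354XO.sc ((1 : ℝ) : ℂ) x = x := by simp [P354XO.sc_ap]
  by_contra j
  obtain ⟨t, ht, z⟩ := intermediate_value_uIcc (f := fun t : ℝ => rv u (P354XO.sc (t : ℝ) x))
    (fun t ht => (continuous_re.continuousAt.comp (ContinuousAt.comp (g := fv u) (x := t)
      (fv_sm c.op u (m t ht)).continuousAt s.continuousAt)).continuousWithinAt)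
    (mem_uIcc.2 (.inl ⟨(congrArg (rv u) e).trans_le (not_lt.1 j), k1.le⟩))
  exact h _ (m t ht) z

theorem near_inv {T : R4 →L[ℝ] R4} {Z W : R4} {e : ℝ}
    (h : ‖T - ContinuousLinearMap.id ℝ R4‖ ≤ e) (e1 : e ≤ 1 / 80) (k : ‖T Z - W‖ ≤ 1 / 20)
    (w : ‖W‖ ≤ 1) : ‖Z - W‖ ≤ 1 / 10 := by
  have a : ‖T Z - Z‖ ≤ e * ‖Z‖ := (T - ContinuousLinearMap.id ℝ R4).le_of_opNorm_le h Z
  have b := norm_sub_le (T Z - W) (T Z - Z)
  rw [sub_sub_sub_cancel_left] at b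
  have c := norm_sub_norm_le Z W
  nlinarith [norm_nonneg Z]

theorem No_le {q : R4} (h : 0 < rd q) : ‖No q‖ ≤ 1 := max_le norm_one.le (by
  rw [No, norm_smul, norm_neg, norm_inv, Real.norm_of_nonneg h.le]
  exact inv_mul_le_one_of_le₀ (P354XA.norm_le_rd q) h.le)

variable {f : Fx} {v : Va} {q : Qn} {Rb : ℝ} {x : E6}

theorem x01 (h : x ∈ f.X1 v q) : x ∈ f.X0 v q := ⟨h.1.1, h.2⟩

section
variable (o : f.Ok) (G : Ge f v q Rb) (hx : x ∈ f.X1 v q)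
include o G hx

omit G in
theorem ac_mem : f.ac v q x ∈ f.ch v q '' f.U v q := ⟨_, ⟨x, x01 hx, rfl⟩, ch_P o x⟩

theorem b4_d : HasFDerivAt (b4 (f.U v q) (f.ch v q))
    (fderiv ℝ (b4 (f.U v q) (f.ch v q)) (pj (f.ac v q x))) (pj (f.ac v q x)) :=
  (((cht G o).dif_b4.sm _ ⟨_, ac_mem o hx, rfl⟩).differentiableAt (by simp)).hasFDerivAt

theorem psi_S : dn4 (f.ch v q) (f.S (pj x)) = pj (f.ac v q x) := by
  rw [← pj_P ((cht0 G).eqv.pos x (x01 hx)), (cht G o).eqv.pj_dn ⟨x, x01 hx, rfl⟩, ch_P o]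

theorem psi_b4 {e : ℝ} (n : Nid 1 (fun y => sh f.A f.B (dn4 (f.ch v q) y)) (f.S (pj x)) e)
    (w : R4) : fderiv ℝ (fun y => sh f.A f.B (dn4 (f.ch v q) y)) (f.S (pj x))
      (fderiv ℝ (b4 (f.U v q) (f.ch v q)) (pj (f.ac v q x)) w) =
      fderiv ℝ (sh f.A f.B) (pj (f.ac v q x)) w := by
  have c := cht G o
  have d := ((b4_ac G o (x01 hx)).symm ▸ (n.sm.differentiableAt (by simp)).hasFDerivAt :
    HasFDerivAt _ _ (b4 (f.U v q) (f.ch v q) (pj (f.ac v q x)))).comp _ (b4_d o G hx)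
  have e : sh f.A f.B =ᶠ[𝓝 (pj (f.ac v q x))]
      (fun y => sh f.A f.B (dn4 (f.ch v q) y)) ∘ b4 (f.U v q) (f.ch v q) :=
    (c.dif_b4.op.eventually_mem ⟨_, ac_mem o hx, rfl⟩).mono fun y hy => congrArg _
      (c.symm.eqv.left_dn c.eqv (fun _ => Dif.mem) (fun _ k => Function.invFunOn_eq k) y hy).symm
  rw [e.fderiv_eq, d.fderiv, b4_ac G o (x01 hx)]
  rfl

omit o in
theorem ac_rad : f.z.r1 < x.2.1 ∧ x.2.1 < q.c.Rs ∧ f.a.r1 ≤ (f.ac v q x).2.1 ∧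
    (f.ac v q x).2.1 ≤ q.c.Rs + 1 := by
  have r1 : f.z.r1 < x.2.1 := hx.1.1.1.1
  have r2 : x.2.1 < q.c.Rs := hx.1.2
  have b : |(f.ac v q x).2.1 - x.2.1| ≤ q.k := G.su.r_near (of1 hx) r2
  have k : q.k ≤ 1 / 1000 := (G.su.nm.k1 G.su.e0).2.2.2
  have k1 : f.a.r1 + q.k ≤ f.z.r1 := G.su.nm.r1
  exact ⟨r1, r2, by linarith [(abs_le.1 b).1], by linarith [(abs_le.1 b).2]⟩

end

/-- The statement with the values of the data of the frame as a hypothesis. -/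
theorem sgn0 (o : f.Ok) (Rs : ℝ) : ∃ e > 0, ∀ v q Rb F e0 (E : Est), q.c.Rs = Rs →
    Ge f v q Rb → Cz f v q e → (∀ y ∈ f.O1 v q, nq y = 1 → ∀ i, ‖fv (dat (hp _)
      (pI _ f.z.M v.M v.a) ((fE _ (f.gE v q) f.z.M v.M v.a).ghp (ge _ (f.gE v q))) i -
        dat (hp _) (pI _ f.z.M v.M v.a) (kI (f.O1 v q) f.z.M v.M v.a).kerr i) y‖ ≤ e) →
    E = f.E v q F e0 → ∀ x ∈ E.O1, 0 ≤ rv (E.G1.th E.sig) x ∧ 0 ≤ rv (E.G1.tp E.sig) x ∧
      ‖fv (E.G1.et E.sig) x‖ ^ 2 ≤ rv (E.G1.th E.sig) x * rv (E.G1.tp E.sig) x := by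
  rcases lt_or_ge Rs (f.z.R1 + 1) with hs | hs
  · exact ⟨1, one_pos, fun v q Rb _ _ _ e G => by linarith [rs G]⟩
  obtain ⟨c, hc⟩ : ∃ c, c = f.z.pm Rs (f.z.R1 + 2) := ⟨_, rfl⟩
  have h : c.Ok := hc ▸ (o.ok.ok Rs hs _ le_rfl).1.1
  have h0 : 0 < f.z.M := (abs_nonneg _).trans_lt (th o).sub
  have a1 : 0 < f.a.r1 := (P354XA.hor (th o).sub).2.1.trans_lt o.nu.r1.1
  have R0 : 0 < Rs := by linarith [o.nu.r1.2.2.2.2]
  obtain ⟨c0, c1, mg⟩ := h.tauI.margin 0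
  obtain ⟨η, η0, η1, η2⟩ : ∃ η > 0, η ≤ 1 ∧ (6 + 20 * (Rs + 1)) * η ≤ 1 / 20 :=
    ⟨1 / 20 / (6 + 20 * (Rs + 1)), by positivity, (div_le_one (by positivity)).2 (by linarith),
      (mul_div_cancel₀ _ (by positivity)).le⟩
  obtain ⟨δ1, d1, u1⟩ := par_unif (P354CV.hs_cd h0).continuous f.z.M f.z.a (Rs + 1) η0
  obtain ⟨δ2, d2, u2⟩ := par_unif (P354CV.js_cd h0).continuous f.z.M f.z.a (Rs + 1) η0
  obtain ⟨e, e0, k1, k2, k3, k4, k5, k6⟩ : ∃ e > 0, e ≤ c0 / 2 ∧ e ≤ η ∧ e ≤ δ1 ∧ e ≤ δ2 ∧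
      e ≤ 1 / 80 ∧ e ≤ f.a.r1 / 2 := ⟨min (c0 / 2) (min η (min δ1 (min δ2 (min (1 / 80)
        (f.a.r1 / 2))))), by positivity, by simp only [← le_min_iff, le_refl]⟩
  refine ⟨e, e0, fun v q Rb F e' E r G z hd hE => ?_⟩
  subst r hE
  have R := rg G F e'
  have co : Cone (f.O1 v q) := R.co1
  have vac : ∀ y ∈ f.O1 v q, VacAt (f.gE v q) (pj y) := fun _ ⟨x, hx, e⟩ =>
    let ⟨D, l, k⟩ := lv0 G o (x01 hx)
    e ▸ ⟨D, l.isOpen, k, l.met, l.vac⟩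
  have w := (frK_wn (P354CV.cone_hp co) (P354CV.pI_is co h0 v.M v.a) (ge _ (f.gE v q)).Γ).rw
  have wn : (fE _ (f.gE v q) f.z.M v.M v.a).WN (ge _ (f.gE v q)) :=
    (Fr.full_wn (geo_is (P354CV.cone_pos co).off _ (on_of co.op vac))
      ⟨w.c_l, w.c_n, w.c_m, w.H_l, w.H_n, w.H_m, w.Hb_m⟩ z.ok).1
  have p6 : ∀ x ∈ f.X1 v q, x ∈ P354CQ.P6 := fun x hx => (cht0 G).eqv.pos x (x01 hx)
  have sg : ∀ y ∈ f.O1 v q, fv (f.E v q F e').sig y =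
      (c.tau ∘ b4 (f.U v q) (f.ch v q)) (pj y) := fun _ ⟨x, hx, e⟩ => by
    subst e
    rw [Function.comp, b4_ac G o (x01 hx), hc, tau_S o hs _ (p6 x hx)]
    exact R.sig x (of1 hx) ⟨x, hx, rfl⟩
  have D : ∀ x ∈ f.X1 v q, f.S (pj x) ∈ c.D ∧ rd (f.S (pj x)) ≤ c.Rs := fun x hx => by
    rw [hc]
    exact ⟨(ac_rad G hx).1.trans_eq (rd_S (p6 x hx)).symm,
      (rd_S (p6 x hx)).trans_le (ac_rad G hx).2.1.le⟩
  have d : ∀ x ∈ f.X1 v q, HasFDerivAt (c.tau ∘ b4 (f.U v q) (f.ch v q)) ((fderiv ℝ c.tau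
      (f.S (pj x))).comp (fderiv ℝ (b4 (f.U v q) (f.ch v q)) (pj (f.ac v q x))))
      (pj (f.ac v q x)) := fun x hx => HasFDerivAt.comp _ ((b4_ac G o (x01 hx)).symm ▸
    ((h.tau_cd (D x hx).1).differentiableAt (by simp)).hasFDerivAt) (b4_d o G hx)
  have sp : ∀ x ∈ f.X1 v q, P354XV.Spl (f.gE v q) (c.tau ∘ b4 (f.U v q) (f.ch v q))
      (pj (f.ac v q x)) := fun x hx u u0 j => by
    rw [(d x hx).fderiv] at j
    have j0 := norm_pos_iff.2 fun k => u0 ((cht G o).dif_b4.fd _ ⟨_, ac_mem o hx, rfl⟩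
      (k.trans (map_zero _).symm))
    have j1 := mg _ (D x hx).1 (by rw [P354YT.Pm.G_zero (D x hx).2, zero_mul]) 0
      ⟨le_rfl, by norm_num⟩ (fun _ => rfl)
      (fderiv ℝ (b4 (f.U v q) (f.ch v q)) (pj (f.ac v q x)) u) (by rw [zero_mul, add_zero]; exact j)
    have j2 := z.g x hx 0 zero_le_two
      (fderiv ℝ (b4 (f.U v q) (f.ch v q)) (pj (f.ac v q x)) u)
      (fderiv ℝ (b4 (f.U v q) (f.ch v q)) (pj (f.ac v q x)) u)
    rw [norm_iteratedFDeriv_zero] at j2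
    have j3 := (abs_le.1 j2).1
    rw [hc] at j1
    show 0 < v.g (b4 _ _ _) _ _
    rw [b4_ac G o (x01 hx)]
    simp only [Pi.sub_apply, Z1.pm] at j1 j3
    nlinarith [mul_pos j0 j0]
  have pp : ∀ y ∈ f.O1 v q, _ := fun _ ⟨x, hx, e⟩ =>
    e ▸ sg_pos co vac wn sg ⟨x, hx, rfl⟩ (d x hx).differentiableAt (sp x hx)
  have tp : ∀ y ∈ f.O1 v q, nq y = 1 → 0 < rv (((fE _ (f.gE v q) f.z.M v.M v.a).ghp
      (ge _ (f.gE v q))).tp (f.E v q F e').sig) y := fun _ ⟨x, hx, e⟩ n => by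
    subst e
    obtain ⟨-, -, r1, r2⟩ := ac_rad G hx
    have m : f.ac v q x ∈ f.O1 v q := ⟨x, hx, rfl⟩
    have r3 : rd (sh f.A f.B (pj (f.ac v q x))) = (f.ac v q x).2.1 :=
      (P354YO.rd_sh _ _ _).trans (rd_pj (co.pos _ m).1 (co.pos _ m).2)
    have q0 := (co.pos _ m).1.trans_eq r3.symm
    have j := (n_near h0 o.nu.th co m n r2 η1 (fun i => (hd _ m n i).trans k2)
      (u1 _ _ (z.par.trans k3) _ ⟨a1.le.trans r1, r2⟩)
      (u2 _ _ (z.par.trans k4) _ ⟨a1.le.trans r1, r2⟩)).trans η2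
    rw [← psi_b4 o G hx (z.nid x hx)] at j
    have j1 := (z.nid x hx).x
    simp only [psi_S o G hx] at j1
    refine lt_of_lt_of_eq ?_ (tp_at co sg m (d x hx).differentiableAt).symm
    rw [(d x hx).fderiv]
    refine tau_pos h (by rw [hc]; exact deriv_const' 0) (D x hx).1 (D x hx).2 q0 ?_
      (near_inv (z.nid x hx).d.zero k5 j (No_le q0))
    rw [r3, rd_S (p6 x hx)]
    have j2 := mul_le_mul (o.nu.r1.2.1.trans (ac_rad G hx).1).le r1 a1.le (p6 x hx).1.le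
    nlinarith [pow_le_pow_left₀ (norm_nonneg _) (j1.trans k6) 2]
  rintro _ ⟨x, hx, rfl⟩
  have m : f.ac v q x ∈ f.O1 v q := ⟨x, hx, rfl⟩
  have t := sign_ray co (fun y hy => right_ne_zero_of_mul (pp y hy).ne') tp m
  exact P354CS.sg _ _ _ _ _ co vac wn sg _ m (d x hx).differentiableAt (sp x hx)
    (add_pos ((mul_pos_iff_of_pos_right t).1 (pp _ m)) t)

end Vale.Agent.P354RI
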